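import Vale.Agent.P366Y.B.Defs

/-!
# P366Y, block B: the boost
-/

open MeasureTheory Metric Filter Topology Set
open scoped ContDiff ENNReal
open Vale.Agent.P366.Stmt Vale.Agent.P366Z Vale.Agent.P366Z.St0
open Vale.Agent.P366Y.A (Sy B0 Bk ck mg)
open Vale.Agent.P366.T1 (pull push)

noncomputable section

namespace Vale.Agent.P366Y.B

namespace BstH

variable {n : ℕ} {g g' K K' : Field n} {F : E n → ℝ} {x : E n}

theorem cov_ev (e : g =ᶠ[𝓝 x] g') (e' : K =ᶠ[𝓝 x] K') :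
    covNorm g (mom g K) x = covNorm g' (mom g' K') x := by
  have h0 : ∀ᶠ y in 𝓝 x, momT g K y = momT g' K' y := by
    filter_upwards [e, e'] with y hy hy'
    funext i j
    simp only [momT, tr, up_of_eq hy, hy, hy']
  have h1 : ∀ i j k, pd k (fun y => momT g K y i j) x = pd k (fun y => momT g' K' y i j) x :=
    fun i j k => pd_congr (h0.mono fun y hy => by simp only [hy]) k
  simp only [covNorm, mom, h1, h0.self_of_nhds, up_of_eq e.eq_of_nhds, chr_of_ev e]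

theorem mu_ev (e : g =ᶠ[𝓝 x] g') (e' : K x = K' x) : mu g K x = mu g' K' x := by
  simp only [mu, tr, normSq, scal_of_ev e, up_of_eq e.eq_of_nhds, e']

theorem th_ev (e : g =ᶠ[𝓝 x] g') (e' : K x = K' x) :
    thetaPlus g K F x = thetaPlus g' K' F x := by
  simp only [thetaPlus, trS, tr, hess, nrm, covNorm, up_of_eq e.eq_of_nhds, chr_of_ev e, e']

theorem rp_le {C C' t : ℝ} (h : C ≤ C') (x : E n) : C * ‖x‖ ^ t ≤ C' * ‖x‖ ^ t :=
  mul_le_mul_of_nonneg_right h (Real.rpow_nonneg (norm_nonneg _) _)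

theorem af_mono {q C C' R R' : ℝ} (h : Af g q C R) (hC : C ≤ C') (hR : R ≤ R') : Af g q C' R' :=
  fun x hx i j k l => ⟨(h x (hR.trans hx) i j k l).1.trans (rp_le hC x),
    (h x (hR.trans hx) i j k l).2.1.trans (rp_le hC x),
    (h x (hR.trans hx) i j k l).2.2.trans (rp_le hC x)⟩

theorem ak_mono {q C C' R R' : ℝ} (h : Ak K q C R) (hC : C ≤ C') (hR : R ≤ R') : Ak K q C' R' :=
  fun x hx i j k => ⟨(h x (hR.trans hx) i j k).1.trans (rp_le hC x),
    (h x (hR.trans hx) i j k).2.trans (rp_le hC x)⟩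

theorem bk_mono {q C C' R R' m : ℝ} (h : Bk g K F q C R m) (hC : C ≤ C') (hR : R ≤ R') :
    Bk g K F q C' R' m :=
  { h with
    C0 := h.C0.trans_le hC
    R1 := h.R1.trans hR
    af := af_mono h.af hC hR
    far := fun x hx => h.far x (hR.trans hx)
    dk := fun x hx => ⟨(h.dk x (hR.trans hx)).1.trans (rp_le hC x),
      (h.dk x (hR.trans hx)).2.trans (rp_le hC x)⟩ }

theorem sm_lv (v : Fin n → ℝ) : Smooth (lv v) :=
  ContDiff.sum fun i _ => contDiff_const.mul (EuclideanSpace.proj i : E n →L[ℝ] ℝ).contDiff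

theorem pd_lv (v : Fin n → ℝ) (i : Fin n) (y : E n) : pd i (lv v) y = v i := by
  have h : HasDerivAt (fun t : ℝ => lv v y + t * v i) (v i) 0 := by
    simpa using ((hasDerivAt_id (0 : ℝ)).mul_const (v i)).const_add (lv v y)
  refine HasLineDerivAt.lineDeriv (h.congr_of_eventuallyEq (Eventually.of_forall fun t => ?_))
  simp [lv, mul_add, Finset.sum_add_distrib, mul_comm]

/-- the model is a solution of the vacuum constraints -/
theorem model (sv1 : SV1) (sv2 : SV2) (pl : PULL) {a y₁ γ : ℝ} {u f : E n → ℝ} {v : Fin n → ℝ}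
    {L : E n ≃L[ℝ] E n} (hu : Su a y₁ u) (hL : Bo v γ L) (hf : Smooth f)
    (h1 : ∀ y, ∑ i, pd i f y ^ 2 < 1) : Met (gM L u f) ∧ Sy (kM L u f) ∧
      ∀ x, y₁ < ‖x‖ → covNorm (gM L u f) (mom (gM L u f) (kM L u f)) x ≤
        mu (gM L u f) (kM L u f) x := by
  obtain ⟨m1, m2, m3, m4, m5⟩ := sv2 n a y₁ u hu
  obtain ⟨k1, k2, k3⟩ := sv1 n _ _ f m1 m2 hf (fun y => (m3 y).1) fun y => by
    have k : sφ u y ^ 2 ≤ 1 := pow_le_one₀ (m3 y).1.le (m3 y).2
    have k' := mul_le_mul k (m4 f y) (m1.ip_nonneg f y) zero_le_one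
    linarith [h1 y]
  obtain ⟨p1, p2, p3⟩ := pl n L _ _ k1 k2
  refine ⟨p1, p2, fun x hx => ?_⟩
  obtain ⟨v1, v2⟩ := k3 _ (m5 (L x) (hx.trans_le (hL.lo x)))
  simp only [gM, kM]
  rw [(p3 x).1, (p3 x).2, v1]
  simp [covNorm, v2]

theorem loc {γ : Field n} {φ f f' : E n → ℝ} {y : E n} (e : f =ᶠ[𝓝 y] f') :
    sg γ φ f y = sg γ φ f' y ∧ sk γ φ f y = sk γ φ f' y := by
  have h1 : ∀ i j, pd i (pd j f) y = pd i (pd j f') y := fun i j => pd_congr (pd_congr_ev e j) i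
  refine ⟨?_, ?_⟩ <;> funext i j <;> simp only [sg, sk, hess, ip, pd_congr e, h1]

theorem pull_pt (L : E n ≃L[ℝ] E n) {T T' : Field n} {y : E n} (e : T (L y) = T' (L y)) :
    pull L T y = pull L T' y := by
  funext i j
  simp only [pull, e]

theorem ev_lt {r : ℝ} (h : r < ‖x‖) : ∀ᶠ y in 𝓝 x, r < ‖y‖ :=
  (continuous_norm.tendsto x).eventually (lt_mem_nhds h)

theorem ev_gt {r : ℝ} (h : ‖x‖ < r) : ∀ᶠ y in 𝓝 x, ‖y‖ < r :=
  (continuous_norm.tendsto x).eventually (gt_mem_nhds h)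

/-- two fields that agree on an annulus -/
theorem patch {A B : Field n} {T T₁ : ℝ} (hT : T < T₁)
    (h : ∀ y : E n, T < ‖y‖ → ‖y‖ < T₁ + 1 → A y = B y) : ∃ C : Field n,
      (∀ x : E n, ‖x‖ < T₁ + 1 → C =ᶠ[𝓝 x] A) ∧ ∀ x : E n, T < ‖x‖ → C =ᶠ[𝓝 x] B := by
  refine ⟨fun y => if ‖y‖ ≤ T₁ then A y else B y, fun x hx => (ev_gt hx).mono fun y hy => ?_,
    fun x hx => (ev_lt hx).mono fun y hy => ?_⟩
  · by_cases k : ‖y‖ ≤ T₁
    · simp only [if_pos k]
    · simp only [if_neg k, h y (hT.trans (not_le.1 k)) hy]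
  · by_cases k : ‖y‖ ≤ T₁
    · simp only [if_pos k, h y hy (by linarith)]
    · simp only [if_neg k]

theorem sy_patch {A B C : Field n} {T T₁ : ℝ} (hT : T < T₁) (hA : Sy A) (hB : Sy B)
    (h1 : ∀ x : E n, ‖x‖ < T₁ + 1 → C =ᶠ[𝓝 x] A) (h2 : ∀ x : E n, T < ‖x‖ → C =ᶠ[𝓝 x] B) :
    Sy C := by
  have k : ∀ x, ∃ D, Sy D ∧ C =ᶠ[𝓝 x] D := fun x => by
    rcases lt_or_ge T ‖x‖ with k | k
    exacts [⟨B, hB, h2 x k⟩, ⟨A, hA, h1 x (by linarith)⟩]
  refine ⟨fun i j => contDiff_iff_contDiffAt.2 fun x => ?_, fun x i j => ?_⟩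
  · obtain ⟨D, hD, e⟩ := k x
    exact (hD.sm i j).contDiffAt.congr_of_eventuallyEq (e.mono fun y hy => by simp only [hy])
  · obtain ⟨D, hD, e⟩ := k x
    rw [e.eq_of_nhds, hD.sy]

end BstH

open BstH in
theorem bst_of (exq : EXQ) (chd : CHD) (glu : GLU) (sv1 : SV1) (sue : SUE) (sv2 : SV2) (boe : BOE)
    (pl : PULL) (md : MOD) (chm : CHM) (bnd : BND) (cls : CLS) (fars : FARS) (cmp2 : CMP2)
    (acmp : ACMP) : BST := by
  intro n D m P hn hAF hDEC hT hE hP m₂ hm hp η hη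
  obtain ⟨g, F, q, C, R, hB, hK, q1, hF, hz, hg, hmo⟩ := exq n D m P hn hAF hDEC hT hE hP
  obtain ⟨ce, cp⟩ := chd n g D.K F q C R m P hB hK hmo
  have p0 : 0 ≤ ∑ i, P i ^ 2 := by positivity
  have m0 : 0 < m₂ := (Real.sqrt_nonneg _).trans_lt hp
  have p1 : ∑ i, P i ^ 2 < m₂ ^ 2 := (Real.sqrt_lt' m0).1 hp
  obtain ⟨M, hM⟩ : ∃ M, M = √(m₂ ^ 2 - ∑ i, P i ^ 2) := ⟨_, rfl⟩
  have M0 : 0 < M := hM ▸ Real.sqrt_pos.2 (by linarith)
  have M2 : M ^ 2 = m₂ ^ 2 - ∑ i, P i ^ 2 := hM ▸ Real.sq_sqrt (by linarith)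
  have M1 : M ≤ m₂ := by nlinarith
  have v2 : ∑ i, (P i / m₂) ^ 2 = (∑ i, P i ^ 2) / m₂ ^ 2 := by
    simp only [div_pow, Finset.sum_div]
  obtain ⟨y₁, u, hu⟩ := sue n (M / 2) hn (by positivity)
  obtain ⟨L, hL⟩ := boe n (fun i => P i / m₂) (m₂ / M) ((one_le_div M0).2 M1) (by
    rw [v2, div_pow, M2]
    have : m₂ ^ 2 - ∑ i, P i ^ 2 ≠ 0 := by linarith
    field_simp)
  have q0 : 0 < q := by
    have : (3 : ℝ) ≤ n := by exact_mod_cast hn
    linarith [hB.q0]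
  obtain ⟨C₂, -, af, ak⟩ := md n _ y₁ _ q u _ L hu hL q0 q1
  obtain ⟨ce₂, cp₂⟩ := chm n _ y₁ _ u _ L hu hL
  have e1 : 2 * (M / 2) * (m₂ / M) = m₂ := by field_simp
  have e2 : (fun j => m₂ * (P j / m₂)) = P := funext fun j => by field_simp
  rw [e1] at ce₂ cp₂
  rw [e2] at cp₂
  obtain ⟨g1, g2, g3⟩ := model sv1 sv2 pl hu hL (sm_lv _) fun y => by
    simp only [pd_lv]
    rw [v2, div_lt_one (by positivity)]
    exact p1
  have γ1 := hL.γ1
  generalize m₂ / M = γ at hL γ1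
  generalize (fun i => P i / m₂) = v at hL af ak ce₂ cp₂ g1 g2 g3
  have c1 := le_max_left C C₂
  have c2 := le_max_right C C₂
  have r1 := le_max_left R (y₁ + 1)
  have r2 := le_max_right R (y₁ + 1)
  obtain ⟨e, e0, cmp2⟩ := cmp2 n η (γ ^ 2) hη
  obtain ⟨e', e0', T₀, cls⟩ := cls n _ y₁ γ u v L hu hL e e0
  obtain ⟨G, H, r, T, t1, t2, mG, sH, dec, trap, far, inn, out⟩ :=
    glu n g D.K _ _ F q _ _ m m₂ P (bk_mono hB c1 r1)
      ⟨hB.met, hB.sy, af_mono hB.af c1 r1, ak_mono hK c1 r1,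
        fun x hx => hB.dec x (by linarith [hB.far x (r1.trans hx)]), ce, cp⟩
      ⟨g1, g2, af_mono af c2 (hB.R1.trans r1), ak_mono ak c2 (hB.R1.trans r1),
        fun x hx => g3 x (by linarith), ce₂, cp₂⟩ q1 hm e e0 (max T₀ (max R (y₁ + 1)))
  have t3 := le_max_left T₀ (max R (y₁ + 1))
  have t4 := le_max_right T₀ (max R (y₁ + 1))
  have R1 := hB.R1
  obtain ⟨f, T', sf, f1, f2, f3⟩ := bnd n v (γ * (T + 1 + 1)) e' e0'
  obtain ⟨b1, b2, b3⟩ := model sv1 sv2 pl hu hL sf fun y => by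
    obtain ⟨s, hs, k⟩ := f3 y
    exact (cls f s y hs k).1
  have ev : ∀ y : E n, ‖y‖ < T + 1 + 1 → f =ᶠ[𝓝 (L y)] lv v := fun y hy =>
    (ev_gt ((hL.hi y).trans_lt (mul_lt_mul_of_pos_left hy (by linarith)))).mono
      fun z hz => f1 z hz.le
  obtain ⟨G', a1, a2⟩ := patch (A := G) (B := gM L u f) (lt_add_one T) fun y h1 h2 =>
    (far y h1.le).1.trans (pull_pt L (loc (ev y h2)).1.symm)
  obtain ⟨H', a3, a4⟩ := patch (A := H) (B := kM L u f) (lt_add_one T) fun y h1 h2 =>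
    (far y h1.le).2.trans (pull_pt L (loc (ev y h2)).2.symm)
  have sG' := sy_patch (lt_add_one T) ⟨mG.sm, mG.sy⟩ ⟨b1.sm, b1.sy⟩ a1 a2
  have sH' := sy_patch (lt_add_one T) sH b2 a3 a4
  have mG' : Met G' := ⟨sG'.sm, sG'.sy, fun x => by
    rcases lt_or_ge T ‖x‖ with k | k
    · simpa only [mat, (a2 x k).eq_of_nhds] using b1.pos x
    · simpa only [mat, (a1 x (by linarith)).eq_of_nhds] using mG.pos x⟩
  let D₁ : Exterior n := ⟨F, G', H', hB.ext, hz, fun i j => ⟨sG'.sm i j, sH'.sm i j⟩,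
    fun x i j => ⟨sG'.sy x i j, sH'.sy x i j⟩, fun x _ => mG'.pos x⟩
  obtain ⟨w1, w2⟩ := fars n (push L D₁) (M / 2) (max (|T'| + 1) (max y₁ (γ * (T + 1)))) hn
    (by positivity) fun y hy => by
      have k1 : T < ‖L.symm y‖ := by
        have k := hL.hi (L.symm y)
        rw [L.apply_symm_apply] at k
        have k' := ((le_max_right _ _).trans ((le_max_right _ _).trans hy)).trans k
        linarith [le_of_mul_le_mul_left k' (by linarith)]
      have k2 : f =ᶠ[𝓝 y] fun _ => 0 :=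
        (ev_lt (show |T'| < ‖y‖ by linarith [(le_max_left _ _).trans hy])).mono fun z hz =>
          f2 z ((le_abs_self _).trans hz.le)
      have k3 : (push L D₁).g y = sg (sγ u) (sφ u) (fun _ => 0) y :=
        (pull_pt L.symm (a2 _ k1).eq_of_nhds).trans
          ((congrFun (P366.T1.pull_pull_symm L _) y).trans (loc k2).1)
      have k4 : (push L D₁).K y = sk (sγ u) (sφ u) (fun _ => 0) y :=
        (pull_pt L.symm (a4 _ k1).eq_of_nhds).trans
          ((congrFun (P366.T1.pull_pull_symm L _) y).trans (loc k2).2)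
      have k5 : ∀ j, pd j (fun _ : E n => (0 : ℝ)) = fun _ => 0 := fun j =>
        funext fun z => pd_const 0 j z
      refine ⟨fun i j => ?_, ?_⟩
      · rw [k3]
        simp only [sg, sγ, cf, k5, mul_zero, sub_zero,
          hu.out y ((le_max_left _ _).trans ((le_max_right _ _).trans hy))]
      · rw [k4]
        funext i j
        simp [sk, hess, k5]
  refine ⟨push L D₁, w1, fun x hx => ?_, P366.T1.push_trapped L fun x hx => ?_, ?_,
    le_trans (acmp n D D₁ g _ hB.met mG' (by linarith [hη.2]) hF (fun x hx => hg x ((hF x).2 hx))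
      fun x _ => ?_) (P366.T1.amin_push L D₁)⟩
  · obtain ⟨k1, k2⟩ := (pl n L.symm G' H' mG' sH').2.2 x
    refine k2.trans_le (le_trans ?_ k1.ge)
    rcases lt_or_ge T ‖L.symm x‖ with k | k
    · rw [cov_ev (a2 _ k) (a4 _ k), mu_ev (a2 _ k) (a4 _ k).eq_of_nhds]
      exact b3 _ (by linarith)
    · have k' : ‖L.symm x‖ < T + 1 + 1 := by linarith
      rw [cov_ev (a1 _ k') (a3 _ k'), mu_ev (a1 _ k') (a3 _ k').eq_of_nhds]
      exact dec _ hx
  · have k0 : F x = 0 := hx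
    have k : ‖x‖ < T + 1 + 1 := by
      by_contra k
      linarith [hB.far x (by linarith [not_lt.1 k])]
    exact (th_ev (a1 x k) (a3 x k).eq_of_nhds).trans_le (trap x hx)
  · rw [← hM, show M = 2 * (M / 2) by ring]
    exact w2
  · obtain ⟨d1, d2⟩ := cmp2 g G' x hB.met mG'
    show Dom (1 - η) g G' x
    rcases lt_or_ge T ‖x‖ with k | k
    · obtain ⟨s, hs, k1⟩ := f3 (L x)
      obtain ⟨w, k2, k3⟩ := (cls f s _ hs k1).2 x rfl (by linarith)
      exact d2 w k2 (fun i j => (out x (by linarith) i j).2) fun i j => by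
        rw [(a2 x k).eq_of_nhds]
        exact k3 i j
    · have k1 := (a1 x (by linarith)).eq_of_nhds
      rcases le_total ‖x‖ r with k2 | k2
      · obtain ⟨c, k3, k4⟩ := inn x k2
        exact d1 c k3 fun i j => by rw [k1, k4]
      · exact d2 0 (by simp [sq_nonneg]) (fun i j => (out x k2 i j).2) fun i j => by
          simpa [k1] using (out x k2 i j).1

end Vale.Agent.P366Y.B
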