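import Vale.Agent.P366Y.B.Defs

/-!
# P366Y, block B: the charges of the data as volume integrals (row CHD)
-/

open MeasureTheory Metric Filter Topology Set
open scoped ContDiff ENNReal
open Vale.Agent.P366.Stmt Vale.Agent.P366Z Vale.Agent.P366Z.St0
open Vale.Agent.P366Y.A (Sy B0 Bk ck mg)

noncomputable section

namespace Vale.Agent.P366Y.B

namespace Chd

variable {n : ℕ} {g K : Field n} {x : E n}

theorem sm_momT (hg : Met g) (hK : Sy K) (i j : Fin n) : Smooth fun y => momT g K y i j :=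
  ContDiff.sub (hK.sm i j) (ContDiff.mul (ContDiff.sum fun a _ => ContDiff.sum fun b _ =>
    ContDiff.mul (hg.sm_up a b) (hK.sm a b)) (hg.sm i j))

theorem sm_pe (hK : Sy K) (i j : Fin n) : Smooth fun y => pe K y i j :=
  ContDiff.sub (hK.sm i j) (ContDiff.mul (ContDiff.sum fun a _ => hK.sm a a) (met_eu.sm i j))

theorem mulb {a b A B : ℝ} (ha : |a| ≤ A) (hb : |b| ≤ B) : |a * b| ≤ A * B := by
  rw [abs_mul]
  exact mul_le_mul ha hb (abs_nonneg _) ((abs_nonneg _).trans ha)

theorem sumb {f : Fin n → ℝ} {A : ℝ} (h : ∀ i, |f i| ≤ A) : |∑ i, f i| ≤ n * A :=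
  (Finset.abs_sum_le_sum_abs _ _).trans ((Finset.sum_le_sum fun i _ => h i).trans (by simp))

/-- the difference of the two tensors is quadratic -/
theorem quad {a b k : ℝ} (h1 : ∀ i j, |g x i j - eu n x i j| ≤ a)
    (h2 : ∀ i j, |up g i j x - eu n x i j| ≤ b) (h3 : ∀ i j, |K x i j| ≤ k) (h4 : |tr g K x| ≤ k)
    (i j : Fin n) : |pe K x i j - momT g K x i j| ≤ k * a + n * (n * (b * k)) * 1 := by
  have e : tr g K x - ∑ k, K x k k = ∑ a, ∑ b, (up g a b x - eu n x a b) * K x a b := by
    simp [tr, eu, sub_mul, Finset.sum_sub_distrib]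
  have e' : pe K x i j - momT g K x i j =
      tr g K x * (g x i j - eu n x i j) + (tr g K x - ∑ k, K x k k) * eu n x i j := by
    simp only [pe, momT]
    ring
  rw [e', e]
  refine (abs_add_le _ _).trans (add_le_add (mulb h4 (h1 i j))
    (mulb (sumb fun a => sumb fun b => mulb (h2 a b) (h3 a b)) ?_))
  unfold eu
  split_ifs <;> simp

/-- small functions on large balls -/
theorem small (hn : 0 < n) {f : ℝ → E n → ℝ} {A q : ℝ} (hq : (n : ℝ) / 2 - 1 < q)
    (h : ∀ᶠ ρ : ℝ in atTop, ∀ x, |f ρ x| ≤ A * ρ ^ (-(2 * q + 2)) ∧ (3 * ρ ≤ ‖x‖ → f ρ x = 0)) :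
    Tendsto (fun ρ => ∫ x, f ρ x) atTop (𝓝 0) := by
  have hl := (tendsto_rpow_neg_atTop (y := 2 * q + 2 - n) (by linarith)).const_mul
    (A * (omega n / n * 3 ^ n))
  rw [mul_zero] at hl
  refine squeeze_zero_norm' ?_ hl
  filter_upwards [h, eventually_gt_atTop 0] with ρ k h0
  rw [← setIntegral_eq_integral_of_forall_compl_eq_zero (s := ball 0 (3 * ρ)) fun x hx =>
    (k x).2 (not_lt.1 (mem_ball_zero_iff.not.1 hx))]
  refine (norm_setIntegral_le_of_norm_le_const measure_ball_lt_top fun x _ => (k x).1).trans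
    (le_of_eq ?_)
  have e1 : ρ ^ (-(2 * q + 2 - n)) = ρ ^ (-(2 * q + 2)) * ρ ^ n := by
    rw [← Real.rpow_natCast, ← Real.rpow_add h0]
    congr 1
    ring
  rw [measureReal_def, real_ball hn _ (by positivity), e1, mul_pow]
  ring

end Chd

open Chd in
/-- row CHD -/
theorem chd_of (h1 : MAS1) (hM : MAT) : CHD := by
  intro n g K F q C R m P B hK hP
  have hn : (3 : ℝ) ≤ n := by exact_mod_cast B.dim
  have hq : 0 < q := by linarith [B.q0]
  have hn0 : 0 < n := by have := B.dim; omega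
  have hC := B.C0
  refine ⟨h1 n (yv g) m B.dim (fun i => ContDiff.sum fun j _ =>
    ContDiff.sub ((B.met.sm i j).pd j) ((B.met.sm j j).pd i)) B.en, fun j => ?_⟩
  have k1 := h1 n (fun i x => 2 * momT g K x i j) (P j) B.dim
    (fun i => ContDiff.mul contDiff_const (sm_momT B.met B.sy i j)) (by
      refine Eq.mp (congrArg (fun W => Tendsto (flx W) atTop (𝓝 (P j))) ?_) (hP j)
      funext i x
      simp only [momT, B.met.sy x i j, B.sy.sy x i j]
      ring)
  obtain ⟨e, he, L, hL, hm⟩ := hM n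
  obtain ⟨c, hc, hcut⟩ := fderiv_cut n
  have hs : ∀ᶠ ρ : ℝ in atTop, C * ρ ^ (-q) ≤ e := by
    have := (tendsto_rpow_neg_atTop hq).const_mul C
    rw [mul_zero] at this
    exact this.eventually (eventually_le_nhds he)
  have k2 := small hn0 (f := fun ρ x => ∑ i, pd i (cut ρ) x * (pe K x i j - momT g K x i j))
    (A := n * (c * (C * C + n * (n * (L * C * C))))) B.q0 (by
      filter_upwards [hs, eventually_ge_atTop R] with ρ s1 hR x
      have h0 : 0 < ρ := by linarith [B.R1]
      refine ⟨?_, fun hx => Finset.sum_eq_zero fun i _ => by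
        rw [pd_cut_out h0 (by linarith), zero_mul]⟩
      rcases lt_or_ge ‖x‖ ρ with hx | hx
      · simp only [pd_cut_in hx, zero_mul, Finset.sum_const_zero, abs_zero]
        positivity
      have m : ∀ p : ℝ, 0 < p → C * ‖x‖ ^ (-p) ≤ C * ρ ^ (-p) := fun p hp =>
        mul_le_mul_of_nonneg_left (Real.rpow_le_rpow_of_nonpos h0 hx (by linarith)) hC.le
      have a1 : ∀ i j, |g x i j - eu n x i j| ≤ C * ρ ^ (-q) := fun i j =>
        (B.af x (hR.trans hx) i j i i).1.trans (m q hq)
      refine (sumb fun i => mulb ((abs_pd_le ((sm_cut ρ).diff x) i).trans (hcut ρ h0 x))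
        (quad a1 (hm g x _ B.met (by positivity) s1 a1).1
        (fun a b => (hK x (hR.trans hx) a b a).1.trans (m _ (by linarith)))
        ((B.dk x (hR.trans hx)).2.trans (m _ (by linarith))) i j)).trans (le_of_eq ?_)
      have e1 : ρ ^ (-(2 * q + 2)) = ρ ^ (-q) * ρ ^ (-(q + 1)) / ρ := by
        rw [← Real.rpow_add h0, ← Real.rpow_sub_one h0.ne']
        congr 1
        ring
      rw [e1]
      ring)
  have k3 := (k1.div_const 2).add k2
  rw [show -(2 * ((n : ℝ) - 1) * omega n * P j) / 2 + 0 = -((n - 1) * omega n * P j) by ring] at k3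
  refine k3.congr' ?_
  filter_upwards [eventually_gt_atTop 0] with ρ h0
  have i1 : ∀ W : Fin n → E n → ℝ, (∀ i, Smooth (W i)) →
      Integrable fun x => ∑ i, pd i (cut ρ) x * W i x := fun W hW =>
    integrable_finsetSum _ fun i _ => by
      simpa only [mul_comm] using (lip_cut h0).integrable_pd (fun _ => cut_zero h0) (hW i).cont i
  rw [← integral_div, ← integral_add ((i1 _ fun i =>
    ContDiff.mul contDiff_const (sm_momT B.met B.sy i j)).div_const 2)
    (i1 _ fun i => ContDiff.sub (sm_pe B.sy i j) (sm_momT B.met B.sy i j))]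
  congr 1
  funext x
  rw [Finset.sum_div, ← Finset.sum_add_distrib]
  exact Finset.sum_congr rfl fun i _ => by ring

end Vale.Agent.P366Y.B
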