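import Vale.Agent.P366Y.B.Defs
import Vale.Agent.P366Z.St0.Sk

/-!
# P366Y, block B: the charges of the model (row CHM)
-/

open MeasureTheory Metric Filter Topology Set
open scoped ContDiff ENNReal
open Vale.Agent.P366.Stmt Vale.Agent.P366Z Vale.Agent.P366Z.St0

noncomputable section

namespace Vale.Agent.P366Y.B

namespace Chm

variable {n : ℕ}

theorem int_flux {Z : Fin n → E n → ℝ} (hZ : ∀ i, Continuous (Z i)) {ρ : ℝ} (h0 : 0 < ρ)
    (i : Fin n) : Integrable fun x => pd i (cut ρ) x * Z i x :=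
  integrable_of_out (((sm_cut ρ).pd i).cont.mul (hZ i)) (R := 2 * ρ + 1) fun y hy => by
    rw [pd_cut_out h0 (by linarith) i, zero_mul]

/-- the linear part -/
theorem lin_lim {Z : Fin n → E n → ℝ} (hZ : ∀ i, Smooth (Z i)) {D : E n → ℝ} (hD : Integrable D)
    (e : ∀ x, ∑ i, pd i (Z i) x = D x) :
    Tendsto (fun ρ => ∫ x, ∑ i, pd i (cut ρ) x * Z i x) atTop (𝓝 (-∫ x, D x)) := by
  have h : Tendsto (fun ρ => ∫ x, cut ρ x * D x) atTop (𝓝 (∫ x, D x)) := by
    refine tendsto_integral_filter_of_dominated_convergence (fun x => ‖D x‖)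
      (Eventually.of_forall fun ρ => (sm_cut ρ).cont.aestronglyMeasurable.mul hD.1)
      (Eventually.of_forall fun ρ => Eventually.of_forall fun x => ?_) hD.norm
      (Eventually.of_forall fun x => ?_)
    · rw [norm_mul, Real.norm_of_nonneg (cut_nonneg ρ x)]
      exact mul_le_of_le_one_left (norm_nonneg _) (cut_le_one ρ x)
    · simpa using (cut_tendsto x).mul_const (D x)
  refine h.neg.congr' ?_
  filter_upwards [eventually_gt_atTop 0] with ρ h0
  have h1 : ∀ i, Integrable fun x => cut ρ x * pd i (Z i) x := fun i =>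
    integrable_of_out ((sm_cut ρ).cont.mul ((hZ i).pd i).cont) (R := 2 * ρ) fun y hy => by
      rw [cut_zero h0 hy, zero_mul]
  simp only [← e, Finset.mul_sum]
  rw [integral_finsetSum _ fun i _ => h1 i,
    integral_finsetSum _ fun i _ => int_flux (fun i => (hZ i).cont) h0 i, ← Finset.sum_neg_distrib]
  refine Finset.sum_congr rfl fun i _ => ?_
  rw [ibp (lip_cut h0) (supp_cut h0) (ContDiff.of_le (hZ i) (by norm_cast)) i, neg_neg]

/-- the remainder -/
theorem rem_lim (hn : 0 < n) {Z : Fin n → E n → ℝ} {A p : ℝ} (hA : 0 ≤ A) (hp : (n : ℝ) - 1 < p)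
    (h : ∀ x i, |Z i x| ≤ A * (1 + ‖x‖) ^ (-p)) :
    Tendsto (fun ρ => ∫ x, ∑ i, pd i (cut ρ) x * Z i x) atTop (𝓝 0) := by
  obtain ⟨C, hC, hc⟩ := fderiv_cut n
  have hn1 : (1 : ℝ) ≤ n := by exact_mod_cast hn
  have hl := (tendsto_rpow_neg_atTop (y := p + 1 - n) (by linarith)).const_mul
    (n * (C * A) * (omega n / n * 3 ^ n))
  rw [mul_zero] at hl
  refine squeeze_zero_norm' ?_ hl
  filter_upwards [eventually_gt_atTop 0] with ρ h0
  rw [← setIntegral_eq_integral_of_forall_compl_eq_zero (s := ball 0 (3 * ρ)) fun x hx => by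
    have hx' : 3 * ρ ≤ ‖x‖ := not_lt.1 (mem_ball_zero_iff.not.1 hx)
    exact Finset.sum_eq_zero fun i _ => by rw [pd_cut_out h0 (by linarith) i, zero_mul]]
  refine (norm_setIntegral_le_of_norm_le_const measure_ball_lt_top
    (C := n * (C / ρ * (A * ρ ^ (-p)))) fun x _ => ?_).trans (le_of_eq ?_)
  · have k : ∀ i, |pd i (cut ρ) x * Z i x| ≤ C / ρ * (A * ρ ^ (-p)) := fun i => by
      rcases lt_or_ge ‖x‖ ρ with hx | hx
      · rw [pd_cut_in hx, zero_mul, abs_zero]
        positivity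
      · rw [abs_mul]
        refine mul_le_mul ((abs_pd_le ((sm_cut ρ).diff x) i).trans (hc ρ h0 x)) ((h x i).trans ?_)
          (abs_nonneg _) (by positivity)
        exact mul_le_mul_of_nonneg_left
          (Real.rpow_le_rpow_of_nonpos h0 (by linarith) (by linarith)) hA
    rw [Real.norm_eq_abs]
    refine (Finset.abs_sum_le_sum_abs _ _).trans ((Finset.sum_le_sum fun i _ => k i).trans ?_)
    simp
  · have e1 : ρ ^ (-(p + 1 - n)) = ρ ^ (-p) * ρ⁻¹ * ρ ^ n := by
      rw [← Real.rpow_natCast, ← Real.rpow_neg_one, ← Real.rpow_add h0, ← Real.rpow_add h0]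
      congr 1
      ring
    rw [measureReal_def, real_ball hn _ (by positivity), e1, mul_pow]
    ring

theorem lipb {φ : ℝ → ℝ} (h : ∀ s ∈ Icc (0 : ℝ) (1 / 2), ContDiffAt ℝ ∞ φ s) :
    ∃ M ≥ (0 : ℝ), ∀ s ∈ Icc (0 : ℝ) (1 / 2), |φ s - φ 0| ≤ M * |s| := by
  have h1 : ContDiffOn ℝ ∞ φ (Icc 0 (1 / 2)) := fun s hs => (h s hs).contDiffWithinAt
  obtain ⟨K, hK⟩ := h1.exists_lipschitzOnWith (by simp) (convex_Icc _ _) isCompact_Icc
  refine ⟨K, K.2, fun s hs => ?_⟩
  have := hK.dist_le_mul s hs 0 ⟨le_rfl, by norm_num⟩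
  rwa [Real.dist_eq, Real.dist_eq, sub_zero] at this

/-- the flux of a field that is linear in the gradient -/
theorem gen (hn : 3 ≤ n) {w D : E n → ℝ} {B : ℝ} (hw : Smooth w) (hB : O2 B (n - 2) 1 w)
    (hb : ∀ x, w x ∈ Icc (0 : ℝ) (1 / 2)) {Φ : Fin n → Fin n → ℝ → ℝ}
    (hΦ : ∀ i k, ∀ s ∈ Icc (0 : ℝ) (1 / 2), ContDiffAt ℝ ∞ (Φ i k) s) (hD : Integrable D)
    (e : ∀ x, ∑ i, ∑ k, Φ i k 0 * pd i (pd k w) x = D x) :
    Tendsto (fun ρ => ∫ x, ∑ i, pd i (cut ρ) x * ∑ k, Φ i k (w x) * pd k w x) atTop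
      (𝓝 (-∫ x, D x)) := by
  have hn' : (3 : ℝ) ≤ n := by exact_mod_cast hn
  choose M hM0 hM using fun i k => lipb (hΦ i k)
  have s0 : ∀ i, Smooth fun x => ∑ k, Φ i k 0 * pd k w x := fun i =>
    ContDiff.sum fun k _ => ContDiff.mul contDiff_const (hw.pd k)
  have c1 : ∀ i, Continuous fun x => ∑ k, (Φ i k (w x) - Φ i k 0) * pd k w x := fun i =>
    continuous_finsetSum _ fun k _ => Continuous.mul (Continuous.sub
      (continuous_iff_continuousAt.2 fun x =>
        (hΦ i k _ (hb x)).continuousAt.comp hw.cont.continuousAt) continuous_const) (hw.pd k).cont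
  have h1 := lin_lim s0 hD fun x => by
    rw [← e]
    refine Finset.sum_congr rfl fun i _ => ?_
    rw [pd_sum _ fun k _ => ((hw.pd k).diff x).const_mul _]
    simp only [pd_const_mul]
  have h2 := rem_lim (by omega) (Z := fun i x => ∑ k, (Φ i k (w x) - Φ i k 0) * pd k w x)
    (A := (∑ i, ∑ k, M i k) * B ^ 2) (p := (n - 2) + (n - 2 + 1))
    (mul_nonneg (Finset.sum_nonneg fun i _ => Finset.sum_nonneg fun k _ => hM0 i k) (sq_nonneg B))
    (by linarith) fun x i => by
      have t0 : 0 < 1 + ‖x‖ := by positivity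
      have k1 : ∀ k, |(Φ i k (w x) - Φ i k 0) * pd k w x| ≤
          M i k * (B ^ 2 * (1 + ‖x‖) ^ (-(((n : ℝ) - 2) + (n - 2 + 1)))) := fun k => by
        obtain ⟨a1, a2, -⟩ := hB x k k
        rw [abs_mul, neg_add, Real.rpow_add t0]
        have a3 := (hM i k _ (hb x)).trans (mul_le_mul_of_nonneg_left a1 (hM0 i k))
        refine (mul_le_mul a3 a2 (abs_nonneg _) ((abs_nonneg _).trans a3)).trans (le_of_eq ?_)
        ring
      refine (Finset.abs_sum_le_sum_abs _ _).trans ((Finset.sum_le_sum fun k _ => k1 k).trans ?_)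
      rw [← Finset.sum_mul, mul_assoc]
      exact mul_le_mul_of_nonneg_right (Finset.single_le_sum (f := fun i => ∑ k, M i k)
        (fun i _ => Finset.sum_nonneg fun k _ => hM0 i k) (Finset.mem_univ i)) (by positivity)
  have h3 := h1.add h2
  rw [add_zero] at h3
  refine h3.congr' ?_
  filter_upwards [eventually_gt_atTop 0] with ρ h0
  rw [← integral_add (integrable_finsetSum _ fun i _ => int_flux (fun i => (s0 i).cont) h0 i)
    (integrable_finsetSum _ fun i _ => int_flux c1 h0 i)]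
  refine integral_congr_ae (Eventually.of_forall fun x => ?_)
  simp only [← Finset.sum_add_distrib, ← mul_add]
  refine Finset.sum_congr rfl fun i _ => congrArg _ (Finset.sum_congr rfl fun k _ => ?_)
  ring

theorem alg1 (W G : Fin n → Fin n → ℝ) (v : Fin n → ℝ) {b γ : ℝ} (hb : b * (n - 2) = 2)
    (hγ : γ ^ 2 * (1 - ∑ i, v i ^ 2) = 1)
    (hG : ∀ i k, G i k = 2 * b * (if i = k then 1 else 0) + (2 * b + 4) * γ ^ 2 * v i * v k) :
    ∑ i, ∑ k, (G i k - (∑ j, G j j) * (if i = k then 1 else 0)) * W i k =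
      -((2 * b + 4) * γ ^ 2) * (∑ i, W i i - ∑ i, ∑ k, v i * v k * W i k) := by
  have e1 : ∑ j, G j j = 2 * b + (2 * b + 4) * γ ^ 2 := by
    have : ∑ j, G j j = n * (2 * b) + (2 * b + 4) * γ ^ 2 * ∑ i, v i ^ 2 := by
      simp [hG, Finset.sum_add_distrib, Finset.mul_sum, sq, mul_assoc]
    rw [this]
    linear_combination 2 * hb - (2 * b + 4) * hγ
  rw [e1, mul_sub, Finset.mul_sum, Finset.mul_sum, ← Finset.sum_sub_distrib]
  refine Finset.sum_congr rfl fun i _ => ?_
  have e2 : W i i = ∑ k, (if i = k then 1 else 0) * W i k := by simp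
  rw [e2, Finset.mul_sum, Finset.mul_sum, ← Finset.sum_sub_distrib]
  refine Finset.sum_congr rfl fun k _ => ?_
  rw [hG]
  ring

theorem alg2 (W : Fin n → Fin n → ℝ) (hW : ∀ i k, W i k = W k i) (G : Fin n → Fin n → Fin n → ℝ)
    (v : Fin n → ℝ) {b γ : ℝ} (hb : b * (n - 2) = 2) (hγ : γ ^ 2 * (1 - ∑ i, v i ^ 2) = 1)
    (hG : ∀ i j k, G i j k = -((b + 2) * γ ^ 2) * ((if i = k then 1 else 0) * v j +
        (if j = k then 1 else 0) * v i) +
      v k * (b * (if i = j then 1 else 0) + (b + 2) * γ ^ 2 * v i * v j)) (j : Fin n) :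
    ∑ i, ∑ k, (G i j k - (∑ l, G l l k) * (if i = j then 1 else 0)) * W i k =
      -((b + 2) * γ ^ 2 * v j) * (∑ i, W i i - ∑ i, ∑ k, v i * v k * W i k) := by
  have e1 : ∀ k, ∑ l, G l l k = (b - (b + 2) * γ ^ 2) * v k := fun k => by
    have e2 : ∑ l, (if l = k then 1 else 0) * v l = v k := by simp
    have e3 : ∑ l : Fin n, (b * 1 + (b + 2) * γ ^ 2 * v l * v l) =
        n * b + (b + 2) * γ ^ 2 * ∑ i, v i ^ 2 := by
      simp [Finset.sum_add_distrib, Finset.mul_sum, sq, mul_assoc]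
    simp only [hG, if_true]
    rw [Finset.sum_add_distrib, ← Finset.mul_sum, ← Finset.mul_sum, Finset.sum_add_distrib, e2, e3]
    linear_combination v k * hb - (b + 2) * v k * hγ
  have e4 : ∑ i, ∑ k, (if i = k then 1 else 0) * W i k = ∑ i, W i i := by simp
  have e5 : ∑ i, ∑ k, (if j = k then 1 else 0) * v i * W i k = ∑ k, v k * W j k := by
    simp [hW j]
  have e6 : ∑ i, ∑ k, (if i = j then 1 else 0) * v k * W i k = ∑ k, v k * W j k := by
    rw [Finset.sum_comm]
    simp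
  have e7 : ∑ i, ∑ k, (G i j k - (∑ l, G l l k) * (if i = j then 1 else 0)) * W i k =
      -((b + 2) * γ ^ 2 * v j) * (∑ i, ∑ k, (if i = k then 1 else 0) * W i k) -
      (b + 2) * γ ^ 2 * (∑ i, ∑ k, (if j = k then 1 else 0) * v i * W i k) +
      (b + 2) * γ ^ 2 * (∑ i, ∑ k, (if i = j then 1 else 0) * v k * W i k) +
      (b + 2) * γ ^ 2 * v j * ∑ i, ∑ k, v i * v k * W i k := by
    simp only [Finset.mul_sum, ← Finset.sum_sub_distrib, ← Finset.sum_add_distrib]
    refine Finset.sum_congr rfl fun i _ => Finset.sum_congr rfl fun k _ => ?_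
    rw [e1, hG]
    ring
  rw [e7, e4, e5, e6]
  ring

end Chm

open Chm in
/-- **CHM** -/
theorem chm_of (hE : EXM) (hD : DCW) : CHM := by
  intro n a y₁ γ u v L hu hL
  obtain ⟨Γ, Λ, h⟩ := hE n a y₁ γ u v L hu hL
  obtain ⟨sw, ⟨B, hB⟩, -, iD, eD⟩ := hD n a y₁ γ u v L hu hL
  have hb : ∀ x, (fun x => u (L x)) x ∈ Icc (0 : ℝ) (1 / 2) := fun x => hu.bd _
  generalize (fun x => u (L x)) = w at h sw hB iD eD hb
  generalize gM L u (lv v) = g at h
  generalize kM L u (lv v) = K at h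
  have hn : (3 : ℝ) ≤ n := by exact_mod_cast hu.dim
  have b2 : bb n * (n - 2) = 2 := div_mul_cancel₀ _ (by linarith)
  simp only [lap_eu] at iD eD
  constructor
  · have e1 : ∀ i j k x, pd k (fun y => g y i j) x = deriv (Γ i j) (w x) * pd k w x :=
      fun i j k x => by
        simp only [h.eg]
        exact pd_comp ((h.sΓ i j _ (hb x)).differentiableAt (by simp)).hasDerivAt (sw.diff x) k
    have e2 : ∀ i x, yv g i x = ∑ k, (deriv (Γ i k) (w x) -
        (∑ j, deriv (Γ j j) (w x)) * (if i = k then 1 else 0)) * pd k w x := fun i x => by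
      simp [yv, e1, sub_mul, Finset.sum_sub_distrib, Finset.sum_mul]
    have d1 : ∀ i k, ∀ s ∈ Icc (0 : ℝ) (1 / 2), ContDiffAt ℝ ∞ (deriv (Γ i k)) s :=
      fun i k s hs => (h.sΓ i k s hs).derivWithin (by simp)
    have t := gen hu.dim sw hB hb (Φ := fun i k s => deriv (Γ i k) s -
        (∑ j, deriv (Γ j j) s) * (if i = k then 1 else 0))
      (fun i k s hs => (d1 i k s hs).sub ((ContDiffAt.sum fun j _ => d1 j j s hs).mul
        contDiffAt_const)) (iD.const_mul (-((2 * bb n + 4) * γ ^ 2))) fun x =>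
        alg1 (fun i k => pd i (pd k w) x) (fun i k => deriv (Γ i k) 0) v b2 hL.γ2 h.Γ1
    rw [integral_const_mul] at t
    unfold Ce
    simp only [e2]
    refine t.trans (le_of_eq (congrArg _ ?_))
    linear_combination (2 * bb n + 4) * γ * eD - 2 * γ * omega n * a * b2
  · intro j
    have e2 : ∀ i x, pe K x i j = ∑ k, (Λ i j k (w x) -
        (∑ l, Λ l l k (w x)) * (if i = j then 1 else 0)) * pd k w x := fun i x => by
      simp only [pe, h.ek, eu, sub_mul, Finset.sum_sub_distrib, Finset.sum_mul]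
      rw [Finset.sum_comm]
      exact congrArg _ (Finset.sum_congr rfl fun k _ => Finset.sum_congr rfl fun l _ => by ring)
    have t := gen hu.dim sw hB hb (Φ := fun i k s => Λ i j k s -
        (∑ l, Λ l l k s) * (if i = j then 1 else 0))
      (fun i k s hs => (h.sΛ i j k s hs).sub ((ContDiffAt.sum fun l _ => h.sΛ l l k s hs).mul
        contDiffAt_const)) (iD.const_mul (-((bb n + 2) * γ ^ 2 * v j))) fun x =>
        alg2 (fun i k => pd i (pd k w) x) (fun i k => pd_comm (sw.c2 x) i k)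
          (fun i j k => Λ i j k 0) v b2 hL.γ2 h.Λ0 j
    rw [integral_const_mul] at t
    simp only [e2]
    refine t.trans (le_of_eq (congrArg _ ?_))
    linear_combination (bb n + 2) * γ * v j * eD - γ * v j * omega n * a * b2

end Vale.Agent.P366Y.B
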