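import Vale.Agent.P366Y.B.Defs
import Vale.Agent.P366Z.Calc2
import Mathlib.LinearAlgebra.Matrix.SchurComplement

/-!
# P366Y, row CMP2: the comparison of the area elements
-/

open Metric Filter Topology Set
open Vale.Agent.P366.Stmt Vale.Agent.P366Z

noncomputable section

namespace Vale.Agent.P366Y.B

namespace Cmp2H

variable {n : ℕ}

/-- the matrix `1 + w wᵀ` -/
def mw (w : Fin n → ℝ) : Fin n → Fin n → ℝ := fun i j => (if i = j then 1 else 0) + w i * w j

theorem det_mw (w : Fin n → ℝ) : (Matrix.of (mw w)).det = 1 + ∑ i, w i ^ 2 := by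
  have h : Matrix.of (mw w) = 1 + Matrix.replicateCol Unit w * Matrix.replicateRow Unit w := by
    ext i j
    simp [mw, Matrix.one_apply, Matrix.mul_apply]
  rw [h, Matrix.det_one_add_replicateCol_mul_replicateRow]
  simp [dotProduct, sq]

theorem quad_mw (w X : Fin n → ℝ) :
    ∑ i, ∑ j, mw w i j * X i * X j = ∑ i, X i ^ 2 + (∑ i, w i * X i) ^ 2 := by
  simp only [mw, add_mul, Finset.sum_add_distrib, sq (∑ i, w i * X i), Finset.sum_mul_sum]
  congr 1
  · simp [sq]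
  · exact Finset.sum_congr rfl fun i _ => Finset.sum_congr rfl fun j _ => by ring

theorem mem_mw {w : Fin n → ℝ} {B : ℝ} (h : ∑ i, w i ^ 2 ≤ B) : mw w ∈ closedBall 0 (1 + B) := by
  have h0 : ∀ i, w i ^ 2 ≤ B := fun i =>
    (Finset.single_le_sum (fun j _ => sq_nonneg (w j)) (Finset.mem_univ i)).trans h
  have h1 : 0 ≤ 1 + B := by linarith [Finset.sum_nonneg fun i (_ : i ∈ Finset.univ) => sq_nonneg (w i)]
  rw [mem_closedBall_zero_iff, pi_norm_le_iff_of_nonneg h1]
  intro i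
  rw [pi_norm_le_iff_of_nonneg h1]
  intro j
  have := h0 i
  have := h0 j
  rw [Real.norm_eq_abs, abs_le, mw]
  split_ifs <;> constructor <;> nlinarith [sq_nonneg (w i + w j), sq_nonneg (w i - w j)]

theorem det_near (n : ℕ) (B : ℝ) {δ : ℝ} (hδ : 0 < δ) : ∃ e > (0 : ℝ),
    ∀ (w : Fin n → ℝ) (M : Fin n → Fin n → ℝ), ∑ i, w i ^ 2 ≤ B → (∀ i j, |M i j - mw w i j| ≤ e) →
      |(Matrix.of M).det - (1 + ∑ i, w i ^ 2)| ≤ δ := by
  have h1 : Continuous fun M : Fin n → Fin n → ℝ => (Matrix.of M).det :=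
    Continuous.matrix_det continuous_id
  obtain ⟨e, he, h⟩ := Metric.mem_uniformity_dist.1 ((isCompact_closedBall
    (0 : Fin n → Fin n → ℝ) (1 + B)).uniformContinuousAt_of_continuousAt _
      (fun _ _ => h1.continuousAt) (dist_mem_uniformity hδ))
  refine ⟨e / 2, half_pos he, fun w M hw k => ?_⟩
  have h3 : dist M (mw w) ≤ e / 2 := (dist_pi_le_iff (half_pos he).le).2 fun i =>
    (dist_pi_le_iff (half_pos he).le).2 fun j => k i j
  have h4 : dist (Matrix.of (mw w)).det (Matrix.of M).det < δ :=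
    h (a := mw w) (b := M) (by rw [dist_comm]; linarith) (mem_mw hw)
  rw [dist_comm, det_mw] at h4
  exact h4.le

theorem quad_near {M N : Fin n → Fin n → ℝ} {e δ : ℝ} (h : ∀ i j, |M i j - N i j| ≤ e)
    (he : n * e ≤ δ) (X : Fin n → ℝ) :
    ∑ i, ∑ j, M i j * X i * X j ≤ ∑ i, ∑ j, N i j * X i * X j + δ * ∑ i, X i ^ 2 := by
  have h3 := quad_le_of_bd h X
  simp only [sub_mul, Finset.sum_sub_distrib] at h3
  have := mul_le_mul_of_nonneg_right he
    (Finset.sum_nonneg fun i (_ : i ∈ Finset.univ) => sq_nonneg (X i))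
  linarith

theorem num {η δ s r p d d' q q' : ℝ} (h0 : 0 < η) (h1 : η < 1) (hδ : δ = η / 2) (hs : 0 ≤ s)
    (hr : 0 ≤ r) (hp : p ≤ s * r) (k0 : 0 ≤ q') (k1 : d ≤ 1 + δ) (k2 : 1 + s - δ ≤ d')
    (k3 : r ≤ q + δ * r) (k4 : q' ≤ r + p + δ * r) : (1 - η) ^ 2 * d * q' ≤ d' * q := by
  have a0 : 0 < δ := by linarith
  have a1 : 0 < 1 - δ := by linarith
  have a2 : q' ≤ (1 + δ) * ((1 + s) * r) := by nlinarith [mul_nonneg a0.le (mul_nonneg hs hr)]
  have a3 : (1 - δ) * (1 + s) ≤ d' := by nlinarith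
  have a4 : (1 - δ) * r ≤ q := by linarith
  have a5 : (1 - η) * (1 + δ) ≤ 1 - δ := by nlinarith
  have a6 : 0 ≤ (1 + s) * r := by positivity
  calc (1 - η) ^ 2 * d * q' ≤ (1 - η) ^ 2 * (1 + δ) * ((1 + δ) * ((1 + s) * r)) :=
        mul_le_mul (mul_le_mul_of_nonneg_left k1 (sq_nonneg _)) a2 k0 (by positivity)
    _ = ((1 - η) * (1 + δ)) ^ 2 * ((1 + s) * r) := by ring
    _ ≤ (1 - δ) ^ 2 * ((1 + s) * r) := mul_le_mul_of_nonneg_right
        (pow_le_pow_left₀ (mul_nonneg (by linarith) (by linarith)) a5 2) a6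
    _ = (1 - δ) * (1 + s) * ((1 - δ) * r) := by ring
    _ ≤ d' * q := mul_le_mul a3 a4 (by positivity) (le_trans (by positivity) a3)

end Cmp2H

open Cmp2H in
/-- **row CMP2** -/
theorem cmp2 : CMP2 := by
  intro n η B ⟨h0, h1⟩
  have c1 : ∀ᶠ c : ℝ in 𝓝 1, (1 - η) ^ 2 * c < c ^ n :=
    ContinuousAt.eventually_lt (by fun_prop) (by fun_prop) (by rw [mul_one, one_pow]; nlinarith)
  obtain ⟨e₁, p1, c2⟩ := Metric.nhds_basis_closedBall.mem_iff.1 c1
  obtain ⟨e₂, p2, c3⟩ := det_near n B (half_pos h0)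
  have p3 : 0 < η / 2 / (n + 1) := by positivity
  refine ⟨min e₁ (min e₂ (η / 2 / (n + 1))), lt_min p1 (lt_min p2 p3), fun g g' x hg hg' =>
    ⟨fun c hc k X => ?_, fun w hw k k' X => ?_⟩⟩
  · have e1 : mat g' x = c • mat g x := Matrix.ext k
    have e2 : ∑ i, ∑ j, g' x i j * X i * X j = c * ∑ i, ∑ j, g x i j * X i * X j := by
      simp only [k, Finset.mul_sum, mul_assoc]
    have := mul_le_mul_of_nonneg_right (le_of_lt (c2 (hc.trans (min_le_left _ _))))
      (mul_nonneg (hg.det_pos x).le (hg.g_nonneg x X))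
    rw [e1, e2, Matrix.det_smul, Fintype.card_fin]
    linarith
  · set e := min e₁ (min e₂ (η / 2 / (n + 1)))
    have b1 : e ≤ e₂ := (min_le_right _ _).trans (min_le_left _ _)
    have b2 : n * e ≤ η / 2 := by
      have := (le_div_iff₀ (by positivity)).1 ((min_le_right _ _).trans (min_le_right _ _) :
        e ≤ η / 2 / (n + 1))
      linarith [lt_min p1 (lt_min p2 p3)]
    have s0 : ∀ u : Fin n → ℝ, 0 ≤ ∑ i, u i ^ 2 := fun u => Finset.sum_nonneg fun _ _ => sq_nonneg _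
    have z : ∀ i j, mw (0 : Fin n → ℝ) i j = eu n x i j := fun i j => by simp [mw, eu]
    have d1 := c3 0 (g x) (by simpa using (s0 w).trans hw) fun i j => z i j ▸ (k i j).trans b1
    have d2 := c3 w (g' x) hw fun i j => (k' i j).trans b1
    have d3 := quad_near (M := mw 0) (N := g x)
      (fun i j => z i j ▸ (abs_sub_comm _ _).trans_le (k i j)) b2 X
    have d4 := quad_near (M := g' x) (N := mw w) k' b2 X
    rw [quad_mw] at d3 d4
    refine num h0 h1 rfl (s0 w) (s0 X) (Finset.sum_mul_sq_le_sq_mul_sq _ w X) (hg'.g_nonneg x X)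
      ?_ ?_ (by simpa using d3) d4
    · have := (abs_le.1 d1).2
      simp only [Pi.zero_apply, zero_pow two_ne_zero, Finset.sum_const_zero] at this
      exact le_trans (le_of_eq rfl) (by linarith : (Matrix.of (g x)).det ≤ 1 + η / 2)
    · exact le_trans (by linarith [(abs_le.1 d2).1]) (le_refl (Matrix.of (g' x)).det)

end Vale.Agent.P366Y.B
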