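import Vale.Agent.P366Y.B.Defs
import Vale.Agent.P366Z.Asy
import Mathlib.LinearAlgebra.Matrix.SchurComplement

/-!
# P366Y, block B: the decay of the potential in the coordinates of the boost
-/

open MeasureTheory Metric Filter Topology Set
open scoped ContDiff ENNReal
open Vale.Agent.P366.Stmt Vale.Agent.P366Z Vale.Agent.P366Z.St0
open Vale.Agent.P366
open Vale.Agent.P366.T1 (pd_comp_lin smooth_comp det_eq)

noncomputable section

namespace Vale.Agent.P366Y.B

namespace Dcw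

variable {n : ℕ} {a y₁ γ : ℝ} {u : E n → ℝ} {v : Fin n → ℝ} {L : E n ≃L[ℝ] E n}

theorem mt_eq (h : Bo v γ L) (k i : Fin n) :
    T1.mt L k i = (if k = i then 1 else 0) + γ ^ 2 / (1 + γ) * v k * v i := by
  have e : lv v (EuclideanSpace.single i 1) = v i := by
    simp [lv]
  rw [T1.mt, h.eq, e]
  simp only [PiLp.single_apply]
  ring

theorem one_add (h : Bo v γ L) : 1 + γ ^ 2 / (1 + γ) * ∑ i, v i ^ 2 = γ := by
  have h1 := h.γ1
  have h2 := h.γ2
  have h0 : 1 + γ ≠ 0 := by positivity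
  field_simp
  linarith

theorem det_mt (h : Bo v γ L) : (T1.mt L).det = γ := by
  have e : T1.mt L = 1 + Matrix.replicateCol Unit (fun k => γ ^ 2 / (1 + γ) * v k) *
      Matrix.replicateRow Unit v := by
    ext k i
    simp [mt_eq h, Matrix.mul_apply, Matrix.one_apply]
  rw [e, Matrix.det_one_add_replicateCol_mul_replicateRow]
  refine Eq.trans ?_ (one_add h)
  rw [dotProduct, Finset.mul_sum]
  exact congrArg _ (Finset.sum_congr rfl fun i _ => by ring)

theorem mv (h : Bo v γ L) (k : Fin n) : ∑ j, v j * T1.mt L k j = γ * v k := by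
  have e : ∀ j, v j * T1.mt L k j = (if k = j then v j else 0) + γ ^ 2 / (1 + γ) * v k * v j ^ 2 :=
    fun j => by
      rw [mt_eq h]
      split_ifs <;> ring
  simp only [e, Finset.sum_add_distrib, Finset.sum_ite_eq, Finset.mem_univ, if_true,
    ← Finset.mul_sum]
  linear_combination v k * one_add h

theorem mm (h : Bo v γ L) (k l : Fin n) :
    ∑ i, T1.mt L k i * T1.mt L l i = (if k = l then 1 else 0) + γ ^ 2 * v k * v l := by
  have e : ∀ i, T1.mt L k i * T1.mt L l i =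
      (if k = i then T1.mt L l i else 0) + γ ^ 2 / (1 + γ) * v k * (v i * T1.mt L l i) := fun i => by
    rw [mt_eq h k]
    split_ifs <;> ring
  have h0 : 1 + γ ≠ 0 := by have := h.γ1; positivity
  simp only [e, Finset.sum_add_distrib, Finset.sum_ite_eq, Finset.mem_univ, if_true,
    ← Finset.mul_sum]
  rw [mv h, mt_eq h]
  simp only [eq_comm (a := l)]
  field_simp
  ring

theorem pd1 (L : E n ≃L[ℝ] E n) (hu : Smooth u) (j : Fin n) :
    (pd j fun x => u (L x)) = fun x => ∑ k, T1.mt L k j * pd k u (L x) :=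
  funext fun _ => pd_comp_lin L (hu.diff _) j

theorem pd2 (L : E n ≃L[ℝ] E n) (hu : Smooth u) (i j : Fin n) (x : E n) :
    pd i (pd j fun x => u (L x)) x = ∑ k, ∑ l, T1.mt L k j * T1.mt L l i * pd l (pd k u) (L x) := by
  rw [pd1 L hu, pd_sum _ fun k _ => ((smooth_comp L (hu.pd k)).diff x).const_mul _]
  refine Finset.sum_congr rfl fun k _ => ?_
  rw [pd_const_mul, pd_comp_lin L ((hu.pd k).diff _), Finset.mul_sum]
  exact Finset.sum_congr rfl fun l _ => by ring

theorem key (h : Bo v γ L) (hu : Smooth u) (x : E n) : lap (eu n) (fun x => u (L x)) x -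
    ∑ i, ∑ j, v i * v j * pd i (pd j fun x => u (L x)) x = lap (eu n) u (L x) := by
  have e1 : ∑ i, ∑ k, ∑ l, T1.mt L k i * T1.mt L l i * pd l (pd k u) (L x) =
      ∑ k, ∑ l, ((if k = l then 1 else 0) + γ ^ 2 * v k * v l) * pd l (pd k u) (L x) := by
    rw [Finset.sum_comm]
    refine Finset.sum_congr rfl fun k _ => ?_
    rw [Finset.sum_comm]
    exact Finset.sum_congr rfl fun l _ => by rw [← Finset.sum_mul, mm h]
  have e2 : ∑ i, ∑ j, v i * v j * ∑ k, ∑ l, T1.mt L k j * T1.mt L l i * pd l (pd k u) (L x) =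
      ∑ k, ∑ l, γ ^ 2 * v k * v l * pd l (pd k u) (L x) := by
    have e3 : ∀ k l, γ ^ 2 * v k * v l * pd l (pd k u) (L x) =
        ∑ i, ∑ j, v i * v j * (T1.mt L k j * T1.mt L l i * pd l (pd k u) (L x)) := fun k l => by
      rw [show γ ^ 2 * v k * v l = (γ * v l) * (γ * v k) by ring, ← mv h, ← mv h,
        Finset.sum_mul_sum, Finset.sum_mul]
      refine Finset.sum_congr rfl fun i _ => ?_
      rw [Finset.sum_mul]
      exact Finset.sum_congr rfl fun j _ => by ring
    simp only [e3, Finset.mul_sum]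
    rw [Finset.sum_congr rfl fun i _ => Finset.sum_comm, Finset.sum_comm]
    refine Finset.sum_congr rfl fun k _ => ?_
    rw [Finset.sum_congr rfl fun i _ => Finset.sum_comm, Finset.sum_comm]
  simp only [lap_eu, pd2 L hu]
  rw [e1, e2, ← Finset.sum_sub_distrib]
  refine Finset.sum_congr rfl fun k _ => ?_
  rw [← Finset.sum_sub_distrib]
  simp only [add_mul, add_sub_cancel_right, ite_mul, one_mul, zero_mul, Finset.sum_ite_eq,
    Finset.mem_univ, if_true]

theorem ne0 (h : Su a y₁ u) {y : E n} (hy : y₁ < ‖y‖) : y ≠ 0 :=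
  norm_pos_iff.1 (by linarith [h.y1])

theorem ev (h : Su a y₁ u) {y : E n} (hy : y₁ < ‖y‖) :
    u =ᶠ[𝓝 y] fun z => a * ‖z‖ ^ (2 - n : ℝ) := by
  filter_upwards [(isOpen_lt continuous_const continuous_norm).mem_nhds hy] with z hz
  exact h.out z (le_of_lt hz)

theorem d1 (h : Su a y₁ u) {y : E n} (hy : y₁ < ‖y‖) (i : Fin n) :
    pd i u y = -((n - 2) * a) * y i * ‖y‖ ^ (-n : ℝ) := by
  rw [pd_congr (ev h hy), pd_const_mul, pd_norm_rpow (ne0 h hy), show (2 - n - 2 : ℝ) = -n by ring]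
  ring

theorem d2 (h : Su a y₁ u) {y : E n} (hy : y₁ < ‖y‖) (i j : Fin n) :
    pd j (pd i u) y = -((n - 2) * a) * ((if j = i then 1 else 0) * ‖y‖ ^ (-n : ℝ) -
      n * (y i * y j * ‖y‖ ^ (-n - 2 : ℝ))) := by
  have e : pd i u =ᶠ[𝓝 y] fun z => -((n - 2) * a) * (z i * ‖z‖ ^ (-n : ℝ)) := by
    filter_upwards [(isOpen_lt continuous_const continuous_norm).mem_nhds hy] with z hz
    rw [d1 h hz, mul_assoc]
  rw [pd_congr e, pd_const_mul, pd_mul ((contDiff_coord (m := 1) i).differentiable one_ne_zero y)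
    ((contDiffAt_norm_rpow (m := 1) (ne0 h hy) _).differentiableAt one_ne_zero), pd_coord,
    pd_norm_rpow (ne0 h hy)]
  ring

theorem lap0 (h : Su a y₁ u) {y : E n} (hy : y₁ < ‖y‖) : lap (eu n) u y = 0 := by
  have h0 : 0 < ‖y‖ := by linarith [h.y1]
  have e : ‖y‖ ^ (-n : ℝ) = ‖y‖ ^ 2 * ‖y‖ ^ (-n - 2 : ℝ) := by
    rw [← Real.rpow_two, ← Real.rpow_add h0]
    congr 1
    ring
  rw [lap_eu]
  simp only [d2 h hy, if_true, ← Finset.mul_sum, Finset.sum_sub_distrib, Finset.sum_const,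
    Finset.card_univ, Fintype.card_fin, nsmul_eq_mul, ← Finset.sum_mul, ← sq, ← norm_sq_eq, e]
  ring

theorem int_lap (h : Su a y₁ u) : ∫ y, lap (eu n) u y = -((n - 2) * omega n * a) := by
  have h1 := flux n (fun i => pd i u) (-((n - 2) * a)) h.dim (fun i => h.sm.pd i)
    ⟨0, y₁ + 1, fun x hx i => by rw [d1 h (by linarith), sub_self, abs_zero, zero_mul]⟩
  have h2 : Tendsto (fun r => ∫ x, cut r x * ∑ i, pd i (pd i u) x) atTop
      (𝓝 (∫ y, lap (eu n) u y)) := by
    refine tendsto_const_nhds.congr' ((eventually_ge_atTop y₁).mono fun r hr => ?_)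
    refine integral_congr_ae (ae_of_all _ fun x => ?_)
    simp only [← lap_eu]
    rcases le_or_gt ‖x‖ r with hx | hx
    · rw [cut_one hx, one_mul]
    · rw [lap0 h (hr.trans_lt hx), mul_zero]
  rw [tendsto_nhds_unique h2 h1]
  ring

theorem int_comp (h : Bo v γ L) (f : E n → ℝ) : γ * ∫ x, f (L x) = ∫ y, f y := by
  have e := integral_image_eq_integral_abs_det_fderiv_smul (volume : Measure (E n))
    MeasurableSet.univ (fun y _ => (L.hasFDerivAt (x := y)).hasFDerivWithinAt)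
    L.injective.injOn f
  rw [image_univ, L.surjective.range_eq, Measure.restrict_univ, det_eq, det_mt h,
    abs_of_nonneg (by linarith [h.γ1])] at e
  rw [e, ← integral_const_mul]
  rfl

theorem dec {f : E n → ℝ} (hf : Continuous f) {R C p : ℝ} (hR : 1 ≤ R) (hp : 0 ≤ p)
    (e : ∀ y, R < ‖y‖ → |f y| ≤ C * ‖y‖ ^ (-p)) :
    ∃ B, 0 < B ∧ ∀ y, |f y| ≤ B * (1 + ‖y‖) ^ (-p) := by
  obtain ⟨K, hK, h⟩ := bdd_of_out (F := fun y => f y * (1 + ‖y‖) ^ p)
    (hf.mul ((continuous_const.add continuous_norm).rpow_const fun _ => Or.inr hp))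
    (R := R) (C := |C| * 2 ^ p) fun y hy => by
      have h0 : 0 < ‖y‖ := by linarith
      rw [Real.norm_eq_abs, abs_mul, abs_of_nonneg (a := (1 + ‖y‖) ^ p) (by positivity)]
      calc |f y| * (1 + ‖y‖) ^ p ≤ |C| * ‖y‖ ^ (-p) * (2 * ‖y‖) ^ p :=
            mul_le_mul ((e y hy).trans (mul_le_mul_of_nonneg_right (le_abs_self C)
              (by positivity))) (Real.rpow_le_rpow (by positivity) (by linarith) hp)
              (by positivity) (by positivity)
        _ = |C| * 2 ^ p := by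
            rw [Real.mul_rpow (by positivity) h0.le, Real.rpow_neg h0.le]
            field_simp
  refine ⟨K, hK, fun y => ?_⟩
  have h1 := h y
  rw [Real.norm_eq_abs, abs_mul, abs_of_nonneg (a := (1 + ‖y‖) ^ p) (by positivity)] at h1
  rw [Real.rpow_neg (by positivity), ← div_eq_mul_inv, le_div_iff₀ (by positivity)]
  exact h1

theorem o2u (h : Su a y₁ u) : ∃ B, 0 < B ∧ O2 B (n - 2) 1 u := by
  have hn : (3 : ℝ) ≤ n := by exact_mod_cast h.dim
  have ha := h.a0
  have hc : 0 ≤ (n - 2) * a := mul_nonneg (by linarith) ha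
  have c : ∀ (y : E n) i, |y i| ≤ ‖y‖ := fun y i => PiLp.norm_apply_le y i
  obtain ⟨B, hB, h0⟩ := dec h.sm.cont h.y1 (C := a) (p := n - 2) (by linarith) fun y hy => by
    rw [h.out y hy.le, neg_sub, abs_of_nonneg (by positivity)]
  have h1 : ∀ i, ∃ B, 0 < B ∧ ∀ y, |pd i u y| ≤ B * (1 + ‖y‖) ^ (-(n - 2 + 1 : ℝ)) := fun i =>
    dec (h.sm.pd i).cont h.y1 (C := (n - 2) * a) (by linarith) fun y hy => by
      have h0 : 0 < ‖y‖ := by linarith [h.y1]
      rw [d1 h hy, abs_mul, abs_mul, abs_neg, abs_of_nonneg hc,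
        abs_of_nonneg (a := ‖y‖ ^ (-n : ℝ)) (by positivity),
        show -(n - 2 + 1 : ℝ) = -n + 1 by ring, Real.rpow_add_one h0.ne', mul_assoc]
      exact mul_le_mul_of_nonneg_left ((mul_comm _ _).le.trans
        (mul_le_mul_of_nonneg_left (c y i) (by positivity))) hc
  have h2 : ∀ i j, ∃ B, 0 < B ∧ ∀ y, |pd j (pd i u) y| ≤ B * (1 + ‖y‖) ^ (-(n - 2 + 2 : ℝ)) :=
    fun i j => dec ((h.sm.pd i).pd j).cont h.y1 (C := (n - 2) * a * (1 + n)) (by linarith)
      fun y hy => by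
      have h0 : 0 < ‖y‖ := by linarith [h.y1]
      have e : ‖y‖ ^ (-n : ℝ) = ‖y‖ * ‖y‖ * ‖y‖ ^ (-n - 2 : ℝ) := by
        rw [← sq, ← Real.rpow_two, ← Real.rpow_add h0]
        congr 1
        ring
      have h3 : |y i * y j * ‖y‖ ^ (-n - 2 : ℝ)| ≤ ‖y‖ ^ (-n : ℝ) := by
        rw [e, abs_mul, abs_mul, abs_of_nonneg (a := ‖y‖ ^ (-n - 2 : ℝ)) (by positivity)]
        exact mul_le_mul_of_nonneg_right (mul_le_mul (c y i) (c y j) (abs_nonneg _) h0.le)
          (by positivity)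
      have h4 : |(if j = i then 1 else 0) * ‖y‖ ^ (-n : ℝ)| ≤ ‖y‖ ^ (-n : ℝ) := by
        split_ifs
        · rw [one_mul, abs_of_nonneg (by positivity)]
        · rw [zero_mul, abs_zero]
          positivity
      rw [d2 h hy, abs_mul, abs_neg, abs_of_nonneg hc, show -(n - 2 + 2 : ℝ) = -n by ring,
        mul_assoc _ (1 + n : ℝ)]
      refine mul_le_mul_of_nonneg_left ((abs_sub _ _).trans ?_) hc
      rw [abs_mul (n : ℝ), abs_of_nonneg (a := (n : ℝ)) (by positivity), add_mul, one_mul]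
      exact add_le_add h4 (mul_le_mul_of_nonneg_left h3 (by positivity))
  choose B₁ hB₁ h1 using h1
  choose B₂ hB₂ h2 using h2
  have s1 : 0 ≤ ∑ i, B₁ i := Finset.sum_nonneg fun i _ => (hB₁ i).le
  have s2 : ∀ i, 0 ≤ ∑ j, B₂ i j := fun i => Finset.sum_nonneg fun j _ => (hB₂ i j).le
  have s3 : 0 ≤ ∑ i, ∑ j, B₂ i j := Finset.sum_nonneg fun i _ => s2 i
  refine ⟨B + ∑ i, B₁ i + ∑ i, ∑ j, B₂ i j, by positivity, fun y i j =>
    ⟨(h0 y).trans (mul_le_mul_of_nonneg_right (by linarith) (by positivity)),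
      (h1 i y).trans (mul_le_mul_of_nonneg_right ?_ (by positivity)),
      (h2 i j y).trans (mul_le_mul_of_nonneg_right ?_ (by positivity))⟩⟩
  · linarith [Finset.single_le_sum (fun i _ => (hB₁ i).le) (Finset.mem_univ i)]
  · linarith [Finset.single_le_sum (fun j _ => (hB₂ i j).le) (Finset.mem_univ j),
      Finset.single_le_sum (fun i _ => s2 i) (Finset.mem_univ i)]

theorem o2c (hl : ∀ x, ‖x‖ ≤ ‖L x‖) (hu : Smooth u) {B q : ℝ} (hB : 0 < B) (hq : 0 ≤ q)
    (h : O2 B q 1 u) : ∃ B', O2 B' q 1 fun x => u (L x) := by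
  obtain ⟨S, hS, hM⟩ : ∃ S : ℝ, 1 ≤ S ∧ ∀ i, ∑ k, |T1.mt L k i| ≤ S := by
    have s : ∀ i, 0 ≤ ∑ k, |T1.mt L k i| := fun i => Finset.sum_nonneg fun _ _ => abs_nonneg _
    exact ⟨1 + ∑ i, ∑ k, |T1.mt L k i|, by linarith [Finset.sum_nonneg fun i (_ : i ∈ Finset.univ) => s i],
      fun i => by linarith [Finset.single_le_sum (fun i _ => s i) (Finset.mem_univ i)]⟩
  have m : ∀ (x : E n) (p : ℝ), 0 ≤ p → B * (1 + ‖L x‖) ^ (-p) ≤ B * (1 + ‖x‖) ^ (-p) :=
    fun x p hp => mul_le_mul_of_nonneg_left (Real.rpow_le_rpow_of_nonpos (by positivity)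
      (by linarith [hl x]) (by linarith)) hB.le
  have t : ∀ (i : Fin n) (c : Fin n → ℝ) (T : ℝ), 0 ≤ T → (∀ k, |c k| ≤ T) →
      |∑ k, T1.mt L k i * c k| ≤ S * T := fun i c T hT hc =>
    (Finset.abs_sum_le_sum_abs _ _).trans ((Finset.sum_le_sum fun k _ => (abs_mul _ _).le.trans
      (mul_le_mul_of_nonneg_left (hc k) (abs_nonneg _))).trans (by
        rw [← Finset.sum_mul]
        exact mul_le_mul_of_nonneg_right (hM i) hT))
  have s1 : B ≤ S * B := le_mul_of_one_le_left hB.le hS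
  have s2 : S * B ≤ S * (S * B) := le_mul_of_one_le_left (by positivity) hS
  refine ⟨S * (S * B), fun x i j => ⟨((h _ i j).1.trans (m x q hq)).trans
    (mul_le_mul_of_nonneg_right (s1.trans s2) (by positivity)), ?_, ?_⟩⟩
  · rw [pd1 L hu]
    refine (t i _ _ (by positivity) fun k => (h _ k j).2.1.trans (m x _ (by linarith))).trans ?_
    rw [← mul_assoc]
    exact mul_le_mul_of_nonneg_right s2 (by positivity)
  · rw [pd2 L hu]
    simp only [mul_assoc, ← Finset.mul_sum]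
    exact t i _ _ (by positivity) fun k => t j _ _ (by positivity) fun l =>
      (h _ k l).2.2.trans (m x _ (by linarith))

end Dcw

open Dcw in
/-- **DCW** -/
theorem dcw : DCW := by
  intro n a y₁ γ u v L h hL
  have hn : (3 : ℝ) ≤ n := by exact_mod_cast h.dim
  obtain ⟨B, hB, hO⟩ := o2u h
  simp only [key hL h.sm]
  refine ⟨smooth_comp L h.sm, o2c hL.lo h.sm hB (by linarith) hO, fun x hx => ?_, ?_, ?_⟩
  · rw [← sub_eq_zero, key hL h.sm, lap0 h (hx.trans_le (hL.lo x))]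
  · exact integrable_of_out ((met_eu.cont_lap h.sm.two).comp L.continuous) (R := y₁ + 1)
      fun x hx => lap0 h (by linarith [hL.lo x])
  · rw [int_comp hL, int_lap h]

end Vale.Agent.P366Y.B
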