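import Vale.Agent.P366Y.B.Defs
import Vale.Agent.P366Y.C.Orth

/-!
# P366Y, block B: the defect of the dominant energy condition
-/

open MeasureTheory Metric Filter Topology Set
open scoped ContDiff ENNReal
open Vale.Agent.P366.Stmt Vale.Agent.P366Z Vale.Agent.P366Z.St0
open Vale.Agent.P366Y.A (Sy B0 Bk ck mg)

noncomputable section

namespace Vale.Agent.P366Y.B

namespace Def2

variable {n : ℕ}

/-- the Euclidean length -/
def nn (w : Fin n → ℝ) : ℝ := √(∑ i, w i ^ 2)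

theorem nn_eq (w : Fin n → ℝ) : nn w = ‖(WithLp.toLp 2 w : E n)‖ := by
  simp [nn, EuclideanSpace.norm_eq]

theorem nn_add (w z : Fin n → ℝ) : nn (w + z) ≤ nn w + nn z := by
  simp only [nn_eq, WithLp.toLp_add]
  exact norm_add_le _ _

theorem nn_smul {c : ℝ} (hc : 0 ≤ c) (w : Fin n → ℝ) : nn (c • w) = c * nn w := by
  simp only [nn_eq, WithLp.toLp_smul, norm_smul, Real.norm_of_nonneg hc]

theorem nn_le (w : Fin n → ℝ) : nn w ≤ ∑ i, |w i| := by
  refine Real.sqrt_le_iff.2 ⟨by positivity, ?_⟩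
  simpa only [sq_abs] using Finset.sum_sq_le_sq_sum_of_nonneg (s := Finset.univ)
    (f := fun i => |w i|) fun i _ => abs_nonneg _

theorem nn_bd {w : Fin n → ℝ} {c : ℝ} (h : ∀ i, |w i| ≤ c) : nn w ≤ n * c :=
  (nn_le w).trans ((Finset.sum_le_sum fun i _ => h i).trans (by simp))

theorem sm_pe {K : Field n} (hK : Sy K) (i j : Fin n) : Smooth fun y => pe K y i j :=
  ContDiff.sub (hK.sm i j) (ContDiff.mul (ContDiff.sum fun k _ => hK.sm k k) contDiff_const)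

theorem lj_add {K Z : Field n} (hK : Sy K) (hZ : Sy Z) (j : Fin n) (x : E n) :
    lj (K + Z) j x = lj K j x + lj Z j x := by
  simp only [lj, ← Finset.sum_add_distrib]
  refine Finset.sum_congr rfl fun i _ => ?_
  rw [← pd_add (P366.T1.sdiff (sm_pe hK i j) x) (P366.T1.sdiff (sm_pe hZ i j) x)]
  refine congrArg (fun f => pd i f x) (funext fun y => ?_)
  simp only [pe, Pi.add_apply, Finset.sum_add_distrib]
  ring

theorem sy_gm {K K₂ : Field n} (hK : Sy K) (hK₂ : Sy K₂) (ρ : ℝ) : Sy (gm ρ K K₂) :=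
  ⟨fun i j => ContDiff.add (ContDiff.mul (sm_cut ρ) (hK.sm i j))
    (ContDiff.mul (contDiff_const.sub (sm_cut ρ)) (hK₂.sm i j)),
    fun x i j => by simp only [gm, hK.sy x i j, hK₂.sy x i j]⟩

theorem sy_add {K Z : Field n} (hK : Sy K) (hZ : Sy Z) : Sy (K + Z) :=
  ⟨fun i j => ContDiff.add (hK.sm i j) (hZ.sm i j),
    fun x i j => by simp only [Pi.add_apply, hK.sy x i j, hZ.sy x i j]⟩

theorem cov_eq (g : Field n) (w : Fin n → E n → ℝ) (x : E n) :
    covNorm g w x = covNorm g (fun i _ => (fun j => w j x) i) x := rfl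

/-- the linear parts at a far point -/
theorem lin (scl : SCL) (mln : MLN) (n : ℕ) (q C : ℝ) (q0 : 0 < q) (C0 : 0 < C) :
    ∃ L > (0 : ℝ), ∃ R₂ ≥ (1 : ℝ), ∀ (g K : Field n) (R : ℝ) (x : E n), Met g → Sy K → Af g q C R →
      Ak K q C R → R ≤ ‖x‖ → R₂ ≤ ‖x‖ → |mu g K x - lr g x / 2| ≤ L * ‖x‖ ^ (-(2 * q + 2)) ∧
      |covNorm g (mom g K) x - nn fun j => lj K j x| ≤ L * ‖x‖ ^ (-(2 * q + 2)) ∧
      √(normSq g K x) ≤ L * ‖x‖ ^ (-(q + 1)) := by
  obtain ⟨e₁, e1, S, S0, scl⟩ := scl n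
  obtain ⟨e₂, e2, L, L0, mln⟩ := mln n
  have e0 : 0 < min 1 (min e₁ e₂) := lt_min one_pos (lt_min e1 e2)
  obtain ⟨R₂, hR⟩ := eventually_atTop.1 ((((tendsto_rpow_neg_atTop q0).const_mul C).eventually
    (gt_mem_nhds (by rw [mul_zero]; exact e0))).and (eventually_ge_atTop (1 : ℝ)))
  refine ⟨(S + L ^ 2 + 2 * n * L + 3 * n * L ^ 2) * C ^ 2 + L * C, by positivity, R₂,
    (hR R₂ le_rfl).2, fun g K R x hg hK af ak h1 h2 => ?_⟩
  obtain ⟨a1, r1⟩ := hR _ h2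
  have r0 : 0 < ‖x‖ := by linarith
  have p1 : C * ‖x‖ ^ (-q) * (C * ‖x‖ ^ (-(q + 2))) = C ^ 2 * ‖x‖ ^ (-(2 * q + 2)) := by
    rw [show -(2 * q + 2) = -q + -(q + 2) by ring, Real.rpow_add r0]
    ring
  have p2 : (C * ‖x‖ ^ (-(q + 1))) ^ 2 = C ^ 2 * ‖x‖ ^ (-(2 * q + 2)) := by
    rw [show -(2 * q + 2) = -(q + 1) + -(q + 1) by ring, Real.rpow_add r0]
    ring
  obtain ⟨s1, -⟩ := scl g x _ _ _ hg (by positivity)
    (a1.le.trans ((min_le_right _ _).trans (min_le_left _ _))) (by positivity) (by positivity)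
    (fun i j => (af x h1 i j i i).1) (fun i j k => (af x h1 i j k i).2.1)
    fun i j k l => (af x h1 i j k l).2.2
  obtain ⟨m1, m2, m3, m4⟩ := mln g K x _ _ _ _ hg hK (by positivity)
    (a1.le.trans ((min_le_right _ _).trans (min_le_right _ _))) (by positivity) (by positivity)
    (by positivity) (fun i j => (af x h1 i j i i).1) (fun i j k => (af x h1 i j k i).2.1)
    (fun i j => (ak x h1 i j i).1) fun i j k => (ak x h1 i j k).2
  have m5 : |covNorm g (mom g K) x - nn fun j => mom g K j x| ≤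
      L * (C * ‖x‖ ^ (-q)) * nn fun j => mom g K j x := by
    rw [cov_eq g (mom g K) x, nn]
    exact m4 _
  have n0 : 0 ≤ normSq g K x := (P366Y.C.orth n g K 0 0 x hg (hK.sy x)).1
  have n1 := Real.sqrt_le_iff.1 m3
  have t1 := sq_le_sq' (abs_le.1 m2).1 (abs_le.1 m2).2
  have a2 : C * ‖x‖ ^ (-q) ≤ 1 := a1.le.trans (min_le_left _ _)
  have a0 : 0 ≤ C * ‖x‖ ^ (-q) := by positivity
  have u1 := nn_bd fun j => (m1 j).2
  have u2 := nn_bd fun j => (m1 j).1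
  have u3 : nn (fun j => lj K j x - mom g K j x) ≤ _ := nn_bd fun j => by
    rw [abs_sub_comm]
    exact (m1 j).1
  have u4 := nn_add (fun j => lj K j x) fun j => mom g K j x - lj K j x
  have u5 := nn_add (fun j => mom g K j x) fun j => lj K j x - mom g K j x
  rw [show ((fun j => lj K j x) + fun j => mom g K j x - lj K j x) = fun j => mom g K j x from
    funext fun j => by simp] at u4
  rw [show ((fun j => mom g K j x) + fun j => lj K j x - mom g K j x) = fun j => lj K j x from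
    funext fun j => by simp] at u5
  rw [← sq, p1, p2] at u2 u3
  rw [p1, p2] at s1
  rw [mul_pow L, p2] at n1 t1
  have d0 : 0 ≤ ‖x‖ ^ (-(2 * q + 2)) := by positivity
  have d1 : 0 ≤ ‖x‖ ^ (-(q + 1)) := by positivity
  have u6 := mul_le_mul_of_nonneg_left (u4.trans (add_le_add u1 u2)) (mul_nonneg L0.le a0)
  have u7 : L * (C * ‖x‖ ^ (-q)) * (n * (L * (C * ‖x‖ ^ (-(q + 2))))) =
      n * L ^ 2 * (C ^ 2 * ‖x‖ ^ (-(2 * q + 2))) := by
    rw [← p1]
    ring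
  generalize ‖x‖ ^ (-(2 * q + 2)) = d at *
  have u8 : L * (C * ‖x‖ ^ (-q)) * (n * (L * (C ^ 2 * d + C ^ 2 * d))) ≤
      L * 1 * (n * (L * (C ^ 2 * d + C ^ 2 * d))) := by gcongr
  have w1 : 0 ≤ S * C ^ 2 * d := by positivity
  have w2 : 0 ≤ L ^ 2 * C ^ 2 * d := by positivity
  have w3 : 0 ≤ n * L * C ^ 2 * d := by positivity
  have w4 : 0 ≤ n * L ^ 2 * C ^ 2 * d := by positivity
  have w5 : 0 ≤ L * C * d := by positivity
  refine ⟨?_, ?_, m3.trans ?_⟩
  · simp only [mu, lr]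
    rw [abs_le] at s1 ⊢
    constructor <;> linarith [s1.1, s1.2, n1.2, sq_nonneg (tr g K x)]
  · rw [abs_le] at m5 ⊢
    constructor <;> linarith [m5.1, m5.2]
  · rw [← mul_assoc]
    exact mul_le_mul_of_nonneg_right (le_add_of_nonneg_left (by positivity)) d1

end Def2

open Def2 in
theorem def2_of (scl : SCL) (mln : MLN) : DEF := by
  intro n q C q0 C0
  obtain ⟨L, L0, R₂, R1, h⟩ := lin scl mln n q C q0 C0
  refine ⟨4 * L, by positivity, R₂, R1,
    fun g K g₂ K₂ Z R ρ x m1 m2 m3 s1 s2 s3 a1 a2 a3 k1 k2 k3 h1 h2 d1 d2 => ?_⟩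
  have s4 := sy_gm s1 s2 ρ
  obtain ⟨x1, x2, -⟩ := h g K R x m1 s1 a1 k1 h1 h2
  obtain ⟨y1, y2, -⟩ := h g₂ K₂ R x m2 s2 a2 k2 h1 h2
  obtain ⟨z1, z2, z3⟩ := h _ _ R x m3 (sy_add s4 s3) a3 k3 h1 h2
  have c0 := cut_nonneg ρ x
  have c1 := sub_nonneg.2 (cut_le_one ρ x)
  have e : (fun j => lj (gm ρ K K₂ + Z) j x) = cut ρ x • (fun j => lj K j x) +
      (1 - cut ρ x) • (fun j => lj K₂ j x) + fun j => es ρ K K₂ j x + lj Z j x :=
    funext fun j => by
      simp only [lj_add s4 s3, es, Pi.add_apply, Pi.smul_apply, smul_eq_mul]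
      ring
  have u1 := (nn_add _ _).trans (add_le_add (nn_add (cut ρ x • fun j => lj K j x)
    ((1 - cut ρ x) • fun j => lj K₂ j x)) (nn_le fun j => es ρ K K₂ j x + lj Z j x))
  rw [← e, nn_smul c0, nn_smul c1] at u1
  have u2 : (nn fun j => lj K j x) ≤ lr g x / 2 + 2 * (L * ‖x‖ ^ (-(2 * q + 2))) := by
    linarith [(abs_le.1 x1).2, (abs_le.1 x2).1]
  have u3 : (nn fun j => lj K₂ j x) ≤ lr g₂ x / 2 + 2 * (L * ‖x‖ ^ (-(2 * q + 2))) := by
    linarith [(abs_le.1 y1).2, (abs_le.1 y2).1]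
  have u4 := mul_le_mul_of_nonneg_left u2 c0
  have u5 := mul_le_mul_of_nonneg_left u3 c1
  have u6 : 0 ≤ ∑ j, |es ρ K K₂ j x + lj Z j x| := by positivity
  refine ⟨?_, z3.trans (mul_le_mul_of_nonneg_right (by linarith) (by positivity))⟩
  simp only [ee]
  linarith [(abs_le.1 z1).1, (abs_le.1 z2).2]

end Vale.Agent.P366Y.B
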