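import Vale.Agent.P366Y.B.Defs
import Vale.Agent.P366Z.St0.Cutm

/-!
# P366Y, block B: the error of the scalar curvature (row ERE)
-/

open MeasureTheory Metric Filter Topology Set
open scoped ContDiff ENNReal
open Vale.Agent.P366.Stmt Vale.Agent.P366Z Vale.Agent.P366Z.St0
open Vale.Agent.P366Z.St0.Cutm (pd_scale mulb)

noncomputable section

namespace Vale.Agent.P366Y.B

namespace EreH

variable {n : ℕ} {σ τ u f χ a b : E n → ℝ} {A B q s t ρ : ℝ} {g g₂ : Field n}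

theorem mono (h : Src σ A q ρ) (hρ : 0 < ρ) (hA : A ≤ B) : Src σ B q ρ :=
  ⟨h.sm, h.zero, fun x => (h.d0 x).trans (mul_le_mul_of_nonneg_right hA (by positivity)),
    fun x i => (h.d1 x i).trans (mul_le_mul_of_nonneg_right hA (by positivity))⟩

theorem add (h : Src σ A q ρ) (h' : Src τ B q ρ) : Src (fun x => σ x + τ x) (A + B) q ρ :=
  ⟨ContDiff.add h.sm h'.sm, fun x hx => by rw [h.zero x hx, h'.zero x hx, add_zero],
    fun x => (abs_add_le _ _).trans ((add_le_add (h.d0 x) (h'.d0 x)).trans_eq (add_mul _ _ _).symm),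
    fun x i => by
      rw [pd_add (h.sm.diff x) (h'.sm.diff x), add_mul]
      exact (abs_add_le _ _).trans (add_le_add (h.d1 x i) (h'.d1 x i))⟩

theorem sub (h : Src σ A q ρ) (h' : Src τ B q ρ) : Src (fun x => σ x - τ x) (A + B) q ρ :=
  ⟨ContDiff.sub h.sm h'.sm, fun x hx => by rw [h.zero x hx, h'.zero x hx, sub_zero],
    fun x => (abs_sub _ _).trans ((add_le_add (h.d0 x) (h'.d0 x)).trans_eq (add_mul _ _ _).symm),
    fun x i => by
      rw [pd_sub (h.sm.diff x) (h'.sm.diff x), add_mul]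
      exact (abs_sub _ _).trans (add_le_add (h.d1 x i) (h'.d1 x i))⟩

theorem sum {ι : Type} [Fintype ι] {F : ι → E n → ℝ} {c : ι → ℝ} (h : ∀ i, Src (F i) (c i) q ρ) :
    Src (fun x => ∑ i, F i x) (∑ i, c i) q ρ :=
  ⟨ContDiff.sum fun i _ => (h i).sm, fun x hx => Finset.sum_eq_zero fun i _ => (h i).zero x hx,
    fun x => (Finset.abs_sum_le_sum_abs _ _).trans ((Finset.sum_le_sum fun i _ =>
      (h i).d0 x).trans_eq (Finset.sum_mul _ _ _).symm), fun x k => by
      rw [pd_sum _ fun i _ => (h i).sm.diff x, Finset.sum_mul]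
      exact (Finset.abs_sum_le_sum_abs _ _).trans (Finset.sum_le_sum fun i _ => (h i).d1 x k)⟩

theorem pd_in {c : ℝ} (h : ∀ x, ‖x‖ < ρ → u x = c) {x : E n} (hx : ‖x‖ < ρ) (i : Fin n) :
    pd i u x = 0 := by
  have : u =ᶠ[𝓝 x] fun _ => c := by
    filter_upwards [(isOpen_lt continuous_norm continuous_const).mem_nhds hx] with z hz
    exact h z hz
  rw [pd_congr this, pd_const]

/-- a source times a function which decays -/
theorem mul (h : Src u A s ρ) (hρ : 0 < ρ) (hA : 0 ≤ A) (hB : 0 ≤ B) (hf : Smooth f)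
    (h0 : ∀ x, ρ ≤ ‖x‖ → |f x| ≤ B * ρ ^ (-t) ∧ ∀ k, |pd k f x| ≤ B * ρ ^ (-(t + 1)))
    (e : s + t = q) : Src (fun x => u x * f x) (2 * A * B) q ρ := by
  have e1 : ∀ c d : ℝ, A * ρ ^ (-(s + c)) * (B * ρ ^ (-(t + d))) = A * B * ρ ^ (-(q + (c + d))) :=
    fun c d => by
      rw [mul_mul_mul_comm, ← Real.rpow_add hρ, ← e]
      congr 2
      ring
  refine ⟨ContDiff.mul h.sm hf, fun x hx => by rw [h.zero x hx, zero_mul], fun x => ?_,
    fun x k => ?_⟩
  · rcases lt_or_ge ‖x‖ ρ with hx | hx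
    · rw [h.zero x (.inl hx), zero_mul, abs_zero]
      positivity
    have k1 := e1 2 0
    rw [add_zero, add_zero] at k1
    have k2 : 0 ≤ A * B * ρ ^ (-(q + 2)) := by positivity
    linarith [mulb (h.d0 x) (h0 x hx).1]
  · rw [pd_mul (h.sm.diff x) (hf.diff x)]
    rcases lt_or_ge ‖x‖ ρ with hx | hx
    · rw [h.zero x (.inl hx), pd_in (fun y hy => h.zero y (.inl hy)) hx, zero_mul, zero_mul,
        add_zero, abs_zero]
      positivity
    have k1 := e1 3 0
    have k2 := e1 2 1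
    rw [add_zero, add_zero] at k1
    rw [show (2 : ℝ) + 1 = 3 by norm_num] at k2
    linarith [mulb (h.d1 x k) (h0 x hx).1, mulb (h.d0 x) ((h0 x hx).2 k),
      abs_add_le (pd k u x * f x) (u x * pd k f x)]

theorem scale (hu : Smooth u) (h : ∀ x, ‖x‖ < 1 ∨ 2 ≤ ‖x‖ → u x = 0) (s : ℝ) :
    ∃ c ≥ (0 : ℝ), ∀ ρ > (0 : ℝ), Src (fun x => ρ ^ (-(s + 2)) * u (ρ⁻¹ • x)) c s ρ := by
  obtain ⟨c, hc, h1⟩ := bdd_of_const hu (R := 2) fun y hy => h y (.inr hy.le)
  refine ⟨c, hc.le, fun ρ hρ => ⟨contDiff_const.mul (ContDiff.comp hu (contDiff_id.const_smul _)),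
    fun x hx => ?_, fun x => ?_, fun x i => ?_⟩⟩
  · rw [h _ ?_, mul_zero]
    rw [norm_smul, norm_inv, Real.norm_of_nonneg hρ.le, inv_mul_lt_iff₀ hρ, le_inv_mul_iff₀ hρ]
    exact hx.imp (fun k => by linarith) fun k => by linarith
  · rw [abs_mul, abs_of_nonneg (by positivity), mul_comm]
    exact mul_le_mul_of_nonneg_right (h1 _).1 (by positivity)
  · rw [pd_const_mul, pd_scale hu, ← mul_assoc, ← Cutm.rp1 hρ, abs_mul,
      abs_of_nonneg (by positivity), mul_comm, show s + 2 + 1 = s + 3 by ring]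
    exact mul_le_mul_of_nonneg_right ((abs_pd_le (hu.diff _) i).trans (h1 _).2) (by positivity)

theorem cut_out (j : Fin n) (x : E n) (hx : 3 / 2 < ‖x‖) : pd j (cut 1) x = 0 :=
  pd_zero_of_out (R := 3 / 2) (c := 0) (fun y hy => Real.smoothTransition.zero_of_nonpos (by
    nlinarith)) hx j

theorem pd_cut (hρ : 0 < ρ) (j : Fin n) :
    pd j (cut ρ : E n → ℝ) = fun x => ρ⁻¹ * pd j (cut 1) (ρ⁻¹ • x) := by
  rw [(funext (cut_scale hρ) : (cut ρ : E n → ℝ) = fun x => cut 1 (ρ⁻¹ • x))]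
  exact funext (pd_scale (sm_cut 1) _ j)

theorem cut1 (j : Fin n) : ∃ c ≥ (0 : ℝ), ∀ ρ > (0 : ℝ), Src (pd j (cut ρ)) c (-1) ρ := by
  obtain ⟨c, hc, h⟩ := scale ((sm_cut 1).pd j) (fun x hx => hx.elim (fun k => pd_cut_in k j)
    fun k => cut_out j x (by linarith)) (-1)
  refine ⟨c, hc, fun ρ hρ => ?_⟩
  have := h ρ hρ
  rwa [show -((-1 : ℝ) + 2) = -1 by norm_num, Real.rpow_neg_one, ← pd_cut hρ] at this

theorem cut2 (i j : Fin n) :
    ∃ c ≥ (0 : ℝ), ∀ ρ > (0 : ℝ), Src (pd i (pd j (cut ρ))) c 0 ρ := by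
  obtain ⟨c, hc, h⟩ := scale (((sm_cut 1).pd j).pd i) (fun x hx => hx.elim
    (fun k => pd_in (fun _ k => pd_cut_in k j) k i) fun k => pd_zero_of_out (R := 7 / 4)
      (fun y hy => cut_out j y (by linarith)) (by linarith) i) 0
  refine ⟨c, hc, fun ρ hρ => ?_⟩
  have e : pd i (pd j (cut ρ : E n → ℝ)) =
      fun x => ρ ^ (-((0 : ℝ) + 2)) * pd i (pd j (cut 1)) (ρ⁻¹ • x) := funext fun x => by
    rw [pd_cut hρ, pd_const_mul, pd_scale ((sm_cut 1).pd j), Cutm.rp2 hρ, neg_zero, Real.rpow_zero]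
    ring
  exact e ▸ h ρ hρ

/-- the commutator of two derivatives and the multiplication by `χ` -/
def cm (χ f : E n → ℝ) (i j : Fin n) (x : E n) : ℝ :=
  pd i (pd j χ) x * f x + pd j χ x * pd i f x + pd i χ x * pd j f x

theorem cmS (q C : ℝ) (hC : 0 ≤ C) (i j : Fin n) : ∃ A : ℝ, ∀ ρ > (0 : ℝ), ∀ f : E n → ℝ,
    Smooth f → (∀ x, ρ ≤ ‖x‖ → ∀ k l, |f x| ≤ C * ρ ^ (-q) ∧ |pd k f x| ≤ C * ρ ^ (-(q + 1)) ∧
      |pd l (pd k f) x| ≤ C * ρ ^ (-(q + 2))) → Src (cm (cut ρ) f i j) A q ρ := by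
  obtain ⟨c₀, p₀, h₀⟩ := cut2 i j
  obtain ⟨c₁, p₁, h₁⟩ := cut1 j
  obtain ⟨c₂, p₂, h₂⟩ := cut1 i
  refine ⟨2 * c₀ * C + 2 * c₁ * C + 2 * c₂ * C, fun ρ hρ f hf h => ?_⟩
  have k : ∀ k x, ρ ≤ ‖x‖ → |pd k f x| ≤ C * ρ ^ (-(q + 1)) ∧
      ∀ l, |pd l (pd k f) x| ≤ C * ρ ^ (-(q + 1 + 1)) := fun k x hx =>
    ⟨(h x hx k k).2.1, fun l => by
      rw [show q + 1 + 1 = q + 2 by ring]
      exact (h x hx k l).2.2⟩
  exact add (add (mul (h₀ ρ hρ) hρ p₀ hC hf
    (fun x hx => ⟨(h x hx i i).1, fun k => (h x hx k k).2.1⟩) (zero_add q))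
    (mul (h₁ ρ hρ) hρ p₁ hC (hf.pd i) (k i) (by ring)))
    (mul (h₂ ρ hρ) hρ p₂ hC (hf.pd j) (k j) (by ring))

theorem cm_eq (hχ : Smooth χ) (ha : Smooth a) (hb : Smooth b) (i j : Fin n) (x : E n) :
    pd i (pd j fun y => χ y * a y + (1 - χ y) * b y) x =
      χ x * pd i (pd j a) x + (1 - χ x) * pd i (pd j b) x + cm χ (fun y => a y - b y) i j x := by
  have hd : Smooth fun y => a y - b y := ContDiff.sub ha hb
  have e : (pd j fun y => χ y * a y + (1 - χ y) * b y) = fun x =>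
      pd j χ x * (a x - b x) + χ x * (pd j a x - pd j b x) + pd j b x := funext fun x => by
    rw [show (fun y => χ y * a y + (1 - χ y) * b y) = fun y => χ y * (a y - b y) + b y from
      funext fun y => by ring, pd_add ((hχ.diff x).fun_mul (hd.diff x)) (hb.diff x),
      pd_mul (hχ.diff x) (hd.diff x), pd_sub (ha.diff x) (hb.diff x)]
  have h1 := (hχ.pd j).diff x
  have h2 := hd.diff x
  have h3 := hχ.diff x
  have h4 := ((ha.pd j).diff x).fun_sub ((hb.pd j).diff x)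
  rw [e, pd_add ((h1.fun_mul h2).fun_add (h3.fun_mul h4)) ((hb.pd j).diff x),
    pd_add (h1.fun_mul h2) (h3.fun_mul h4), pd_mul h1 h2, pd_mul h3 h4,
    pd_sub ((ha.pd j).diff x) ((hb.pd j).diff x), cm, pd_sub (ha.diff x) (hb.diff x) j]
  ring

theorem lr_eq (hg : ∀ i j, Smooth fun x => g x i j) (x : E n) : lr g x =
    ∑ i, ∑ j, (pd i (pd j fun y => g y i j) x - pd i (pd i fun y => g y j j) x) :=
  Finset.sum_congr rfl fun i _ => (pd_sum _ (fun j _ => (((hg i j).pd j).diff x).fun_sub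
    (((hg j j).pd i).diff x)) i).trans (Finset.sum_congr rfl fun j _ =>
      pd_sub (((hg i j).pd j).diff x) (((hg j j).pd i).diff x) i)

theorem ee_eq (hg : Met g) (hg₂ : Met g₂) (ρ : ℝ) : ee ρ g g₂ = fun x => ∑ i, ∑ j,
    (cm (cut ρ) (fun y => g y i j - g₂ y i j) i j x -
      cm (cut ρ) (fun y => g y j j - g₂ y j j) i i x) := funext fun x => by
  rw [ee, lr_eq (g := gm ρ g g₂) fun i j => ContDiff.add (ContDiff.mul (sm_cut ρ) (hg.sm i j))
    (ContDiff.mul (contDiff_const.sub (sm_cut ρ)) (hg₂.sm i j)), lr_eq hg.sm, lr_eq hg₂.sm]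
  simp only [Finset.mul_sum, ← Finset.sum_sub_distrib, gm,
    cm_eq (sm_cut ρ) (hg.sm _ _) (hg₂.sm _ _)]
  exact Finset.sum_congr rfl fun i _ => Finset.sum_congr rfl fun j _ => by ring

theorem int1 (hρ : 0 < ρ) (hf : Smooth f) (i : Fin n) :
    Integrable fun x => pd i (cut ρ) x * f x :=
  integrable_of_out (R := 3 * ρ) (((sm_cut ρ).pd i).cont.mul hf.cont) fun y hy => by
    rw [pd_cut_out hρ (by linarith), zero_mul]

theorem int_cm (hρ : 0 < ρ) (hf : Smooth f) (i j : Fin n) : Integrable (cm (cut ρ) f i j) ∧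
    ∫ x, cm (cut ρ) f i j x = ∫ x, pd i (cut ρ) x * pd j f x := by
  have c1 : HasCompactSupport (pd j (cut ρ : E n → ℝ)) :=
    supp_of_out (R := 3 * ρ) fun y hy => pd_cut_out hρ (by linarith) j
  have i1 : Integrable fun x => pd i (pd j (cut ρ)) x * f x :=
    integrable_of_out (R := 4 * ρ) ((((sm_cut ρ).pd j).pd i).cont.mul hf.cont) fun y hy => by
      rw [pd_zero_of_out (R := 3 * ρ) (fun z hz => pd_cut_out hρ (by linarith) j) (by linarith),
        zero_mul]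
  have i2 := int1 hρ (hf.pd i) j
  have i3 := int1 hρ (hf.pd j) i
  have i4 : Integrable fun x => pd i (pd j (cut ρ)) x * f x + pd j (cut ρ) x * pd i f x := i1.add i2
  refine ⟨i4.add i3, ?_⟩
  unfold cm
  rw [integral_add i4 i3, integral_add i1 i2, ibp (lip_of_supp (ContDiff.of_le
    ((sm_cut ρ).pd j) (by norm_cast)) c1) c1 (ContDiff.of_le hf (by norm_cast)), add_neg_cancel,
    zero_add]

theorem sm_yv (hg : Met g) (i : Fin n) : Smooth (yv g i) :=
  ContDiff.sum fun j _ => ContDiff.sub ((hg.sm i j).pd j) ((hg.sm j j).pd i)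

theorem int2 {F G : Fin n → Fin n → E n → ℝ} (hF : ∀ i j, Integrable (F i j))
    (hG : ∀ i j, Integrable (G i j)) :
    ∫ x, ∑ i, ∑ j, (F i j x - G i j x) = ∑ i, ∑ j, ((∫ x, F i j x) - ∫ x, G i j x) := by
  have k : ∀ i j, Integrable fun x => F i j x - G i j x := fun i j => (hF i j).sub (hG i j)
  rw [integral_finsetSum _ fun i _ => integrable_finsetSum _ fun j _ => k i j]
  refine Finset.sum_congr rfl fun i _ => ?_
  rw [integral_finsetSum _ fun j _ => k i j]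
  exact Finset.sum_congr rfl fun j _ => integral_sub (hF i j) (hG i j)

theorem int_ee (hg : Met g) (hg₂ : Met g₂) (hρ : 0 < ρ) : ∫ x, ee ρ g g₂ x =
    (∫ x, ∑ i, pd i (cut ρ) x * yv g i x) - ∫ x, ∑ i, pd i (cut ρ) x * yv g₂ i x := by
  have hd : ∀ i j, Smooth fun y => g y i j - g₂ y i j := fun i j =>
    ContDiff.sub (hg.sm i j) (hg₂.sm i j)
  have k := fun i j i' j' => int_cm hρ (hd i j) i' j'
  have k' := fun i j i' j' => int1 hρ ((hd i j).pd j') i'
  rw [ee_eq hg hg₂, ← integral_sub (integrable_finsetSum _ fun i _ => int1 hρ (sm_yv hg i) i)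
    (integrable_finsetSum _ fun i _ => int1 hρ (sm_yv hg₂ i) i)]
  refine (int2 (fun i j => (k i j i j).1) fun i j => (k j j i i).1).trans ?_
  simp only [fun i j i' j' => (k i j i' j').2]
  refine (int2 (fun i j => k' i j i j) fun i j => k' j j i i).symm.trans
    (integral_congr_ae (.of_forall fun x => ?_))
  simp only [yv, Finset.mul_sum, ← Finset.sum_sub_distrib,
    pd_sub ((hg.sm _ _).diff x) ((hg₂.sm _ _).diff x)]
  exact Finset.sum_congr rfl fun i _ => Finset.sum_congr rfl fun j _ => by ring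

end EreH

open EreH

/-- **ERE** -/
theorem ere : ERE := by
  intro n q C hq hC
  choose A hA using cmS (n := n) q (C + C) (by positivity)
  refine ⟨max (∑ i, ∑ _j : Fin n, (A i _j + A i i)) 1, by positivity,
    fun g g₂ R hg hg₂ h h₂ hR => ⟨fun ρ hρ => ?_, fun m m₂ e e₂ => ?_⟩⟩
  · have r0 : 0 < ρ := by linarith
    have k : ∀ i j i' j', Src (cm (cut ρ) (fun y => g y i j - g₂ y i j) i' j') (A i' j') q ρ :=
      fun i j i' j' => hA i' j' ρ r0 _ (ContDiff.sub (hg.sm i j) (hg₂.sm i j)) fun x hx k l => by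
        obtain ⟨a1, a2, a3⟩ := h x (hρ.trans hx) i j k l
        obtain ⟨b1, b2, b3⟩ := h₂ x (hρ.trans hx) i j k l
        have w : ∀ {s t p : ℝ}, 0 < p → |s| ≤ C * ‖x‖ ^ (-p) → |t| ≤ C * ‖x‖ ^ (-p) →
            |s - t| ≤ (C + C) * ρ ^ (-p) := fun {s t p} hp hs ht => by
          have := mul_le_mul_of_nonneg_left
            (Real.rpow_le_rpow_of_nonpos r0 hx (neg_nonpos.2 hp.le)) hC.le
          linarith [abs_sub s t]
        rw [show (pd k fun y => g y i j - g₂ y i j) = fun y => pd k (fun y => g y i j) y -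
          pd k (fun y => g₂ y i j) y from funext fun y =>
            pd_sub ((hg.sm i j).diff y) ((hg₂.sm i j).diff y) k,
          pd_sub (((hg.sm i j).pd k).diff x) (((hg₂.sm i j).pd k).diff x)]
        exact ⟨by simpa only [sub_sub_sub_cancel_right] using w hq a1 b1, w (by linarith) a2 b2,
          w (by linarith) a3 b3⟩
    rw [ee_eq hg hg₂]
    exact mono (sum fun i => sum fun j => sub (k i j i j) (k j j i i)) r0 (le_max_left _ _)
  · have t := e.sub e₂
    rw [show -(2 * (n - 1) * omega n * m) - -(2 * (n - 1) * omega n * m₂) =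
      2 * (n - 1) * omega n * (m₂ - m) by ring] at t
    exact t.congr' ((eventually_gt_atTop 0).mono fun ρ hρ => (int_ee hg hg₂ hρ).symm)

end Vale.Agent.P366Y.B
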