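import Vale.Agent.P366Y.B.Defs
import Vale.Agent.P366Z.St0.Cutm

/-!
# P366Y, rows ERS, BP: the error of the momentum density and the bump
-/

open MeasureTheory Metric Filter Topology Set
open scoped ContDiff
open Vale.Agent.P366.Stmt Vale.Agent.P366Z Vale.Agent.P366Z.St0 Vale.Agent.P366Z.St0.Cutm
open Vale.Agent.P366Y.A (Sy)
open Real (smoothTransition)

noncomputable section

namespace Vale.Agent.P366Y.B

namespace Ers

variable {n : ℕ} {ρ q B R C : ℝ} {x : E n} {K K₂ : Field n} {T : Fin n → E n → ℝ}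

theorem cut_out (h : 0 < ρ) (hx : 2 * ρ ≤ ‖x‖) (i : Fin n) : pd i (cut ρ) x = 0 := by
  rw [pd_eq ((sm_cut ρ).diff x), IsLocalMin.fderiv_eq_zero
    (.of_forall fun y => (cut_zero h hx).trans_le (cut_nonneg ρ y))]
  rfl

theorem sm_sum (hT : ∀ i, Smooth (T i)) (ρ : ℝ) : Smooth fun x => ∑ i, pd i (cut ρ) x * T i x :=
  ContDiff.sum fun i _ => ContDiff.mul ((sm_cut ρ).pd i) (hT i)

theorem int_sum (hT : ∀ i, Smooth (T i)) (h : 0 < ρ) :
    Integrable fun x => ∑ i, pd i (cut ρ) x * T i x :=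
  (sm_sum hT ρ).cont.integrable_of_hasCompactSupport
    (.intro (isCompact_closedBall 0 (2 * ρ)) fun x hx => Finset.sum_eq_zero fun i _ => by
      rw [cut_out h (not_le.1 (mt mem_closedBall_zero_iff.2 hx)).le, zero_mul])

theorem sum_le {a : Fin n → ℝ} (h : ∀ i, |a i| ≤ B) : |∑ i, a i| ≤ n * B :=
  (Finset.abs_sum_le_sum_abs _ _).trans (by
    simpa using Finset.sum_le_card_nsmul Finset.univ (fun i => |a i|) B fun i _ => h i)

/-- the gradient of the cut-off function against a vector field is a source -/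
theorem src_cut (n : ℕ) : ∃ c > (0 : ℝ), ∀ (q B ρ : ℝ) (T : Fin n → E n → ℝ), 0 < q → 0 ≤ B → 0 < ρ →
    (∀ i, Smooth (T i)) → (∀ x, ρ ≤ ‖x‖ → ∀ i k, |T i x| ≤ B * ‖x‖ ^ (-(q + 1)) ∧
      |pd k (T i) x| ≤ B * ‖x‖ ^ (-(q + 2))) →
    Src (fun x => ∑ i, pd i (cut ρ) x * T i x) (c * B) q ρ := by
  obtain ⟨c, c0, hc⟩ := cut_bd n
  refine ⟨2 * (n + 1) * c, by positivity, fun q B ρ T q0 B0 ρ0 hT h => ?_⟩
  have z : ∀ x : E n, ‖x‖ < ρ ∨ 2 * ρ ≤ ‖x‖ → ∑ i, pd i (cut ρ) x * T i x = 0 := fun x hx =>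
    Finset.sum_eq_zero fun i _ => by
      rw [hx.elim (pd_cut_in · i) (cut_out ρ0 · i), zero_mul]
  have key : ∀ x : E n, ρ ≤ ‖x‖ → ∀ i k, |pd i (cut ρ) x| ≤ c * ρ⁻¹ ∧
      |pd k (pd i (cut ρ)) x| ≤ c * ρ⁻¹ ^ 2 ∧ |T i x| ≤ B * ρ ^ (-(q + 1)) ∧
      |pd k (T i) x| ≤ B * ρ ^ (-(q + 2)) := fun x hx i k => by
    obtain ⟨h1, h2⟩ := hc ρ ρ0 x i k
    rw [abs_mul, abs_of_nonneg (by positivity)] at h1 h2
    refine ⟨?_, ?_, (h x hx i k).1.trans ?_, (h x hx i k).2.trans ?_⟩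
    · rw [← div_eq_mul_inv, le_div_iff₀' ρ0]
      exact le_trans (by gcongr) h1
    · rw [inv_pow, ← div_eq_mul_inv, le_div_iff₀' (by positivity)]
      exact le_trans (by gcongr) h2
    all_goals
      exact mul_le_mul_of_nonneg_left (Real.rpow_le_rpow_of_nonpos ρ0 hx (by linarith)) B0
  have p0 : 0 ≤ c * B * ρ ^ (-(q + 2)) := by positivity
  refine ⟨sm_sum hT ρ, z, fun x => ?_, fun x k => ?_⟩ <;> rcases lt_or_ge ‖x‖ ρ with hx | hx
  · rw [z x (.inl hx), abs_zero]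
    positivity
  · refine (sum_le fun i => mulb (key x hx i i).1 (key x hx i i).2.2.1).trans ?_
    rw [show q + 2 = q + 1 + 1 by ring, rp1 ρ0 (q + 1)] at p0 ⊢
    nlinarith [mul_nonneg n.cast_nonneg p0]
  · rw [pd_congr (h := fun _ => 0) (by
      filter_upwards [(isOpen_lt continuous_norm continuous_const).mem_nhds hx] with y hy
        using z y (.inl hy)), pd_const, abs_zero]
    positivity
  · rw [pd_sum _ fun i _ => (((sm_cut ρ).pd i).diff x).fun_mul ((hT i).diff x)]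
    refine (sum_le fun i => ?_).trans
      (?_ : n * (c * ρ⁻¹ ^ 2 * (B * ρ ^ (-(q + 1))) + c * ρ⁻¹ * (B * ρ ^ (-(q + 2)))) ≤ _)
    · rw [pd_mul (((sm_cut ρ).pd i).diff x) ((hT i).diff x)]
      exact (abs_add_le _ _).trans (add_le_add (mulb (key x hx i k).2.1 (key x hx i k).2.2.1)
        (mulb (key x hx i k).1 (key x hx i k).2.2.2))
    · have p1 := mul_nonneg p0 (inv_nonneg.2 ρ0.le)
      rw [show q + 3 = q + 2 + 1 by ring, rp1 ρ0 (q + 2)]
      rw [show q + 2 = q + 1 + 1 by ring, rp1 ρ0 (q + 1)] at p1 ⊢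
      nlinarith

theorem sm_pe (h : Sy K) (i j : Fin n) : Smooth fun x => pe K x i j :=
  ContDiff.sub (h.sm i j) (ContDiff.mul (ContDiff.sum fun k _ => h.sm k k) (met_eu.sm i j))

theorem pi_le {M : Fin n → Fin n → ℝ} (h : ∀ i j, |M i j| ≤ B) (i j : Fin n) :
    |M i j - (∑ k, M k k) * eu n x i j| ≤ (n + 1) * B := by
  have := mulb (sum_le fun k => h k k) (show |eu n x i j| ≤ 1 by unfold eu; split_ifs <;> simp)
  linarith [abs_sub (M i j) ((∑ k, M k k) * eu n x i j), h i j]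

theorem pe_le (h : Sy K) (hA : Ak K q C R) (hx : R ≤ ‖x‖) (i j k : Fin n) :
    |pe K x i j| ≤ (n + 1) * (C * ‖x‖ ^ (-(q + 1))) ∧
      |pd k (fun y => pe K y i j) x| ≤ (n + 1) * (C * ‖x‖ ^ (-(q + 2))) := by
  refine ⟨pi_le (fun i j => (hA x hx i j i).1) i j, ?_⟩
  have s : Smooth fun y => ∑ k, K y k k := ContDiff.sum fun k _ => h.sm k k
  change |pd k (fun y => K y i j - (∑ k, K y k k) * eu n x i j) x| ≤ _
  rw [pd_sub ((h.sm i j).diff x) ((s.diff x).mul_const _), pd_mul_const,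
    pd_sum _ fun k _ => (h.sm k k).diff x]
  exact pi_le (M := fun i j => pd k (fun y => K y i j) x) (fun i j => (hA x hx i j k).2) i j

theorem es_eq (h : Sy K) (h₂ : Sy K₂) (ρ : ℝ) (j : Fin n) :
    es ρ K K₂ j = fun x => ∑ i, pd i (cut ρ) x * (pe K x i j - pe K₂ x i j) := by
  funext x
  have e : ∀ i, (fun y => pe (gm ρ K K₂) y i j) =
      fun y => cut ρ y * (pe K y i j - pe K₂ y i j) + pe K₂ y i j := fun i => funext fun y => by
    simp only [pe, gm, Finset.sum_add_distrib, ← Finset.mul_sum]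
    ring
  simp only [es, lj, e, Finset.mul_sum, ← Finset.sum_sub_distrib]
  refine Finset.sum_congr rfl fun i _ => ?_
  have d1 := (sm_pe h i j).diff x
  have d2 := (sm_pe h₂ i j).diff x
  have d3 := (sm_cut ρ).diff x
  rw [pd_add (d3.fun_mul (d1.fun_sub d2)) d2, pd_mul d3 (d1.fun_sub d2), pd_sub d1 d2]
  ring

theorem sm_bp (ρ : ℝ) : Smooth (bp ρ : E n → ℝ) :=
  ContDiff.mul ((contDiff_infty_iff_deriv.1 Real.smoothTransition.contDiff).2.comp
    ((contDiff_normSq.div_const _).sub contDiff_const)) contDiff_const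

theorem bp_zero (h : 0 < ρ) (hx : ‖x‖ < ρ ∨ 2 * ρ ≤ ‖x‖) : bp ρ x = 0 := by
  refine mul_eq_zero_of_left ?_ _
  rcases hx with hx | hx
  · refine IsLocalMin.deriv_eq_zero (.of_forall fun y => le_trans (le_of_eq
      (Real.smoothTransition.zero_of_nonpos ?_)) (Real.smoothTransition.nonneg y))
    rw [sub_nonpos, div_le_one (by positivity)]
    gcongr
  · refine IsLocalMax.deriv_eq_zero (.of_forall fun y => (Real.smoothTransition.le_one y).trans
      (Real.smoothTransition.one_of_one_le ?_).ge)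
    rw [le_sub_iff_add_le, le_div_iff₀ (by positivity)]
    nlinarith

theorem bp_scale (h : 0 < ρ) :
    (bp ρ : E n → ℝ) = fun x => bp 1 (ρ⁻¹ • x) * ρ ^ (-n : ℝ) := by
  funext x
  simp only [bp, norm_smul, norm_inv, Real.norm_of_nonneg h.le, Real.one_rpow, mul_one, one_pow,
    div_one, inv_mul_eq_div, div_pow]

end Ers

open Ers

theorem ers : ERS := by
  intro n q C q0 C0
  obtain ⟨c, c0, hc⟩ := src_cut n
  refine ⟨c * (2 * ((n + 1) * C)), by positivity, fun K K₂ R h h₂ hA hA₂ R1 =>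
    ⟨fun ρ hρ j => ?_, fun P hP hP₂ j => ?_⟩⟩
  · rw [es_eq h h₂]
    refine hc q _ ρ _ q0 (by positivity) (by linarith)
      (fun i => ContDiff.sub (sm_pe h i j) (sm_pe h₂ i j)) fun x hx i k => ?_
    have k1 := pe_le h hA (hρ.trans hx) i j k
    have k2 := pe_le h₂ hA₂ (hρ.trans hx) i j k
    rw [pd_sub ((sm_pe h i j).diff x) ((sm_pe h₂ i j).diff x)]
    exact ⟨(abs_sub _ _).trans (by linarith [k1.1, k2.1]),
      (abs_sub _ _).trans (by linarith [k1.2, k2.2])⟩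
  · have k := (hP j).sub (hP₂ j)
    rw [sub_self] at k
    refine k.congr' ?_
    filter_upwards [eventually_gt_atTop 0] with ρ hρ
    rw [es_eq h h₂, ← integral_sub (int_sum (sm_pe h · j) hρ) (int_sum (sm_pe h₂ · j) hρ)]
    simp only [mul_sub, Finset.sum_sub_distrib]

theorem bp0 : BP := by
  intro n hn
  have nn : ∀ ρ > (0 : ℝ), ∀ x : E n, 0 ≤ bp ρ x := fun ρ h x =>
    mul_nonneg Real.smoothTransition.monotone.deriv_nonneg (by positivity)
  obtain ⟨A, A0, hA⟩ := bdd_of_const (sm_bp (n := n) 1) (R := 2 * 1) fun y hy =>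
    bp_zero one_pos (.inr hy.le)
  obtain ⟨t, ht, e⟩ := exists_deriv_eq_slope smoothTransition one_pos
    Real.smoothTransition.continuous.continuousOn
    (contDiff_infty_iff_deriv.1 Real.smoothTransition.contDiff).1.differentiableOn
  refine ⟨∫ x : E n, bp 1 x, ?_, A, A0, fun ρ hρ => ?_⟩
  · refine (sm_bp 1).cont.integral_pos_of_hasCompactSupport_nonneg_nonzero
      (x := EuclideanSpace.single ⟨0, by omega⟩ √(t + 1))
      (.intro (isCompact_closedBall 0 (2 * 1)) fun x hx =>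
        bp_zero one_pos (.inr (not_le.1 (mt mem_closedBall_zero_iff.2 hx)).le)) (nn 1 one_pos) ?_
    simp [bp, Real.sq_sqrt (show 0 ≤ t + 1 by linarith [ht.1]), e]
  have ρ0 : 0 < ρ := one_pos.trans_le hρ
  have p0 : 0 < ρ ^ (-n : ℝ) := by positivity
  refine ⟨fun q hq => ?_, nn ρ ρ0, ?_⟩
  · have k : |ρ ^ (-n : ℝ)| ≤ ρ ^ (-(q + 2)) :=
      (abs_of_pos p0).trans_le (Real.rpow_le_rpow_of_exponent_le hρ (by linarith))
    refine ⟨sm_bp ρ, fun x => bp_zero ρ0, fun x => ?_, fun x i => ?_⟩ <;> rw [bp_scale ρ0]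
    · exact mulb (hA _).1 k
    · rw [pd_mul_const, pd_scale (sm_bp 1), show q + 3 = q + 2 + 1 by ring, rp1 ρ0 (q + 2)]
      exact (mulb (mulb (abs_of_pos (inv_pos.2 ρ0)).le
        ((abs_pd_le ((sm_bp 1).diff _) i).trans (hA _).2)) k).trans_eq (by ring)
  · rw [bp_scale ρ0, integral_mul_const, Measure.integral_comp_inv_smul_of_nonneg _ _ ρ0.le,
      finrank_euclideanSpace_fin, smul_eq_mul, Real.rpow_neg ρ0.le, Real.rpow_natCast,
      mul_right_comm, mul_inv_cancel₀ (pow_ne_zero _ ρ0.ne'), one_mul]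

end Vale.Agent.P366Y.B
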