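import Vale.Agent.P366Y.B.Defs
import Vale.Agent.P366Y.G.Scf

/-!
# P366Y, block B: the linear map of the boost and the expansion of the model
-/

open MeasureTheory Metric Filter Topology Set
open scoped ContDiff ENNReal
open Vale.Agent.P366.Stmt Vale.Agent.P366Z
open Vale.Agent.P366
open Vale.Agent.P366.T1 (pull pd_comp_lin)

noncomputable section

namespace Vale.Agent.P366Y.B

namespace ExmH

variable {n : ℕ} {v : Fin n → ℝ} {γ : ℝ} {L : E n ≃L[ℝ] E n}

theorem kap (h1 : 1 ≤ γ) {σ : ℝ} (h2 : γ ^ 2 * (1 - σ) = 1) : γ ^ 2 / (1 + γ) * σ = γ - 1 := by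
  rw [div_mul_eq_mul_div, div_eq_iff (by positivity)]
  linear_combination -h2

theorem pd_lv (i : Fin n) : pd i (lv v) = fun _ => v i := funext fun y => by
  have d : ∀ k, DifferentiableAt ℝ (fun y : E n => v k * y k) y := fun k =>
    (((contDiff_coord (m := 1) k).differentiable one_ne_zero) y).const_mul _
  rw [show lv v = fun y : E n => ∑ k, v k * y k from rfl, pd_sum _ fun k _ => d k]
  simp [pd_const_mul, pd_coord]

variable (h : Bo v γ L)
include h

theorem mt_eq (k i : Fin n) :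
    T1.mt L k i = (if k = i then 1 else 0) + γ ^ 2 / (1 + γ) * v i * v k := by
  rw [T1.mt, h.eq]
  simp [lv]

theorem mt_v (i : Fin n) : ∑ k, T1.mt L k i * v k = γ * v i := by
  simp only [mt_eq h, add_mul, Finset.sum_add_distrib, mul_assoc, ← sq, ← Finset.mul_sum]
  simp only [ite_mul, one_mul, zero_mul, Finset.sum_ite_eq', Finset.mem_univ, if_true]
  linear_combination v i * kap h.γ1 h.γ2

theorem mt_sy (k i : Fin n) : T1.mt L k i = T1.mt L i k := by
  rw [mt_eq h, mt_eq h, mul_right_comm]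
  simp only [eq_comm]

theorem mt_mt (i j : Fin n) :
    ∑ k, T1.mt L k i * T1.mt L k j = (if i = j then 1 else 0) + γ ^ 2 * v i * v j := by
  have h0 : 1 + γ ≠ 0 := by linarith [h.γ1]
  simp only [mt_eq h _ j, mul_add, Finset.sum_add_distrib, mul_left_comm (T1.mt L _ _),
    ← Finset.mul_sum, mt_v h, mul_ite, mul_one, mul_zero, Finset.sum_ite_eq', Finset.mem_univ,
    if_true]
  rw [mt_sy h, mt_eq h]
  field_simp
  ring

/-- the pull back of the tensors which occur -/
theorem pl {T : Field n} {x : E n} {A B C : ℝ} {p : Fin n → ℝ} (hT : ∀ k l, T (L x) k l =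
    A * (if k = l then 1 else 0) + B * (v k * v l) + C * (v k * p l + p k * v l)) (i j : Fin n) :
    pull L T x i j = A * ((if i = j then 1 else 0) + γ ^ 2 * v i * v j) + B * (γ ^ 2 * v i * v j) +
      C * γ * (v i * ∑ l, T1.mt L l j * p l + (∑ k, T1.mt L k i * p k) * v j) := by
  have e : ∀ k l, T1.mt L k i * T1.mt L l j * T (L x) k l =
      A * (if k = l then T1.mt L k i * T1.mt L l j else 0) +
        B * (T1.mt L k i * v k * (T1.mt L l j * v l)) +
        C * (T1.mt L k i * v k * (T1.mt L l j * p l)) +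
        C * (T1.mt L k i * p k * (T1.mt L l j * v l)) := fun k l => by
    rw [hT]
    split_ifs <;> ring
  change ∑ k, ∑ l, T1.mt L k i * T1.mt L l j * T (L x) k l = _
  simp only [e, Finset.sum_add_distrib, ← Finset.mul_sum, ← Finset.sum_mul, Finset.sum_ite_eq,
    Finset.mem_univ, if_true, mt_v h, mt_mt h]
  ring

end ExmH

open ExmH

/-- **row BOE** -/
theorem boe : BOE := by
  intro n v γ h1 h2
  have h0 : 1 + γ ≠ 0 := by linarith
  let V : E n := WithLp.toLp 2 v
  have e1 : ∀ x, inner ℝ V x = lv v x := fun x => by simp [V, lv, PiLp.inner_apply, mul_comm]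
  have e2 : ‖V‖ ^ 2 = ∑ i, v i ^ 2 := norm_sq_eq V
  rw [← e2] at h2
  have k := kap h1 h2
  let A : ℝ → E n →L[ℝ] E n := fun c => .id ℝ _ + c • (innerSL ℝ V).smulRight V
  have e3 : ∀ c x, A c x = x + (c * inner ℝ V x) • V := fun c x => by simp [A, smul_smul]
  have e4 : ∀ c c', c + c' + c * c' * ‖V‖ ^ 2 = 0 → ∀ x, A c (A c' x) = x := fun c c' e x => by
    rw [e3, e3, inner_add_right, inner_smul_right, real_inner_self_eq_norm_sq, add_assoc, ← add_smul,
      show c' * inner ℝ V x + c * (inner ℝ V x + c' * inner ℝ V x * ‖V‖ ^ 2) = 0 by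
        linear_combination inner ℝ V x * e, zero_smul, add_zero]
  have e5 : γ ^ 2 / (1 + γ) + -(γ / (1 + γ)) + γ ^ 2 / (1 + γ) * -(γ / (1 + γ)) * ‖V‖ ^ 2 = 0 := by
    rw [mul_right_comm, k]
    ring
  have e6 : ∀ x, ‖A (γ ^ 2 / (1 + γ)) x‖ ^ 2 = ‖x‖ ^ 2 + γ ^ 2 * inner ℝ V x ^ 2 := fun x => by
    rw [e3, norm_add_sq_real, inner_smul_right, norm_smul, mul_pow, Real.norm_eq_abs, sq_abs,
      real_inner_comm V x]
    have : γ ^ 2 / (1 + γ) * (1 + γ) = γ ^ 2 := div_mul_cancel₀ _ h0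
    linear_combination (γ ^ 2 / (1 + γ) * inner ℝ V x ^ 2) * k + inner ℝ V x ^ 2 * this
  refine ⟨.equivOfInverse (A (γ ^ 2 / (1 + γ))) (A (-(γ / (1 + γ))))
    (e4 _ _ (by linear_combination e5)) (e4 _ _ e5), h1, e2 ▸ h2, fun x i => ?_,
    fun x => ?_, fun x => ?_⟩
  · change A _ x i = _
    rw [e3, e1]
    rfl
  · exact abs_le_of_sq_le_sq' ((e6 x).ge.trans' (le_add_of_nonneg_right (by positivity)))
      (norm_nonneg _) |>.2
  · refine abs_le_of_sq_le_sq' ((e6 x).trans_le ?_) (by positivity) |>.2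
    have := real_inner_mul_inner_self_le V x
    rw [real_inner_self_eq_norm_sq, real_inner_self_eq_norm_sq, ← sq] at this
    nlinarith [mul_le_mul_of_nonneg_left this (sq_nonneg γ), sq_nonneg ‖x‖]

/-- **row EXM** -/
theorem exm : EXM := by
  intro n a y₁ γ u v L hu h
  have g0 : γ ≠ 0 := by linarith [h.γ1]
  have b0 := (bb_pos hu.dim).le
  have s1 : Smooth fun y => 1 + u y := contDiff_const.add hu.sm
  have p1 : ∀ y, 0 < 1 + u y := fun y => by linarith [(hu.bd y).1]
  obtain ⟨σ, hσ⟩ : ∃ σ, σ = ∑ i, v i ^ 2 := ⟨_, rfl⟩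
  have σ0 : 0 ≤ σ := hσ ▸ Finset.sum_nonneg fun _ _ => sq_nonneg _
  have σ1 := h.γ2
  rw [← hσ] at σ1
  have σ2 : σ < 1 := by nlinarith [sq_nonneg γ]
  let R : ℝ → ℝ := fun s => √((((1 - s) / (1 + s)) ^ 2)⁻¹ - (1 + s) ^ (-(2 * bb n)) * σ)
  have c1 : ∀ s : ℝ, ContDiffAt ℝ ∞ (fun s : ℝ => 1 + s) s := fun s =>
    contDiffAt_const.add contDiffAt_id
  refine ⟨fun i j s => (1 + s) ^ (2 * bb n) * ((if i = j then 1 else 0) + γ ^ 2 * v i * v j) +
      -((1 - s) / (1 + s)) ^ 2 * (γ ^ 2 * v i * v j),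
    fun i j k s => ((-2 / (1 + s) ^ 2 / ((1 - s) / (1 + s)) - bb n / (1 + s)) * γ *
        ((if i = k then 1 else 0) * v j + (if j = k then 1 else 0) * v i) +
      v k / γ * (bb n / (1 + s) * ((if i = j then 1 else 0) + γ ^ 2 * v i * v j) -
        (1 - s) / (1 + s) * ((1 + s) ^ (-(2 * bb n)) * (-2 / (1 + s) ^ 2)) *
          (γ ^ 2 * v i * v j))) / R s,
    fun i j s hs => ?_, fun i j k s hs => ?_, fun x i j => ?_, fun x i j => ?_,
    fun i j => by simp, fun i j => ?_, fun i j k => ?_⟩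
  · have k0 : 1 + s ≠ 0 := by linarith [hs.1]
    exact (((c1 s).rpow_const_of_ne k0).mul contDiffAt_const).add
      ((((contDiffAt_const.sub contDiffAt_id).div (c1 s) k0).pow 2).neg.mul contDiffAt_const)
  · have k0 : 0 < 1 + s := by linarith [hs.1]
    have k1 : 0 < (1 - s) / (1 + s) := div_pos (by linarith [hs.2]) k0
    have k2 : 0 < (((1 - s) / (1 + s)) ^ 2)⁻¹ - (1 + s) ^ (-(2 * bb n)) * σ := by
      have := (one_le_inv₀ (pow_pos k1 2)).2
        (pow_le_one₀ k1.le ((div_le_one k0).2 (by linarith [hs.1])))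
      have := mul_le_of_le_one_left σ0 (Real.rpow_le_one_of_one_le_of_nonpos
        (show 1 ≤ 1 + s by linarith [hs.1]) (show -(2 * bb n) ≤ 0 by linarith))
      linarith
    have c2 : ContDiffAt ℝ ∞ (fun s : ℝ => (1 - s) / (1 + s)) s :=
      (contDiffAt_const.sub contDiffAt_id).div (c1 s) k0.ne'
    have c3 := (c1 s).rpow_const_of_ne (p := -(2 * bb n)) k0.ne'
    have c4 : ContDiffAt ℝ ∞ (fun s : ℝ => -2 / (1 + s) ^ 2) s :=
      contDiffAt_const.div ((c1 s).pow 2) (pow_pos k0 2).ne'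
    have c5 : ContDiffAt ℝ ∞ (fun s : ℝ => bb n / (1 + s)) s := contDiffAt_const.div (c1 s) k0.ne'
    exact (((((c4.div c2 k1.ne').sub c5).mul contDiffAt_const).mul contDiffAt_const).add
      (contDiffAt_const.mul ((c5.mul contDiffAt_const).sub
        ((c2.mul (c3.mul c4)).mul contDiffAt_const)))).div
      ((((c2.pow 2).inv (pow_pos k1 2).ne').sub (c3.mul contDiffAt_const)).sqrt k2.ne')
      (Real.sqrt_pos.2 k2).ne'
  · refine (pl h (A := (1 + u (L x)) ^ (2 * bb n)) (B := -sφ u (L x) ^ 2) (C := 0) (p := 0)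
      (fun k l => ?_) i j).trans (by rw [zero_mul, zero_mul, add_zero, sφ])
    simp only [sg, pd_lv, sγ, cf, eu]
    ring
  · have d1 : ∀ i, pd i (sφ u) (L x) = -2 / (1 + u (L x)) ^ 2 * pd i u (L x) := fun i => by
      rw [show sφ u = fun y => (1 - u y) / (1 + u y) from rfl,
        pd_div ((hu.sm.diff _).const_sub 1) (s1.diff _) (p1 _).ne', pd_const_sub, pd_const_add]
      ring
    have d2 : ∀ i, pd i (Y.ScfH.ls fun y => 1 + u y) (L x) = bb n / (1 + u (L x)) * pd i u (L x) :=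
      fun i => by rw [Y.ScfH.pd_ls s1 p1, pd_const_add]
    obtain ⟨t, ht⟩ : ∃ t, t = ∑ k, v k * pd k u (L x) := ⟨_, rfl⟩
    have d3 : ∑ k, v k * pd k (fun x => u (L x)) x = γ * t := by
      simp only [pd_comp_lin L (hu.sm.diff _), ht, Finset.mul_sum]
      rw [Finset.sum_comm]
      refine Finset.sum_congr rfl fun k _ => ?_
      rw [← mul_assoc, ← mt_v h, Finset.sum_mul]
      exact Finset.sum_congr rfl fun l _ => by rw [mt_sy h l]; ring
    have d4 : ∀ k l, sk (sγ u) (sφ u) (lv v) (L x) k l =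
        t * (bb n / (1 + u (L x))) / R (u (L x)) * (if k = l then 1 else 0) +
        -(t * ((1 - u (L x)) / (1 + u (L x)) *
          ((1 + u (L x)) ^ (-(2 * bb n)) * (-2 / (1 + u (L x)) ^ 2)))) / R (u (L x)) * (v k * v l) +
        (-2 / (1 + u (L x)) ^ 2 / ((1 - u (L x)) / (1 + u (L x))) - bb n / (1 + u (L x))) /
          R (u (L x)) * (v k * pd l u (L x) + pd k u (L x) * v l) := fun k l => by
      have e1 : ∑ m, chr (sγ u) m k l (L x) * v m = bb n / (1 + u (L x)) *
          (v k * pd l u (L x) + v l * pd k u (L x) - (if k = l then 1 else 0) * t) := by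
        simp only [sγ, Y.ScfH.chr_cf met_eu s1 p1, chr_eu, zero_add, Y.ScfH.af]
        rw [Finset.sum_congr rfl fun m _ => mul_comm _ (v m), Y.ScfH.sum2]
        simp only [gr_eu, d2, mul_left_comm (v _), ← Finset.mul_sum, ← ht, eu]
        ring
      simp only [sk, hess, pd_lv, pd_const, e1]
      simp only [sγ, met_eu.ip_cf (U := fun y => 1 + u y) (p1 _), ip_eu, pd_lv, d1, ← pow_two, ← hσ,
        mul_assoc, mul_comm (pd _ u _) (v _), ← Finset.mul_sum, ← ht, sφ, R]
      ring
    refine (pl h d4 i j).trans ?_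
    rw [← pd_comp_lin L (hu.sm.diff _), ← pd_comp_lin L (hu.sm.diff _)]
    have e : ∀ (A B D : ℝ) (q : Fin n → ℝ), ∑ k, (A * ((if i = k then 1 else 0) * v j +
        (if j = k then 1 else 0) * v i) + v k / γ * B) / D * q k =
        A / D * (q i * v j + q j * v i) + B / γ / D * ∑ k, v k * q k := fun A B D q => by
      rw [Finset.sum_congr rfl fun k _ => show _ = A / D * ((if i = k then q k * v j else 0) +
        if j = k then q k * v i else 0) + B / γ / D * (v k * q k) by split_ifs <;> ring]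
      simp only [Finset.sum_add_distrib, ← Finset.mul_sum, Finset.sum_ite_eq, Finset.mem_univ,
        if_true]
    rw [e, d3]
    field_simp
    ring
  · have k1 : HasDerivAt (fun s : ℝ => 1 + s) 1 0 := (hasDerivAt_id' 0).const_add 1
    rw [((((k1.rpow_const (.inl (by simp))).mul_const _).fun_add
      (((((hasDerivAt_id' (0 : ℝ)).const_sub 1).fun_div k1 (by simp)).fun_pow 2).fun_neg.mul_const
        _))).deriv]
    split_ifs <;> simp <;> ring
  · have k : R 0 = γ⁻¹ := by
      simp only [R, sub_zero, add_zero, div_one, one_pow, inv_one, Real.one_rpow, one_mul]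
      rw [Real.sqrt_eq_iff_mul_self_eq_of_pos (inv_pos.2 (by linarith [h.γ1]))]
      field_simp
      linear_combination -σ1
    simp only [k, sub_zero, add_zero, div_one, one_pow, Real.one_rpow]
    field_simp
    ring

end Vale.Agent.P366Y.B
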