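import Vale.Agent.P366Y.B.Defs
import Vale.Agent.P366Z.Int

/-!
# P366Y, block B: data that are Schwarzschild near infinity
-/

open MeasureTheory Metric Filter Topology Set Asymptotics
open scoped ContDiff ENNReal
open Vale.Agent.P366.Stmt Vale.Agent.P366Z

noncomputable section

namespace Vale.Agent.P366Y.B

namespace FarsH

variable {n : ℕ} {f h : E n → ℝ} {p q a : ℝ} {x : E n}

/-- the filter of the far points -/
def far (n : ℕ) : Filter (E n) := comap (fun x => ‖x‖) atTop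

theorem ev (R : ℝ) : ∀ᶠ x in far n, R < ‖x‖ := tendsto_comap.eventually (eventually_gt_atTop R)

theorem big (h : f =O[far n] fun x => ‖x‖ ^ p) (e : -q = p) : BigO q f := by
  obtain ⟨C, hC⟩ := h.bound
  obtain ⟨R, hR⟩ := eventually_atTop.1 (eventually_comap.1 hC)
  refine ⟨C, R, fun x hx => ?_⟩
  have := hR _ hx.le x rfl
  rwa [Real.norm_eq_abs, Real.norm_of_nonneg (by positivity), ← e] at this

theorem pw_le (h : p ≤ q) : (fun x : E n => ‖x‖ ^ p) =O[far n] fun x => ‖x‖ ^ q :=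
  .of_bound' ((ev 1).mono fun x hx => by
    rw [Real.norm_of_nonneg (by positivity), Real.norm_of_nonneg (by positivity)]
    exact Real.rpow_le_rpow_of_exponent_le hx.le h)

theorem pw_mul {r : ℝ} (hf : f =O[far n] fun x => ‖x‖ ^ p) (hh : h =O[far n] fun x => ‖x‖ ^ q)
    (e : p + q ≤ r) : (fun x => f x * h x) =O[far n] fun x => ‖x‖ ^ r :=
  ((hf.mul hh).trans (EventuallyEq.isBigO
    ((ev 0).mono fun _ hx => (Real.rpow_add hx p q).symm))).trans (pw_le e)

/-- growth of order `p` with one derivative -/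
structure S1 (p : ℝ) (f : E n → ℝ) : Prop where
  df : ∀ x, x ≠ 0 → DifferentiableAt ℝ f x
  d0 : f =O[far n] fun x => ‖x‖ ^ p
  d1 : ∀ k, pd k f =O[far n] fun x => ‖x‖ ^ (p - 1)

theorem S1.mul (hf : S1 p f) (hh : S1 q h) : S1 (p + q) fun x => f x * h x :=
  ⟨fun x hx => (hf.df x hx).mul (hh.df x hx), pw_mul hf.d0 hh.d0 le_rfl, fun k =>
    EventuallyEq.trans_isBigO ((ev 0).mono fun x hx =>
      pd_mul (hf.df x (norm_pos_iff.1 hx)) (hh.df x (norm_pos_iff.1 hx)) k)
      ((pw_mul (hf.d1 k) hh.d0 (by linarith)).add (pw_mul hf.d0 (hh.d1 k) (by linarith)))⟩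

theorem s_co (i : Fin n) : S1 1 fun x : E n => x i :=
  ⟨fun x _ => (contDiff_coord (m := 1) i).differentiable one_ne_zero x,
    .of_bound' (.of_forall fun x => by
      rw [Real.rpow_one, norm_norm]
      exact PiLp.norm_apply_le x i),
    fun k => .of_bound' (.of_forall fun x => by
      rw [pd_coord, sub_self, Real.rpow_zero]
      split_ifs <;> simp)⟩

theorem s_pw (p : ℝ) : S1 p fun x : E n => ‖x‖ ^ p :=
  ⟨fun _ hx => (contDiffAt_norm_rpow (m := 1) hx p).differentiableAt one_ne_zero, isBigO_refl _ _,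
    fun k => EventuallyEq.trans_isBigO ((ev 0).mono fun _ hx =>
      pd_norm_rpow (norm_pos_iff.1 hx) p k)
      (pw_mul ((s_co k).d0.const_mul_left p) (isBigO_refl _ _) (by linarith))⟩

/-- the conformal factor -/
def ps (n : ℕ) (a r : ℝ) : ℝ := 1 + a * r ^ (2 - n : ℝ)

theorem ps_ne (ha : 0 ≤ a) (x : E n) : ps n a ‖x‖ ≠ 0 := by
  unfold ps
  positivity

theorem ps_df (hx : x ≠ 0) : DifferentiableAt ℝ (fun y : E n => ps n a ‖y‖) x :=
  (((s_pw _).df x hx).const_mul a).const_add 1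

theorem d_ps (ha : 0 ≤ a) (hx : x ≠ 0) (p : ℝ) (k : Fin n) :
    pd k (fun y => ps n a ‖y‖ ^ p) x =
      p * (2 - n) * a * (ps n a ‖x‖ ^ (p - 1) * x k * ‖x‖ ^ (-n : ℝ)) := by
  rw [pd_rpow (ps_df hx) (ps_ne ha x)]
  unfold ps
  rw [pd_const_add, pd_const_mul, pd_norm_rpow hx, show (2 - n - 2 : ℝ) = -n by ring]
  ring

theorem lim0 (hn : 3 ≤ n) (a : ℝ) : Tendsto (fun r : ℝ => a * r ^ (2 - n : ℝ)) atTop (𝓝 0) := by
  have := (tendsto_rpow_neg_atTop (nm2_pos hn)).const_mul a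
  rwa [neg_sub, mul_zero] at this

theorem lim1 (hn : 3 ≤ n) (a p : ℝ) : Tendsto (fun r => ps n a r ^ p) atTop (𝓝 1) := by
  have := ((lim0 hn a).const_add 1).rpow_const (p := p) (.inl (by simp))
  rwa [add_zero, Real.one_rpow] at this

theorem o_ps (hn : 3 ≤ n) (a p : ℝ) :
    (fun x : E n => ps n a ‖x‖ ^ p) =O[far n] fun x => ‖x‖ ^ (0 : ℝ) :=
  (((lim1 hn a p).comp tendsto_comap).isBigO_one ℝ).congr_right fun _ => (Real.rpow_zero _).symm

theorem s_ps (hn : 3 ≤ n) (ha : 0 ≤ a) (p : ℝ) : S1 0 fun x : E n => ps n a ‖x‖ ^ p :=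
  ⟨fun x hx => (ps_df hx).rpow_const (.inl (ps_ne ha x)), o_ps hn a p, fun k =>
    EventuallyEq.trans_isBigO ((ev 0).mono fun _ hx => d_ps ha (norm_pos_iff.1 hx) p k)
      ((pw_mul (pw_mul (o_ps hn a _) (s_co k).d0 le_rfl) (isBigO_refl _ _)
        (by linarith [nm2_pos hn])).const_mul_left _)⟩

theorem o_sub (hn : 3 ≤ n) (a p : ℝ) :
    (fun x : E n => ps n a ‖x‖ ^ p - 1) =O[far n] fun x => ‖x‖ ^ (2 - n : ℝ) := by
  have h1 := ((((hasDerivAt_id (0 : ℝ)).const_add 1).rpow_const (p := p)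
    (.inl (by simp))).isBigO_sub.comp_tendsto ((lim0 hn a).comp (tendsto_comap (f := fun x : E n =>
      ‖x‖)))).trans ((isBigO_refl (fun x : E n => ‖x‖ ^ (2 - n : ℝ)) _).const_mul_left a |>.congr_left
        fun x => (sub_zero _).symm)
  exact h1.congr_left fun x => by simp [ps]

end FarsH

open FarsH in
theorem fars : FARS := by
  intro n D a T hn ha h
  have h0 : 0 < n := by omega
  have nb : ∀ x : E n, max T 0 < ‖x‖ → ∀ᶠ y in 𝓝 x, max T 0 < ‖y‖ := fun x hx =>
    (isOpen_lt continuous_const continuous_norm).mem_nhds hx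
  have e0 : ∀ i j, ∀ x : E n, max T 0 < ‖x‖ →
      D.g x i j = ps n a ‖x‖ ^ (2 * bb n) * if i = j then 1 else 0 := fun i j x hx =>
    (h x ((le_max_left _ _).trans hx.le)).1 i j
  have e1 : ∀ i j k, ∀ x : E n, max T 0 < ‖x‖ → pd k (fun y => D.g y i j) x =
      (-4 * a * if i = j then 1 else 0) *
        (ps n a ‖x‖ ^ (2 * bb n - 1) * x k * ‖x‖ ^ (-n : ℝ)) := fun i j k x hx => by
    rw [pd_congr ((nb x hx).mono (e0 i j)), pd_mul_const,
      d_ps ha (norm_pos_iff.1 ((le_max_right _ _).trans_lt hx)),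
      show 2 * bb n * (2 - n) = -4 by linear_combination -2 * nm2_bb hn]
    ring
  have eK : ∀ i j, ∀ x : E n, max T 0 < ‖x‖ → D.K x i j = 0 := fun i j x hx => by
    rw [(h x ((le_max_left _ _).trans hx.le)).2]
    rfl
  have s := fun k => ((s_ps hn ha (2 * bb n - 1)).mul (s_co k)).mul (s_pw (n := n) (-n))
  refine ⟨⟨n - 2, by linarith [nm2_pos hn], fun i j k l => ⟨big (EventuallyEq.trans_isBigO
      ((ev (max T 0)).mono fun x hx => ?_) ((o_sub hn a (2 * bb n)).const_mul_left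
        (if i = j then 1 else 0))) (by ring),
    big (EventuallyEq.trans_isBigO ((ev _).mono (e1 i j k)) ((s k).d0.const_mul_left _)) (by ring),
    big (EventuallyEq.trans_isBigO ((ev _).mono fun x hx =>
      (pd_congr ((nb x hx).mono (e1 i j k)) l).trans (pd_const_mul _ l))
        (((s k).d1 l).const_mul_left _)) (by ring),
    big (EventuallyEq.trans_isBigO ((ev _).mono (eK i j)) (isBigO_zero _ _)) rfl,
    big (EventuallyEq.trans_isBigO ((ev _).mono fun x hx =>
      (pd_congr ((nb x hx).mono (eK i j)) k).trans (pd_const 0 k x)) (isBigO_zero _ _)) rfl⟩⟩, ?_⟩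
  · show D.g x i j - _ = _
    rw [e0 i j x hx]
    ring
  have l2 := (lim1 hn a (2 * bb n - 1)).const_mul (2 * a)
  rw [mul_one] at l2
  refine l2.congr' ((eventually_gt_atTop (max T 0)).mono fun r hr => ?_)
  have r0 : 0 < r := (le_max_right _ _).trans_lt hr
  have e : ∀ θ : sphere (0 : E n) 1, ‖r • θ.1‖ = r := fun θ => by
    rw [norm_smul, norm_eq_of_mem_sphere, mul_one, Real.norm_of_nonneg r0.le]
  have e2 : ∀ x : E n, ‖x‖ = r → ∑ i, (∑ j, (pd j (fun y => D.g y i j) x -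
      pd i (fun y => D.g y j j) x)) / 2 * (x i / len x) =
      2 * a * (n - 1) * ps n a r ^ (2 * bb n - 1) * (r ^ (n - 1))⁻¹ := fun x hx => by
    have e3 : r ^ (-n : ℝ) = (r ^ (n - 1) * r)⁻¹ := by
      rw [← pow_succ, Nat.sub_add_cancel h0, Real.rpow_neg r0.le, Real.rpow_natCast]
    have e4 : ∀ i, (∑ j, (pd j (fun y => D.g y i j) x - pd i (fun y => D.g y j j) x)) / 2 *
        (x i / len x) = 2 * a * (n - 1) * ps n a r ^ (2 * bb n - 1) * (r ^ (n - 1))⁻¹ / r ^ 2 *
          x i ^ 2 := fun i => by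
      simp only [e1 _ _ _ x (hx ▸ hr), len, hx, e3, Finset.sum_sub_distrib, mul_ite, ite_mul,
        mul_one, mul_zero, zero_mul, Finset.sum_ite_eq, Finset.mem_univ, if_true, Finset.sum_const,
        Finset.card_univ, Fintype.card_fin, nsmul_eq_mul]
      field_simp
      ring
    simp only [e4]
    rw [← Finset.mul_sum, ← norm_sq_eq, hx, div_mul_cancel₀ _ (by positivity)]
  have w0 := (omega_pos h0).ne'
  have w1 : (n : ℝ) - 1 ≠ 0 := by linarith [nm2_pos hn]
  have w2 : ∀ c : ℝ, ∫ _ : sphere (0 : E n) 1, c ∂(vol n).toSphere = c * omega n := fun c => by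
    rw [omega, sphInt, sph, one_pow, one_mul, ← integral_const_mul, mul_one]
  simp only [flx, sphInt, sph, fun θ => e2 _ (e θ), w2]
  field_simp

end Vale.Agent.P366Y.B
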