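import Vale.Agent.P366Y.B.Defs
import Vale.Agent.P366Z.St0.Cutm

/-!
# P366Y, block B: the interpolated fields and the Laplacian near infinity (rows GL0, LAPD)
-/

open Filter Topology
open Vale.Agent.P366.Stmt Vale.Agent.P366Z Vale.Agent.P366Z.St0 Vale.Agent.P366Z.St0.Cutm
open Vale.Agent.P366Y.A (Sy)

noncomputable section

namespace Vale.Agent.P366Y.B

namespace Gl0H

variable {n : ℕ} {a b : E n → ℝ} {ρ c e P : ℝ} {x : E n}

theorem sm (ha : Smooth a) (hb : Smooth b) (ρ : ℝ) :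
    Smooth fun y => cut ρ y * a y + (1 - cut ρ y) * b y :=
  ContDiff.add (ContDiff.mul (sm_cut ρ) ha) (ContDiff.mul (contDiff_const.sub (sm_cut ρ)) hb)

theorem pd1 (ha : Smooth a) (hb : Smooth b) (k : Fin n) :
    pd k (fun y => cut ρ y * a y + (1 - cut ρ y) * b y) = fun x =>
      pd k (cut ρ) x * (a x - b x) + (cut ρ x * pd k a x + (1 - cut ρ x) * pd k b x) := by
  funext x
  have h := (sm_cut ρ).diff x
  rw [pd_add (h.fun_mul (ha.diff x)) ((h.const_sub 1).fun_mul (hb.diff x)), pd_mul h (ha.diff x),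
    pd_mul (h.const_sub 1) (hb.diff x), pd_const_sub]
  ring

theorem pd2 (ha : Smooth a) (hb : Smooth b) (k l : Fin n) :
    pd l (pd k fun y => cut ρ y * a y + (1 - cut ρ y) * b y) x =
      pd l (pd k (cut ρ)) x * (a x - b x) + pd k (cut ρ) x * (pd l a x - pd l b x) +
        pd l (fun y => cut ρ y * pd k a y + (1 - cut ρ y) * pd k b y) x := by
  have h1 := ((sm_cut (n := n) ρ).pd k).diff x
  have h2 := (ha.diff x).fun_sub (hb.diff x)
  rw [pd1 ha hb, pd_add (h1.fun_mul h2) ((sm (ha.pd k) (hb.pd k) ρ).diff x), pd_mul h1 h2,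
    pd_sub (ha.diff x) (hb.diff x)]

theorem dif {u v : ℝ} (hu : |u - e| ≤ P) (hv : |v - e| ≤ P) : |u - v| ≤ 2 * P := by
  rw [abs_le] at *
  constructor <;> linarith

theorem b0 {u v : ℝ} (hu : |u - e| ≤ P) (hv : |v - e| ≤ P) :
    |cut ρ x * u + (1 - cut ρ x) * v - e| ≤ P := by
  have h0 := cut_nonneg ρ x
  have h1 := sub_nonneg.2 (cut_le_one ρ x)
  rw [abs_le] at *
  constructor <;> nlinarith [mul_le_mul_of_nonneg_left hu.1 h0, mul_le_mul_of_nonneg_left hu.2 h0,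
    mul_le_mul_of_nonneg_left hv.1 h1, mul_le_mul_of_nonneg_left hv.2 h1]

theorem z {u v : ℝ} (h : |u| ≤ v) : |u - 0| ≤ v := by rwa [sub_zero]

theorem b1 (ha : Smooth a) (hb : Smooth b) {k : Fin n} {s : ℝ} (hc : |pd k (cut ρ) x| ≤ c * s)
    (h1 : |a x - e| ≤ P) (h2 : |b x - e| ≤ P) (h3 : |pd k a x| ≤ P * s) (h4 : |pd k b x| ≤ P * s) :
    |pd k (fun y => cut ρ y * a y + (1 - cut ρ y) * b y) x| ≤ (1 + 2 * c) * (P * s) := by
  rw [pd1 ha hb]
  have h5 := b0 (ρ := ρ) (x := x) (z h3) (z h4)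
  rw [sub_zero] at h5
  refine (abs_add_le _ _).trans ?_
  linarith [mulb hc (dif h1 h2)]

theorem sum_le {ι : Type} [Fintype ι] {f : ι → ℝ} {B : ℝ} (h : ∀ i, |f i| ≤ B) :
    |∑ i, f i| ≤ Fintype.card ι * B :=
  (Finset.abs_sum_le_sum_abs _ _).trans ((Finset.sum_le_card_nsmul _ _ _ fun i _ => h i).trans_eq
    (nsmul_eq_mul _ _))

end Gl0H

open Gl0H

theorem gl0 : GL0 := by
  intro n q C hC
  obtain ⟨c, hc, h⟩ := cut_bd n
  have c1 : ∀ {ρ : ℝ} {x : E n}, 0 < ρ → 0 < ‖x‖ → ∀ k, |pd k (cut ρ) x| ≤ c * ‖x‖⁻¹ :=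
    fun {ρ x} hρ ht k => by
      have := (h ρ hρ x k k).1
      rwa [abs_mul, abs_of_pos ht, mul_comm, ← le_mul_inv_iff₀ ht] at this
  refine ⟨(1 + 6 * c) * C, le_mul_of_one_le_left hC.le (by linarith),
    fun g K g₂ K₂ R ρ hg hg₂ hK hK₂ hA hA₂ hB hB₂ hR hρ => ⟨⟨fun i j => sm (hg.sm i j) (hg₂.sm i j) ρ,
      fun x i j => by simp only [gm, hg.sy x i j, hg₂.sy x i j], fun x => ?_⟩,
      ⟨fun i j => sm (hK.sm i j) (hK₂.sm i j) ρ,
        fun x i j => by simp only [gm, hK.sy x i j, hK₂.sy x i j]⟩,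
      fun x hx i j k l => ?_, fun x hx i j k => ?_⟩⟩
  · have e : mat (gm ρ g g₂) x = cut ρ x • mat g x + (1 - cut ρ x) • mat g₂ x := rfl
    rw [e]
    rcases (cut_nonneg ρ x).eq_or_lt with h | h
    · rw [← h, zero_smul, zero_add, sub_zero, one_smul]
      exact hg₂.pos x
    · exact ((hg.pos x).smul h).add_posSemidef
        ((hg₂.pos x).posSemidef.smul (sub_nonneg.2 (cut_le_one ρ x)))
  · have ht : 0 < ‖x‖ := hR.trans_le hx
    have c1 := c1 (hR.trans_le hρ) ht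
    have c2 : |pd l (pd k (cut ρ)) x| ≤ c * ‖x‖⁻¹ ^ 2 := by
      have := (h ρ (hR.trans_le hρ) x k l).2
      rwa [abs_mul, abs_of_pos (pow_pos ht 2), mul_comm, ← le_mul_inv_iff₀ (pow_pos ht 2),
        ← inv_pow] at this
    have g0 := fun k => hA x hx i j k l
    have f0 := fun k => hA₂ x hx i j k l
    simp only [rp1 ht, rp2 ht, pow_two, ← mul_assoc] at g0 f0 ⊢
    have p0 : 0 ≤ c * (C * ‖x‖ ^ (-q)) := by positivity
    have p1 : 0 ≤ c * (C * ‖x‖ ^ (-q) * ‖x‖⁻¹) := by positivity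
    refine ⟨(b0 (g0 k).1 (f0 k).1).trans (by linarith), (b1 (hg.sm i j) (hg₂.sm i j) (c1 k)
      (g0 k).1 (f0 k).1 (g0 k).2.1 (f0 k).2.1).trans (by linarith), ?_⟩
    have e := pd2 (ρ := ρ) (x := x) (hg.sm i j) (hg₂.sm i j) k l
    refine (congrArg abs e).le.trans ((abs_add_le _ _).trans
      ((add_le_add (abs_add_le _ _) le_rfl).trans ?_))
    linarith [mulb c2 (dif (g0 k).1 (f0 k).1), mulb (c1 k) (dif (z (g0 l).2.1) (z (f0 l).2.1)),
      b1 ((hg.sm i j).pd k) ((hg₂.sm i j).pd k) (c1 l) (z (g0 k).2.1) (z (f0 k).2.1) (g0 k).2.2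
        (f0 k).2.2]
  · have ht : 0 < ‖x‖ := hR.trans_le hx
    have g0 := hB x hx i j k
    have f0 := hB₂ x hx i j k
    rw [show q + 2 = q + 1 + 1 by ring, rp1 ht (q + 1), ← mul_assoc] at g0 f0 ⊢
    have p0 : 0 ≤ c * (C * ‖x‖ ^ (-(q + 1))) := by positivity
    have p1 : 0 ≤ c * (C * ‖x‖ ^ (-(q + 1)) * ‖x‖⁻¹) := by positivity
    have e := b0 (ρ := ρ) (x := x) (z g0.1) (z f0.1)
    rw [sub_zero] at e
    exact ⟨e.trans (by linarith), (b1 (hK.sm i j) (hK₂.sm i j) (c1 (hR.trans_le hρ) ht k) (z g0.1)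
      (z f0.1) g0.2 f0.2).trans (by linarith)⟩

theorem lapd_of (hM : MAT) (hS : SCL) : LAPD := by
  intro n q C hq hC
  obtain ⟨e, he, K, hK, h⟩ := hM n
  obtain ⟨e', he', K', hK', h'⟩ := hS n
  have t1 : Tendsto (fun t : ℝ => C * t ^ (-q)) atTop (𝓝 0) := by
    simpa using (tendsto_rpow_neg_atTop hq).const_mul C
  obtain ⟨ρ₀, h0⟩ := eventually_atTop.1 ((t1.eventually (ge_mem_nhds he)).and
    (t1.eventually (ge_mem_nhds he')))
  refine ⟨n * (n * (K * C)) + n * (K' * C) + (n * (1 + K * e) + 1), by positivity, max 1 ρ₀,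
    le_max_left _ _, fun g w R B₁ B₂ x hg hA hR hx hw b1 b2 h1 h2 => ?_⟩
  have ht : 0 < ‖x‖ := one_pos.trans_le ((le_max_left _ _).trans hx)
  obtain ⟨k1, k2⟩ := h0 _ ((le_max_right _ _).trans hx)
  have m1 := (h g x _ hg (by positivity) k1 fun i j => (hA x hR i j i i).1).1
  have m2 := (h' g x _ _ _ hg (by positivity) k2 (by positivity) (by positivity)
    (fun i j => (hA x hR i j i i).1) (fun i j k => (hA x hR i j k k).2.1)
    fun i j k l => (hA x hR i j k l).2.2).2.2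
  have p1 : 0 ≤ ‖x‖ ^ (-q) * B₂ := by positivity
  have p2 : 0 ≤ ‖x‖ ^ (-(q + 1)) * B₁ := by positivity
  have p3 : 0 ≤ n * (n * (K * C)) := by positivity
  have p4 : 0 ≤ n * (K' * C) := by positivity
  have p5 : 0 ≤ n * (1 + K * e) := by positivity
  constructor
  · have e1 : lap g w x - lap (eu n) w x = ∑ i, ∑ j, (up g i j x - eu n x i j) * pd i (pd j w) x +
        ∑ j, bv g j x * pd j w x := by
      rw [hg.lap_eq (hw.c2 x), lap_eu]
      simp only [sub_mul, Finset.sum_sub_distrib, eu, ite_mul, one_mul, zero_mul,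
        Finset.sum_ite_eq, Finset.mem_univ, if_true]
      ring
    have a1 := sum_le fun i => sum_le fun j => mulb (m1 i j) (h2 j i)
    have a2 := sum_le fun j => mulb (m2 j) (h1 j)
    rw [Fintype.card_fin] at a1 a2
    rw [e1]
    refine (abs_add_le _ _).trans ?_
    nlinarith [mul_nonneg p3 p2, mul_nonneg p4 p1, mul_nonneg p5 p1, mul_nonneg p5 p2]
  · have u1 : ∀ i j, |up g i j x| ≤ (1 + K * e) * (1 + K * e) := fun i j => by
      have q1 : |eu n x i j| ≤ 1 := by unfold eu; split_ifs <;> simp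
      have q2 := abs_sub_abs_le_abs_sub (up g i j x) (eu n x i j)
      have q3 := mul_le_mul_of_nonneg_left k1 hK.le
      have q4 := mul_pos hK he
      nlinarith [m1 i j]
    have a1 := sum_le fun i => sum_le fun j => mulb (mulb (u1 i j) (h1 i)) (h1 j)
    rw [Fintype.card_fin] at a1
    refine (Real.sqrt_le_iff.2 ⟨mul_nonneg p5 b1, ((le_abs_self _).trans a1).trans_eq
      (by ring)⟩).trans (mul_le_mul_of_nonneg_right (by linarith) b1)

end Vale.Agent.P366Y.B
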