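import Vale.Agent.P366Y.B.GluDefs
import Vale.Agent.P366Y.A.Fin
import Vale.Agent.P366Y.A.Cf1
import Vale.Agent.P366Y.A.Cf2
import Vale.Agent.P366Y.A.Wk

/-!
# P366Y, block B: the gluing
-/

open MeasureTheory Metric Filter Topology Set
open scoped ContDiff ENNReal
open Vale.Agent.P366.Stmt Vale.Agent.P366Z Vale.Agent.P366Z.St0
open Vale.Agent.P366Y.A (Sy B0 Bk ck mg)

noncomputable section

namespace Vale.Agent.P366Y.B

namespace GluH

variable {n : ℕ} {g g₂ G H K Z : Field n} {U : E n → ℝ} {x : E n} {ρ q C C' R B : ℝ}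

theorem gm_in (hx : ‖x‖ ≤ ρ) : gm ρ g g₂ x = g x := by
  funext i j
  simp only [gm, cut_one hx, one_mul, sub_self, zero_mul, add_zero]

theorem gm_ev (hx : ‖x‖ < ρ) : gm ρ g g₂ =ᶠ[𝓝 x] g := by
  filter_upwards [(isOpen_lt continuous_norm continuous_const).mem_nhds hx] with z hz
  exact gm_in (le_of_lt hz)

theorem gm_out (hρ : 0 < ρ) (hx : 2 * ρ ≤ ‖x‖) : gm ρ g g₂ x = g₂ x := by
  funext i j
  simp only [gm, cut_zero hρ hx, one_mul, sub_zero, zero_mul, zero_add]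

theorem sy_add (hK : Sy K) (hZ : Sy Z) : Sy (K + Z) :=
  ⟨fun i j => ContDiff.add (hK.sm i j) (hZ.sm i j), fun x i j => by
    simp only [Pi.add_apply, hK.sy x i j, hZ.sy x i j]⟩

theorem ak_mono (h : Ak K q C R) (hC : C ≤ C') : Ak K q C' R := fun x hx i j k =>
  ⟨(h x hx i j k).1.trans (mul_le_mul_of_nonneg_right hC (by positivity)),
    (h x hx i j k).2.trans (mul_le_mul_of_nonneg_right hC (by positivity))⟩

theorem af_mono (h : Af g q C R) (hC : C ≤ C') : Af g q C' R := fun x hx i j k l =>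
  ⟨(h x hx i j k l).1.trans (mul_le_mul_of_nonneg_right hC (by positivity)),
    (h x hx i j k l).2.1.trans (mul_le_mul_of_nonneg_right hC (by positivity)),
    (h x hx i j k l).2.2.trans (mul_le_mul_of_nonneg_right hC (by positivity))⟩

theorem ak_add (hK : Sy K) (hZ : Sy Z) (h : Ak K q C R) (hR : 1 ≤ R) (hq : 0 < q) (hρ : 0 ≤ ρ)
    (hB : 0 ≤ B) (hz : ∀ x i j k, |Z x i j| ≤ B * (ρ + ‖x‖) ^ (-(q + 1)) ∧
      |pd k (fun y => Z y i j) x| ≤ B * (ρ + ‖x‖) ^ (-(q + 2))) : Ak (K + Z) q (C + B) R := by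
  intro x hx i j k
  have a : ∀ p : ℝ, 0 ≤ p → B * (ρ + ‖x‖) ^ (-p) ≤ B * ‖x‖ ^ (-p) := fun p hp =>
    mul_le_mul_of_nonneg_left (Real.rpow_le_rpow_of_nonpos (by linarith) (by linarith)
      (by linarith)) hB
  have a1 := a (q + 1) (by linarith)
  have a2 := a (q + 2) (by linarith)
  have e : pd k (fun y => (K + Z) y i j) x = pd k (fun y => K y i j) x + pd k (fun y => Z y i j) x :=
    pd_add ((hK.sm i j).diff x) ((hZ.sm i j).diff x) k
  rw [e]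
  exact ⟨(abs_add_le (K x i j) (Z x i j)).trans (by linarith [(h x hx i j k).1, (hz x i j k).1]),
    (abs_add_le _ _).trans (by linarith [(h x hx i j k).2, (hz x i j k).2])⟩

theorem sm_le {p e : ℝ} (hρ : 1 ≤ ρ) (hq : 0 < q) (hp : q ≤ p) (hB : 0 ≤ B)
    (he : B * ρ ^ (-q) ≤ e) : B * (ρ + ‖x‖) ^ (-p) ≤ e := by
  have := norm_nonneg x
  refine (mul_le_mul_of_nonneg_left ?_ hB).trans he
  exact (Real.rpow_le_rpow_of_exponent_le (by linarith) (neg_le_neg hp)).trans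
    (Real.rpow_le_rpow_of_nonpos (by linarith) (by linarith) (by linarith))

theorem dec_of (hn : 3 ≤ n) (hG : Met G) (hH : Sy H) (hU : Smooth U) (h0 : ∀ x, 0 < U x)
    (h : Qd G H U x ≤ 0) :
    covNorm (cf U G) (mom (cf U G) (ck U H)) x ≤ mu (cf U G) (ck U H) x := by
  refine (A.cf2 n G H U hn hG hH hU h0 x).trans ?_
  rw [((A.cf1 n G H U hn hG hH hU h0).2.2 x).2.2.2.2]
  have u := h0 x
  refine mul_le_mul_of_nonneg_left ?_ (by positivity)
  unfold Qd at h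
  rw [← sub_nonpos]
  refine le_trans (le_of_eq ?_) (div_nonpos_of_nonpos_of_nonneg h u.le)
  field_simp
  ring

theorem ex_eta (p : ℝ) {e : ℝ} (he : 0 < e) :
    ∃ η > (0 : ℝ), η ≤ 1 / 2 ∧ ∀ u : ℝ, |u - 1| ≤ η → |u ^ p - 1| ≤ e := by
  obtain ⟨d, d0, hd⟩ := Metric.continuousAt_iff.1
    (Real.continuousAt_rpow_const 1 p (Or.inl one_ne_zero)) e he
  refine ⟨min (d / 2) (1 / 2), by positivity, min_le_right _ _, fun u hu => ?_⟩
  have := hd (x := u) (by rw [Real.dist_eq]; linarith [min_le_left (d / 2) (1 / 2)])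
  rw [Real.dist_eq, Real.one_rpow] at this
  exact this.le

theorem k_far {L : ℝ} (hL : 0 ≤ L) (hx : 1 ≤ ‖x‖) (hq : 0 ≤ q) :
    L * ‖x‖ ^ (-q) ≤ L * 2 ^ q * (1 + ‖x‖) ^ (-q) := by
  have h : (2 * ‖x‖) ^ (-q) ≤ (1 + ‖x‖) ^ (-q) :=
    Real.rpow_le_rpow_of_nonpos (by linarith) (by linarith) (by linarith)
  rw [Real.mul_rpow (by norm_num) (by positivity)] at h
  have h2 : (2 : ℝ) ^ q * 2 ^ (-q) = 1 := by rw [← Real.rpow_add two_pos]; simp
  calc L * ‖x‖ ^ (-q) = L * 2 ^ q * (2 ^ (-q) * ‖x‖ ^ (-q)) := by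
        rw [mul_assoc, ← mul_assoc (2 ^ q), h2, one_mul]
    _ ≤ _ := mul_le_mul_of_nonneg_left h (by positivity)

theorem k_near {M : ℝ} (hM : 0 ≤ M) (hx : ‖x‖ ≤ R) (hq : 0 ≤ q) :
    M ≤ M * (1 + R) ^ q * (1 + ‖x‖) ^ (-q) := by
  have := norm_nonneg x
  have h : (1 + R) ^ (-q) ≤ (1 + ‖x‖) ^ (-q) :=
    Real.rpow_le_rpow_of_nonpos (by linarith) (by linarith) (by linarith)
  have h2 : (1 + R) ^ q * (1 + R) ^ (-q) = 1 := by rw [← Real.rpow_add (by linarith)]; simp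
  calc M = M * (1 + R) ^ q * (1 + R) ^ (-q) := by rw [mul_assoc, h2, mul_one]
    _ ≤ _ := mul_le_mul_of_nonneg_left h (by have : 0 ≤ 1 + R := by linarith
                                             positivity)

theorem cl_far {c a d ε : ℝ} (hc : |c - 1| ≤ ε) (ha : |a - d| ≤ ε) (hd : |d| ≤ 1) (h1 : ε ≤ 1) :
    |c * a - d| ≤ 4 * ε := by
  have e0 := (abs_nonneg _).trans hc
  have h : c * a - d = (c - 1) * (a - d) + (c - 1) * d + (a - d) := by ring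
  have h2 : |(c - 1) * (a - d)| ≤ ε * 1 := by
    rw [abs_mul]; exact mul_le_mul hc (ha.trans h1) (abs_nonneg _) e0
  have h3 : |(c - 1) * d| ≤ ε * 1 := by rw [abs_mul]; exact mul_le_mul hc hd (abs_nonneg _) e0
  rw [h]
  linarith [abs_add_three ((c - 1) * (a - d)) ((c - 1) * d) (a - d)]

end GluH

open GluH

theorem glu_of (h0 : GL0) (hS : SOLV) (hMi : MID) (hI : INP) (hD : DEF) (hP : PERT) (hW : WK2)
    (hb : BP) : GLU := by
  intro n g K g₂ K₂ F q C R m m₂ P hB hM hM₂ hq hm e e0 r₀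
  have hn := hB.dim
  have hn' : (3 : ℝ) ≤ n := by exact_mod_cast hn
  have q1 := hB.q0
  have q0 : 0 < q := by linarith
  have C0 := hB.C0
  have R1 := hB.R1
  have γ1 := one_lt_gam hn
  obtain ⟨q', p0, p1, p2, p3⟩ : ∃ q' : ℝ, 0 < q' ∧ q' < q ∧ q' < 1 ∧ n + q' < 2 + 2 * q := by
    have a1 := min_le_left (min q 1) (2 + 2 * q - n)
    have a2 := min_le_right (min q 1) (2 + 2 * q - n)
    have a3 : 0 < min (min q 1) (2 + 2 * q - n) := lt_min (lt_min q0 one_pos) (by linarith)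
    exact ⟨min (min q 1) (2 + 2 * q - n) / 2, by linarith, by linarith [min_le_left q 1],
      by linarith [min_le_right q 1], by linarith⟩
  obtain ⟨C', CC, h0⟩ := h0 n q C C0
  obtain ⟨B, B0, s, s0, ρ₀, hS⟩ := hS n g K g₂ K₂ q q' C R m m₂ P hn q0 hq p0 p2 C0 R1 hM hM₂ hm
  obtain ⟨Ld, Ld0, R₂, R21, hD⟩ := hD n q (C' + B) q0 (by linarith)
  obtain ⟨M, M1, hP⟩ := hP n g K F (max R R₂) hB.met hB.sy hB.ext.1
  obtain ⟨C₂, c1, c2, c3⟩ : ∃ C₂ : ℝ, Ld * 2 ^ (q + 1) ≤ C₂ ∧ M * (1 + max R R₂) ^ (q + 1) ≤ C₂ ∧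
      C' ≤ C₂ := ⟨max (max _ _) _, (le_max_left _ _).trans (le_max_left _ _),
        (le_max_right _ _).trans (le_max_left _ _), le_max_right _ _⟩
  obtain ⟨L, L0, c, c0, ρ₁, hW⟩ := hW n g K F q C R m q' C₂ hB p0 p1 (by linarith)
  obtain ⟨κ, -, Ab, -, hb⟩ := hb n hn
  obtain ⟨ε, ε0, ε1, εe⟩ : ∃ ε > (0 : ℝ), ε ≤ 1 ∧ 4 * ε ≤ e :=
    ⟨min 1 (e / 4), by positivity, min_le_left _ _, by linarith [min_le_right 1 (e / 4)]⟩
  obtain ⟨η, η0, η1, hη⟩ := ex_eta (2 * bb n) ε0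
  obtain ⟨δ, δ0, δ1, δ2⟩ : ∃ δ > (0 : ℝ), 4 * gam n * δ * L ≤ s ∧ δ * L ≤ η / 2 := by
    refine ⟨min (s / (4 * gam n * L)) (η / 2 / L), by positivity, ?_,
      (le_div_iff₀ L0).1 (min_le_right _ _)⟩
    have := (le_div_iff₀ (by positivity)).1 (min_le_left (s / (4 * gam n * L)) (η / 2 / L))
    linarith
  obtain ⟨R₁, R11, τ, τ0, hMi⟩ := hMi n q q' (C' + B) B s L c δ hn p0 p1 p3 (by linarith) B0 L0 c0
    δ0 δ1
  obtain ⟨R₃, hR₃⟩ := A.FinA.ev_small q0 C' ε0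
  obtain ⟨r, r1, r2, r3, r4⟩ : ∃ r : ℝ, r₀ ≤ r ∧ R₁ ≤ r ∧ max R R₂ ≤ r ∧ R₃ ≤ r :=
    ⟨max (max r₀ R₁) (max (max R R₂) R₃), (le_max_left _ _).trans (le_max_left _ _),
      (le_max_right _ _).trans (le_max_left _ _), (le_max_left _ _).trans (le_max_right _ _),
      (le_max_right _ _).trans (le_max_right _ _)⟩
  have rR : R ≤ r := (le_max_left _ _).trans r3
  obtain ⟨e₁, ⟨e10, e11⟩, hI⟩ := hI n g K F r (c * (1 + r) ^ (-(n + q'))) δ hn hB.met hB.sy hB.ext.1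
    (mul_pos c0 (Real.rpow_pos_of_pos (by linarith) _)) δ0
  obtain ⟨ρ₂, hρ₂⟩ := A.FinA.ev_small q0 B (lt_min e10 (half_pos η0))
  obtain ⟨ρ, a0, a1, a2, a3⟩ : ∃ ρ : ℝ, ρ₀ ≤ ρ ∧ ρ₁ ≤ ρ ∧ ρ₂ ≤ ρ ∧ r + 1 ≤ ρ :=
    ⟨max (max ρ₀ ρ₁) (max ρ₂ (r + 1)), (le_max_left _ _).trans (le_max_left _ _),
      (le_max_right _ _).trans (le_max_left _ _), (le_max_left _ _).trans (le_max_right _ _),
      (le_max_right _ _).trans (le_max_right _ _)⟩
  have ρ1 : 1 ≤ ρ := by linarith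
  have ρ0 : 0 < ρ := by linarith
  have b1 := (hρ₂ ρ a2).trans (min_le_left _ _)
  have b2 := (hρ₂ ρ a2).trans (min_le_right _ _)
  obtain ⟨T₀, hS⟩ := hS ρ a0 τ τ0
  obtain ⟨T, t0, t1⟩ : ∃ T : ℝ, T₀ ≤ T ∧ 2 * ρ ≤ T := ⟨max _ _, le_max_left _ _, le_max_right _ _⟩
  obtain ⟨w₀, Z, hS⟩ := hS T t0
  obtain ⟨g1, g2, g3, g4⟩ := h0 g K g₂ K₂ R ρ hM.met hM₂.met hM.sy hM₂.sy hM.af hM₂.af hM.ak hM₂.ak
    (by linarith) (by linarith)
  obtain ⟨w, w1, w2, w3, w4, w5, w6⟩ := hW ρ a1 T t1 _ g1 (af_mono g3 c3) fun x hx => gm_ev hx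
  obtain ⟨hb1, hb2, -⟩ := hb ρ ρ1
  have hb0 := (hb1 q hq).zero
  have H1 := sy_add g2 hS.sy
  have H2 := ak_add g2 hS.sy g4 R1 q0 ρ0.le B0.le hS.oz
  have CB : C ≤ C' + B := by linarith
  have U1 : Smooth (uu δ w₀ w) :=
    ContDiff.add (ContDiff.add contDiff_const hS.sm) (ContDiff.mul contDiff_const w1)
  obtain ⟨i₀⟩ : Nonempty (Fin n) := ⟨⟨0, by omega⟩⟩
  have U2 : ∀ x, |uu δ w₀ w x - 1| ≤ η := fun x => by
    have h1 := (hS.o2 x i₀ i₀).1.trans (sm_le ρ1 q0 le_rfl B0.le b2)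
    have h2 : |δ * w x| ≤ δ * L := by
      rw [abs_mul, abs_of_pos δ0]; exact mul_le_mul_of_nonneg_left (w2 x) δ0.le
    rw [uu, add_assoc, add_sub_cancel_left]
    linarith [abs_add_le (w₀ x) (δ * w x)]
  have U3 : ∀ x, 1 / 2 ≤ uu δ w₀ w x := fun x => by linarith [(abs_le.1 (U2 x)).1]
  have U4 : ∀ x, uu δ w₀ w x ≤ 2 := fun x => by linarith [(abs_le.1 (U2 x)).2]
  have U0 : ∀ x, 0 < uu δ w₀ w x := fun x => by linarith [U3 x]
  have z1 : ∀ x i j k, |Z x i j| ≤ e₁ ∧ |pd k (fun y => Z y i j) x| ≤ e₁ := fun x i j k =>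
    ⟨(hS.oz x i j k).1.trans (sm_le ρ1 q0 (by linarith) B0.le b1),
      (hS.oz x i j k).2.trans (sm_le ρ1 q0 (by linarith) B0.le b1)⟩
  have z2 : ∀ x i j, |pd i w₀ x| ≤ e₁ ∧ |pd j (pd i w₀) x| ≤ e₁ := fun x i j =>
    ⟨(hS.o2 x i j).2.1.trans (sm_le ρ1 q0 (by linarith) B0.le b1),
      (hS.o2 x i j).2.2.trans (sm_le ρ1 q0 (by linarith) B0.le b1)⟩
  have ev : ∀ x : E n, ‖x‖ < ρ → gm ρ K K₂ + Z =ᶠ[𝓝 x] K + Z := fun x hx =>
    (gm_ev (g := K) (g₂ := K₂) hx).mono fun y hy => by simp only [Pi.add_apply, hy]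
  have kk : ∀ x, √(normSq (gm ρ g g₂) (gm ρ K K₂ + Z) x) ≤ C₂ * (1 + ‖x‖) ^ (-(q + 1)) := fun x => by
    rcases le_total ‖x‖ (max R R₂) with hx | hx
    · have hx' : ‖x‖ < ρ := by linarith
      rw [A.Fin1.nsq_eq (gm_in hx'.le) (ev x hx').eq_of_nhds]
      exact ((hP Z w₀ e₁ x hS.sy hS.sm e10.le e11 hx (z1 x) (z2 x)).2.2.1.trans
        (k_near (by linarith) hx (by linarith))).trans
          (mul_le_mul_of_nonneg_right c2 (by positivity))
    · have x1 := (le_max_left _ _).trans hx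
      exact ((hD g K g₂ K₂ Z R ρ x hM.met hM₂.met g1 hM.sy hM₂.sy hS.sy (af_mono hM.af CB)
        (af_mono hM₂.af CB) (af_mono g3 (by linarith)) (ak_mono hM.ak CB) (ak_mono hM₂.ak CB) H2 x1
        ((le_max_right _ _).trans hx) (hM.dec x x1) (hM₂.dec x x1)).2.trans
          (k_far Ld0.le (by linarith) (by linarith))).trans
            (mul_le_mul_of_nonneg_right c1 (by positivity))
  have w7 := fun x hx => w5 x _ hx (Real.sqrt_nonneg _) (kk x)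
  have inn := fun x (hx : ‖x‖ ≤ r) => hI _ _ Z w₀ w x g1 hS.sy hS.sm w1 hx (gm_ev (by linarith))
    (ev x (by linarith)) (z1 x) (z2 x) (U3 x) (U4 x)
  obtain ⟨G1, G2, -⟩ := A.cf1 n _ _ _ hn g1 H1 U1 U0
  refine ⟨_, _, r, 2 * T, r1, by linarith, G1, G2, fun x hx => dec_of hn g1 H1 U1 U0 ?_,
    fun x hx => ?_, fun x hx => ?_, fun x hx => ⟨_, (hη _ (U2 x)).trans (by linarith),
      fun i j => by rw [cf, gm_in (by linarith)]⟩, fun x hx i j => ?_⟩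
  · rcases le_total ‖x‖ r with h | h
    · refine (inn x h).1 (hB.dec x hx) (((w7 x hx).2 (by linarith)).trans ?_)
      rw [hb0 x (Or.inl (by linarith)), mul_zero, zero_sub]
      exact neg_le_neg (mul_le_mul_of_nonneg_left (Real.rpow_le_rpow_of_nonpos (by positivity)
        (by linarith) (by linarith)) c0.le)
    rcases le_or_gt ‖x‖ T with h' | h'
    · exact hMi g K g₂ K₂ Z w₀ w R ρ T x hM.met hM₂.met g1 hM.sy hM₂.sy (af_mono hM.af CB)
        (af_mono hM₂.af CB) (af_mono g3 (by linarith)) (ak_mono hM.ak CB) (ak_mono hM₂.ak CB) H2 hS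
        w1 ρ0 (rR.trans h) (r2.trans h) (hM.dec x (rR.trans h)) (hM₂.dec x (rR.trans h)) (hb2 x)
        (w2 x) (w3 x) (U3 x) (U4 x) ((w7 x hx).2 h')
    · have o := (isOpen_lt continuous_const continuous_norm).mem_nhds h'
      have e1 : gm ρ g g₂ =ᶠ[𝓝 x] g₂ := by
        filter_upwards [o] with y hy using gm_out ρ0 (t1.trans (le_of_lt hy))
      have e2 : gm ρ K K₂ + Z =ᶠ[𝓝 x] K₂ := by
        filter_upwards [o] with y hy
        rw [Pi.add_apply, gm_out ρ0 (t1.trans (le_of_lt hy)), (hS.out y (le_of_lt hy)).2, add_zero]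
      have e3 : uu δ w₀ w =ᶠ[𝓝 x] fun y => δ * w y + 1 := by
        filter_upwards [o] with y hy
        rw [uu, (hS.out y (le_of_lt hy)).1]; ring
      have d := hM₂.dec x (rR.trans h)
      have f := (w7 x hx).1
      rw [hb0 x (Or.inr (by linarith)), mul_zero] at f
      rw [Qd, A.Fin1.cov_ev e1 e2, A.Fin1.mu_ev e1 e2.eq_of_nhds, lap_congr e3, gn_congr e3,
        lap_affine, gn_of_pd (u' := w) (s := δ) fun i => by rw [pd_add_const, pd_const_mul],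
        abs_of_pos δ0]
      have f1 := mul_nonpos_of_nonneg_of_nonpos (U0 x).le (sub_nonpos.2 d)
      have f2 := mul_nonpos_of_nonneg_of_nonpos (by positivity : 0 ≤ 2 * gam n * δ) f
      linarith
  · have h : ‖x‖ ≤ r := by
      by_contra h
      linarith [hB.far x (rR.trans (not_le.1 h).le)]
    have n1 := Asm.gn_ne hB.met (hB.ext.2.1 x hx)
    rw [A.cf3 n _ _ _ F x hn g1 H1 U1 U0 hB.ext.1 (Asm.gn_ne g1 (hB.ext.2.1 x hx))]
    refine mul_nonpos_of_nonneg_of_nonpos (Real.rpow_nonneg (U0 x).le _)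
      ((inn x h).2 (hB.trap x hx) n1 ((w6 x hx).trans (neg_le_neg ?_)))
    exact mul_le_of_le_one_right c0.le (Real.rpow_le_one_of_one_le_of_nonpos (by linarith)
      (by linarith))
  · have e3 : uu δ w₀ w x = 1 := by rw [uu, (hS.out x (by linarith)).1, w4 x hx]; ring
    constructor
    · funext i j
      rw [cf, e3, Real.one_rpow, one_mul, gm_out ρ0 (by linarith)]
    · funext i j
      rw [ck, e3, Real.one_rpow, one_mul, Pi.add_apply, gm_out ρ0 (by linarith),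
        (hS.out x (by linarith)).2, add_zero]
  · have a := hR₃ _ (r4.trans hx)
    refine ⟨(cl_far (hη _ (U2 x)) ((g3 x (rR.trans hx) i j i i).1.trans a) ?_ ε1).trans εe,
      ((af_mono hM.af CC x (rR.trans hx) i j i i).1.trans a).trans (by linarith)⟩
    unfold eu
    split_ifs <;> simp

end Vale.Agent.P366Y.B
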