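import Vale.Agent.P366Y.B.GluDefs
import Vale.Agent.P366Y.A.Fin1

/-!
# P366Y, block B, row INP: the inner region
-/

open MeasureTheory Metric Filter Topology Set
open scoped ContDiff ENNReal
open Vale.Agent.P366.Stmt Vale.Agent.P366Z Vale.Agent.P366Z.St0
open Vale.Agent.P366Y.A.Fin1 (cov_ev mu_ev th_ev nsq_eq)

noncomputable section

namespace Vale.Agent.P366Y.B

theorem inp_of : PERT → INP := by
  intro hP n g K F r c δ hn hg hK hF c0 δ0
  obtain ⟨M, M1, hM⟩ := hP n g K F r hg hK hF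
  obtain ⟨e, he⟩ : ∃ e, e = min 1 (δ * c / (8 * M ^ 2)) := ⟨_, rfl⟩
  have e0 : 0 < e := by rw [he]; positivity
  have e1 : e ≤ 1 := he.le.trans (min_le_left _ _)
  have e2 : e * (8 * M ^ 2) ≤ δ * c :=
    (le_div_iff₀ (by positivity)).1 (he.le.trans (min_le_right _ _))
  refine ⟨e, ⟨e0, e1⟩, fun G H Z w₀ w x _ hZ h0 hw hx eG eH bZ bw u1 u2 => ?_⟩
  obtain ⟨p1, p2, p3, p4, p5, p6, p7, p8⟩ := hM Z w₀ e x hZ h0 e0.le e1 hx bZ bw
  have g0 := eG.eq_of_nhds
  have k0 := eH.eq_of_nhds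
  have γ1 := one_lt_gam hn
  have m0 : 0 < M * e := by positivity
  have m1 : M * e ≤ M ^ 2 * e := by nlinarith
  have sU : Smooth fun y => 1 + w₀ y := ContDiff.add contDiff_const h0
  have sW : Smooth fun y => δ * w y := ContDiff.mul contDiff_const hw
  have dU : ∀ i, pd i (uu δ w₀ w) x = pd i w₀ x + pd i (fun y => δ * w y) x := fun i =>
    (pd_add (sU.diff x) (sW.diff x) i).trans (by rw [pd_const_add])
  refine ⟨fun hd hl => ?_, fun ht hn0 hi => ?_⟩
  · have l1 : lap g (uu δ w₀ w) x = lap g w₀ x + δ * lap g w x := by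
      have : (fun y => 1 + w₀ y) = fun y => w₀ y + 1 := funext fun _ => add_comm _ _
      refine (hg.lap_add (sU.c2 x) (sW.c2 x)).trans ?_
      rw [this, lap_add_const, lap_const_mul]
    have l2 := hg.gn_add_le dU
    rw [gn_of_pd (u := fun y => δ * w y) (u' := w) (s := δ) fun i => pd_const_mul δ i,
      abs_of_pos δ0] at l2
    rw [lap_of_ev eG, nsq_eq g0 k0, gn_of_eq g0] at hl
    rw [Qd, cov_ev eG eH, mu_ev eG k0, lap_of_ev eG, nsq_eq g0 k0, gn_of_eq g0, l1]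
    obtain ⟨k, hk⟩ : ∃ k, k = √(normSq g (K + Z) x) := ⟨_, rfl⟩
    have k1 : 0 ≤ k := hk ▸ Real.sqrt_nonneg _
    rw [← hk] at hl p3 ⊢
    have a1 := mul_le_mul_of_nonneg_left l2 k1
    have a2 := mul_le_mul p3 p5 (gn_nonneg _ _ _) (by linarith)
    have a3 := mul_le_mul_of_nonneg_left hl δ0.le
    have a4 : lap g w₀ x + δ * lap g w x + k * gn g (uu δ w₀ w) x ≤ -(3 / 4 * (δ * c)) := by
      linarith [le_abs_self (lap g w₀ x)]
    have a5 := mul_le_mul_of_nonneg_left (show covNorm g (mom g (K + Z)) x - mu g (K + Z) x ≤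
      2 * (M * e) by linarith) (show 0 ≤ uu δ w₀ w x by linarith)
    have a6 := mul_le_mul_of_nonneg_right u2 m0.le
    have a7 := mul_le_mul_of_nonneg_left a4 (show 0 ≤ gam n by linarith)
    have a8 := mul_le_mul_of_nonneg_right γ1.le (mul_pos δ0 c0).le
    linarith [mul_pos δ0 c0]
  · have l1 : ip g (uu δ w₀ w) F x = 1 * ip g w₀ F x + δ * ip g w F x :=
      ip_of_pd_add fun i => by rw [dU, pd_const_mul, one_mul]
    have n0 : 0 < gn g F x := (gn_nonneg _ _ _).lt_of_ne' hn0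
    have d0 : 0 < uu δ w₀ w x * gn g F x := mul_pos (by linarith) n0
    have d1 : uu δ w₀ w x * gn g F x ≤ 2 * M := mul_le_mul u2 p8 n0.le zero_le_two
    rw [th_ev eG k0, ip_of_eq g0, gn_of_eq g0]
    have a3 := mul_le_mul_of_nonneg_left hi δ0.le
    have a4 : ip g (uu δ w₀ w) F x ≤ -(1 / 2 * (δ * c)) := by linarith [mul_pos δ0 c0]
    have a7 := mul_le_mul_of_nonneg_left a4 (show 0 ≤ gam n by linarith)
    have a8 := mul_le_mul_of_nonneg_right γ1.le (mul_pos δ0 c0).le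
    have a9 := mul_le_mul_of_nonneg_left d1 m0.le
    have : 2 * gam n * ip g (uu δ w₀ w) F x / (uu δ w₀ w x * gn g F x) ≤ -(M * e) :=
      (div_le_iff₀ d0).2 (by linarith [mul_pos δ0 c0])
    linarith

end Vale.Agent.P366Y.B
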