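import Vale.Agent.P366Y.B.Defs
import Vale.Agent.P366Z.St0.Scl

/-!
# P366Y, block B: the linear part of the momentum density (row MLN)
-/

open MeasureTheory Metric Filter Topology Set Asymptotics
open scoped ContDiff ENNReal
open Vale.Agent.P366.Stmt Vale.Agent.P366Z Vale.Agent.P366Z.St0
open Vale.Agent.P366Y.A (Sy)
open Vale.Agent.P366Z.St0.Scl (bmul mulb half sumO sum_dl ofb tob)

noncomputable section

namespace Vale.Agent.P366Y.B

namespace MlnH

variable {n : ℕ}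

theorem pd_tr {g K : Field n} (hg : Met g) (hK : Sy K) (k : Fin n) (x : E n) :
    pd k (tr g K) x = ∑ c, ∑ d, (pd k (up g c d) x * K x c d +
      up g c d x * pd k (fun y => K y c d) x) := by
  have h : ∀ c d, DifferentiableAt ℝ (fun y => up g c d y * K y c d) x := fun c d =>
    ((hg.sm_up c d).diff x).fun_mul ((hK.sm c d).diff x)
  refine (pd_sum (F := fun c y => ∑ d, up g c d y * K y c d) Finset.univ
    (fun c _ => .fun_sum fun d _ => h c d) k).trans (Finset.sum_congr rfl fun c _ => ?_)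
  exact (pd_sum Finset.univ (fun d _ => h c d) k).trans (Finset.sum_congr rfl fun d _ =>
    pd_mul ((hg.sm_up c d).diff x) ((hK.sm c d).diff x) k)

theorem pd_pi {g K : Field n} (hg : Met g) (hK : Sy K) (k i j : Fin n) (x : E n) :
    pd k (fun y => momT g K y i j) x = pd k (fun y => K y i j) x -
      (pd k (tr g K) x * g x i j + tr g K x * pd k (fun y => g y i j) x) := by
  have h : DifferentiableAt ℝ (tr g K) x := .fun_sum fun c _ => .fun_sum fun d _ =>
    ((hg.sm_up c d).diff x).fun_mul ((hK.sm c d).diff x)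
  rw [← pd_mul h ((hg.sm i j).diff x)]
  exact pd_sub ((hK.sm i j).diff x) (h.fun_mul ((hg.sm i j).diff x)) k

theorem pd_pe {K : Field n} (hK : Sy K) (k i j : Fin n) (x : E n) :
    pd k (fun y => pe K y i j) x = pd k (fun y => K y i j) x -
      (∑ c, pd k (fun y => K y c c) x) * if i = j then 1 else 0 := by
  have h : DifferentiableAt ℝ (fun y => ∑ c, K y c c) x := .fun_sum fun c _ => (hK.sm c c).diff x
  rw [← pd_sum Finset.univ (fun c _ => (hK.sm c c).diff x) k, ← pd_mul_const]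
  exact pd_sub ((hK.sm i j).diff x) (h.mul_const _) k

theorem rt {A B c : ℝ} (hA : 0 ≤ A) (hB : 0 ≤ B) (h : |A - B| ≤ c * B) :
    |√A - √B| ≤ c * √B := by
  rcases hB.eq_or_lt with rfl | k
  · rw [mul_zero, sub_zero, abs_nonpos_iff] at h
    simp [h]
  · have h1 := Real.sqrt_pos.2 k
    have h2 := Real.sqrt_nonneg A
    have h3 : A - B = (√A - √B) * (√A + √B) := by
      linarith [Real.mul_self_sqrt hA, Real.mul_self_sqrt hB]
    rw [h3, abs_mul, abs_of_pos (by positivity : 0 < √A + √B)] at h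
    refine le_of_mul_le_mul_right ?_ h1
    rw [mul_assoc, Real.mul_self_sqrt hB]
    exact le_trans (by gcongr; linarith) h

/-- the data -/
structure Dt (n : ℕ) (e : ℝ) where
  g : Field n
  K : Field n
  x : E n
  a : ℝ
  a₁ : ℝ
  k₀ : ℝ
  k₁ : ℝ
  met : Met g
  sy : Sy K
  a0 : 0 ≤ a
  ae : a ≤ e
  b0 : 0 ≤ a₁
  c0 : 0 ≤ k₀
  d0 : 0 ≤ k₁
  h0 : ∀ i j, |g x i j - eu n x i j| ≤ a
  h1 : ∀ i j k, |pd k (fun y => g y i j) x| ≤ a₁
  h2 : ∀ i j, |K x i j| ≤ k₀
  h3 : ∀ i j k, |pd k (fun y => K y i j) x| ≤ k₁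
  w : Fin n → ℝ

variable {e : ℝ}

theorem of1 {T : Type} {f b : T → ℝ} (h : ∀ t, |f t| ≤ b t) : f =O[⊤] b :=
  ofb 1 (fun t => (abs_nonneg _).trans (h t)) fun t => (h t).trans_eq (one_mul _).symm

theorem oP (i j k : Fin n) :
    (fun t : Dt n e => pd k (fun y => t.g y i j) t.x) =O[⊤] fun t => t.a₁ := of1 fun t => t.h1 i j k

theorem oK (i j : Fin n) : (fun t : Dt n e => t.K t.x i j) =O[⊤] fun t => t.k₀ :=
  of1 fun t => t.h2 i j

theorem odK (i j k : Fin n) :
    (fun t : Dt n e => pd k (fun y => t.K y i j) t.x) =O[⊤] fun t => t.k₁ := of1 fun t => t.h3 i j k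

theorem og1 (i j : Fin n) :
    (fun t : Dt n e => t.g t.x i j - if i = j then 1 else 0) =O[⊤] fun t => t.a :=
  of1 fun t => t.h0 i j

theorem one {f : Dt n e → ℝ} {c : ℝ} (h : (fun t => f t - c) =O[⊤] fun t => t.a) :
    f =O[⊤] fun _ => (1 : ℝ) :=
  ((h.trans (ofb e (fun _ => zero_le_one) fun t => by
    rw [abs_of_nonneg t.a0, mul_one]
    exact t.ae)).add (isBigO_const_one ℝ c ⊤)).congr_left fun t => by ring

theorem b0 (t : Dt n e) : 0 ≤ t.a * t.k₁ + t.a₁ * t.k₀ :=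
  add_nonneg (mul_nonneg t.a0 t.d0) (mul_nonneg t.b0 t.c0)

theorem o1 : (fun t : Dt n e => t.a * t.k₁) =O[⊤] fun t => t.a * t.k₁ + t.a₁ * t.k₀ :=
  of1 fun t => (abs_of_nonneg (mul_nonneg t.a0 t.d0)).trans_le
    (le_add_of_nonneg_right (mul_nonneg t.b0 t.c0))

theorem o2 : (fun t : Dt n e => t.a₁ * t.k₀) =O[⊤] fun t => t.a * t.k₁ + t.a₁ * t.k₀ :=
  of1 fun t => (abs_of_nonneg (mul_nonneg t.b0 t.c0)).trans_le
    (le_add_of_nonneg_left (mul_nonneg t.a0 t.d0))

theorem oD0 (k i j : Fin n) :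
    (fun t : Dt n e => pd k (fun y => pe t.K y i j) t.x) =O[⊤] fun t => t.k₁ :=
  ((odK i j k).sub (mulb (sumO fun c => odK c c k) (isBigO_const_one ℝ _ ⊤))).congr_left fun t =>
    (pd_pe t.sy k i j t.x).symm

theorem ow (i j : Fin n) : (fun t : Dt n e => t.w i * t.w j) =O[⊤] fun t => ∑ k, t.w k ^ 2 :=
  of1 fun t => by
    have h := fun i => Finset.single_le_sum (f := fun k => t.w k ^ 2) (fun _ _ => sq_nonneg _)
      (Finset.mem_univ i)
    exact abs_le.2 ⟨by nlinarith [h i, h j, sq_nonneg (t.w i + t.w j)],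
      by nlinarith [h i, h j, sq_nonneg (t.w i - t.w j)]⟩

variable (hU1 : ∀ i j : Fin n,
  (fun t : Dt n e => up t.g i j t.x - if i = j then 1 else 0) =O[⊤] fun t => t.a)

include hU1

theorem oC (k i j : Fin n) : (fun t : Dt n e => chr t.g k i j t.x) =O[⊤] fun t => t.a₁ :=
  (half (sumO fun c => bmul (one (hU1 k c))
    (((oP j c i).add (oP i c j)).sub (oP i j c)))).congr_left fun _ => rfl

theorem odU (k i j : Fin n) : (fun t : Dt n e => pd k (up t.g i j) t.x) =O[⊤] fun t => t.a₁ :=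
  (sumO fun c => sumO fun d =>
    mulb (bmul (one (hU1 i c)) (oP c d k)) (one (hU1 d j))).neg_left.congr_left fun t =>
      (t.met.pd_up' k i j t.x).symm

theorem oT : (fun t : Dt n e => tr t.g t.K t.x) =O[⊤] fun t => t.k₀ :=
  sumO fun i => sumO fun j => bmul (one (hU1 i j)) (oK i j)

theorem oM (i j : Fin n) : (fun t : Dt n e => momT t.g t.K t.x i j) =O[⊤] fun t => t.k₀ :=
  (oK i j).sub (mulb (oT hU1) (one (og1 i j)))

theorem oS (k : Fin n) : (fun t : Dt n e => pd k (tr t.g t.K) t.x -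
    ∑ c, pd k (fun y => t.K y c c) t.x) =O[⊤] fun t => t.a * t.k₁ + t.a₁ * t.k₀ := by
  refine (sumO fun c => sumO fun d => (((odU hU1 k c d).mul (oK c d)).trans o2).add
    (((hU1 c d).mul (odK c d k)).trans o1)).congr_left fun t => ?_
  rw [pd_tr t.met t.sy, ← Finset.sum_sub_distrib]
  refine Finset.sum_congr rfl fun c _ => ?_
  rw [← sum_dl c fun d => pd k (fun y => t.K y c d) t.x, ← Finset.sum_sub_distrib]
  exact Finset.sum_congr rfl fun d _ => by ring

theorem oD (k i j : Fin n) : (fun t : Dt n e => pd k (fun y => momT t.g t.K y i j) t.x -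
    pd k (fun y => pe t.K y i j) t.x) =O[⊤] fun t => t.a * t.k₁ + t.a₁ * t.k₀ := by
  refine (((mulb (oS hU1 k) (one (og1 i j))).add (((og1 i j).mul (sumO fun c => odK c c k)).trans
    o1)).add (((oP i j k).mul (oT hU1)).trans o2)).neg_left.congr_left fun t => ?_
  rw [pd_pi t.met t.sy, pd_pe t.sy]
  ring

theorem oJ (j : Fin n) : (fun t : Dt n e => mom t.g t.K j t.x - lj t.K j t.x) =O[⊤]
    fun t => t.a * t.k₁ + t.a₁ * t.k₀ := by
  refine (sumO fun i => sumO fun k => ((bmul (one (hU1 i k)) (oD hU1 k i j)).add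
    (((hU1 i k).mul (oD0 k i j)).trans o1)).sub (bmul (one (hU1 i k)) (sumO fun l =>
      (((oC hU1 l k i).mul (oM hU1 l j)).trans o2).add
        (((oC hU1 l k j).mul (oM hU1 i l)).trans o2)))).congr_left fun t => ?_
  rw [mom, lj, ← Finset.sum_sub_distrib]
  refine Finset.sum_congr rfl fun i _ => ?_
  rw [← sum_dl i fun k => pd k (fun y => pe t.K y i j) t.x, ← Finset.sum_sub_distrib]
  exact Finset.sum_congr rfl fun k _ => by ring

theorem oN : (fun t : Dt n e => normSq t.g t.K t.x) =O[⊤] fun t => t.k₀ * t.k₀ :=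
  sumO fun i => sumO fun j => sumO fun k => sumO fun l =>
    (bmul (bmul (one (hU1 i k)) (one (hU1 j l))) (oK i j)).mul (oK k l)

theorem oW : (fun t : Dt n e => ∑ i, ∑ j, up t.g i j t.x * t.w i * t.w j - ∑ i, t.w i ^ 2) =O[⊤]
    fun t => t.a * ∑ k, t.w k ^ 2 := by
  refine (sumO fun i => sumO fun j => (hU1 i j).mul (ow i j)).congr_left fun t => ?_
  rw [← Finset.sum_sub_distrib]
  refine Finset.sum_congr rfl fun i _ => ?_
  rw [sq, ← sum_dl i fun j => t.w i * t.w j, ← Finset.sum_sub_distrib]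
  exact Finset.sum_congr rfl fun k _ => by ring

end MlnH

open MlnH in
/-- row MLN -/
theorem mln_of (hM : MAT) : MLN := by
  intro n
  obtain ⟨e, he, K, hK, hM⟩ := hM n
  have hU1 : ∀ i j, (fun t : Dt n e => up t.g i j t.x - if i = j then 1 else 0) =O[⊤]
      fun t => t.a := fun i j =>
    ofb K (fun t => t.a0) fun t => (hM t.g t.x t.a t.met t.a0 t.ae t.h0).1 i j
  have w0 : ∀ w : Fin n → ℝ, 0 ≤ ∑ k, w k ^ 2 := fun w => by positivity
  obtain ⟨K1, p1, q1⟩ := tob b0 (sumO fun j => (oJ hU1 j).abs_left)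
  obtain ⟨K2, p2, q2⟩ := tob (fun t : Dt n e => t.d0)
    (sumO fun j => (sumO fun i => oD0 i i j).abs_left)
  obtain ⟨K3, p3, q3⟩ := tob (fun t => t.c0) (oT hU1)
  obtain ⟨K4, p4, q4⟩ := tob (fun t : Dt n e => mul_self_nonneg t.k₀) (oN hU1)
  obtain ⟨K5, p5, q5⟩ := tob (fun t : Dt n e => mul_nonneg t.a0 (w0 t.w)) (oW hU1)
  have p6 := Real.sqrt_nonneg K4
  have sg : ∀ (f : Fin n → ℝ) j, |f j| ≤ abs (∑ j, |f j|) := fun f j => (Finset.single_le_sum
    (f := fun j => |f j|) (fun j _ => abs_nonneg _) (Finset.mem_univ j)).trans (le_abs_self _)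
  refine ⟨e, he, K1 + K2 + K3 + √K4 + K5, by positivity,
    fun g H x a a₁ k₀ k₁ hg hH a0 ae b0 c0 d0 h0 h1 h2 h3 => ?_⟩
  let t : (Fin n → ℝ) → Dt n e := fun w =>
    ⟨g, H, x, a, a₁, k₀, k₁, hg, hH, a0, ae, b0, c0, d0, h0, h1, h2, h3, w⟩
  refine ⟨fun j => ⟨((sg (fun j => mom g H j x - lj H j x) j).trans (q1 (t 0))).trans
    (mul_le_mul_of_nonneg_right (by linarith) (MlnH.b0 (t 0))),
    ((sg (fun j => lj H j x) j).trans (q2 (t 0))).trans
      (mul_le_mul_of_nonneg_right (by linarith) d0)⟩,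
    (q3 (t 0)).trans (mul_le_mul_of_nonneg_right (by linarith) c0), ?_, fun w => ?_⟩
  · refine (Real.sqrt_le_sqrt ((le_abs_self _).trans (q4 (t 0)))).trans ?_
    rw [Real.sqrt_mul p4.le, Real.sqrt_mul_self c0]
    exact mul_le_mul_of_nonneg_right (by linarith) c0
  · refine (rt (c := K5 * a) (hg.up_nonneg x w) (w0 w)
      ((q5 (t w)).trans_eq (mul_assoc _ _ _).symm)).trans ?_
    gcongr
    linarith

end Vale.Agent.P366Y.B
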