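import Vale.Agent.P366Y.B.Defs
import Vale.Agent.P366Z.Calc

/-!
# P366Y, block B: the decay of the model
-/

open Set
open scoped ContDiff
open Vale.Agent.P366.Stmt Vale.Agent.P366Z Vale.Agent.P366Z.St0

noncomputable section

namespace Vale.Agent.P366Y.B

namespace ModH

variable {n : ℕ} {φ : ℝ → ℝ} {w : E n → ℝ}

theorem cd {s : ℝ} (h : ContDiffAt ℝ ∞ φ s) : ContDiffAt ℝ ∞ (deriv φ) s :=
  (h.fderiv_right (m := ∞) (by simp)).clm_apply contDiffAt_const

theorem df {s : ℝ} (h : ContDiffAt ℝ ∞ φ s) : HasDerivAt φ (deriv φ s) s :=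
  (h.differentiableAt (by simp)).hasDerivAt

theorem bd1 (h : ∀ s ∈ Icc (0 : ℝ) (1 / 2), ContDiffAt ℝ ∞ φ s) :
    ∃ M ≥ (0 : ℝ), ∀ s ∈ Icc (0 : ℝ) (1 / 2), |φ s| ≤ M := by
  obtain ⟨M, hM⟩ := isCompact_Icc.exists_bound_of_continuousOn
    fun s hs => (h s hs).continuousAt.continuousWithinAt
  exact ⟨max M 0, le_max_right _ _, fun s hs => (hM s hs).trans (le_max_left _ _)⟩

theorem bd {α : Type} [Fintype α] {φ : α → ℝ → ℝ}
    (h : ∀ a, ∀ s ∈ Icc (0 : ℝ) (1 / 2), ContDiffAt ℝ ∞ (φ a) s) :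
    ∃ M ≥ (0 : ℝ), ∀ a, ∀ s ∈ Icc (0 : ℝ) (1 / 2), |φ a s| ≤ M ∧ |deriv (φ a) s| ≤ M ∧
      |deriv (deriv (φ a)) s| ≤ M ∧ |φ a s - φ a 0| ≤ M * |s| := by
  choose A a0 a1 using fun a => bd1 (h a)
  choose B b0 b1 using fun a => bd1 fun s hs => cd (h a s hs)
  choose C c0 c1 using fun a => bd1 fun s hs => cd (cd (h a s hs))
  have k : ∀ a, A a + B a + C a ≤ ∑ a, (A a + B a + C a) := fun a =>
    Finset.single_le_sum (f := fun a => A a + B a + C a)
      (fun a _ => add_nonneg (add_nonneg (a0 a) (b0 a)) (c0 a)) (Finset.mem_univ a)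
  refine ⟨_, Finset.sum_nonneg fun a _ => add_nonneg (add_nonneg (a0 a) (b0 a)) (c0 a),
    fun a s hs => ⟨by linarith [a1 a s hs, k a, b0 a, c0 a],
      by linarith [b1 a s hs, k a, a0 a, c0 a], by linarith [c1 a s hs, k a, a0 a, b0 a], ?_⟩⟩
  have := (convex_Icc (0 : ℝ) (1 / 2)).norm_image_sub_le_of_norm_deriv_le
    (fun s hs => (df (h a s hs)).differentiableAt) (b1 a) (left_mem_Icc.2 (by norm_num)) hs
  rw [sub_zero] at this
  exact this.trans (mul_le_mul_of_nonneg_right (by linarith [k a, a0 a, c0 a]) (abs_nonneg s))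

theorem rp {r p q : ℝ} (hr : 1 ≤ r) (h0 : 0 ≤ p) (h : q ≤ p) : (1 + r) ^ (-p) ≤ r ^ (-q) :=
  (Real.rpow_le_rpow_of_nonpos (by linarith) (by linarith) (by linarith)).trans
    (Real.rpow_le_rpow_of_exponent_le hr (by linarith))

theorem mul2 {a b c M B s t : ℝ} (ha : |a| ≤ M) (hb : |b| ≤ B * s) (hc : |c| ≤ B * s)
    (hB : 0 ≤ B) (h : s * s ≤ t) : |a * b * c| ≤ M * B * B * t := by
  rw [abs_mul, abs_mul]
  have m0 := (abs_nonneg a).trans ha
  calc _ ≤ M * (B * s) * (B * s) := by gcongr; exact mul_nonneg m0 ((abs_nonneg b).trans hb)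
    _ = M * B * B * (s * s) := by ring
    _ ≤ _ := by gcongr

theorem mul1 {a b M B s : ℝ} (ha : |a| ≤ M) (hb : |b| ≤ B * s) : |a * b| ≤ M * B * s := by
  rw [abs_mul, mul_assoc]
  exact mul_le_mul ha hb (abs_nonneg b) ((abs_nonneg a).trans ha)

theorem pd1 (hw : Smooth w) {x : E n} (h : ContDiffAt ℝ ∞ φ (w x)) {f : E n → ℝ} (hf : Smooth f)
    (l : Fin n) : DifferentiableAt ℝ (fun y => φ (w y) * f y) x ∧
      pd l (fun y => φ (w y) * f y) x = deriv φ (w x) * pd l w x * f x + φ (w x) * pd l f x := by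
  have k : DifferentiableAt ℝ (fun y => φ (w y)) x := (df h).differentiableAt.comp x (hw.diff x)
  refine ⟨k.mul (hf.diff x), ?_⟩
  rw [pd_mul k (hf.diff x), pd_comp (df h) (hw.diff x)]

end ModH

open ModH in
theorem mod_of (h1 : EXM) (h2 : DCW) : MOD := by
  intro n a y₁ γ q u v L hu hL q0 qn
  obtain ⟨Γ, Λ, hE⟩ := h1 n a y₁ γ u v L hu hL
  obtain ⟨hw, ⟨B, hB⟩, -⟩ := h2 n a y₁ γ u v L hu hL
  have hI : ∀ x, (fun x => u (L x)) x ∈ Icc (0 : ℝ) (1 / 2) := fun x => hu.bd _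
  generalize (fun x => u (L x)) = w at hE hw hB hI
  generalize gM L u (lv v) = g at hE
  generalize kM L u (lv v) = K at hE
  obtain ⟨M, M0, hM⟩ := bd (φ := fun p : Fin n × Fin n => Γ p.1 p.2) fun p => hE.sΓ p.1 p.2
  obtain ⟨M', M1, hM'⟩ := bd (φ := fun p : Fin n × Fin n × Fin n => Λ p.1 p.2.1 p.2.2)
    fun p => hE.sΛ p.1 p.2.1 p.2.2
  have n0 : 0 < n := by have := hu.dim; omega
  have B0 : 0 ≤ B := by
    have := (abs_nonneg _).trans (hB 0 ⟨0, n0⟩ ⟨0, n0⟩).1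
    exact nonneg_of_mul_nonneg_left this (by positivity)
  have k : ∀ x : E n, 1 ≤ ‖x‖ → ∀ i j, |w x| ≤ B * ‖x‖ ^ (-q) ∧ |pd i w x| ≤ B * ‖x‖ ^ (-(q + 1)) ∧
      |pd j (pd i w) x| ≤ B * ‖x‖ ^ (-(q + 2)) := fun x hx i j =>
    ⟨(hB x i j).1.trans (mul_le_mul_of_nonneg_left (rp hx (by linarith) qn) B0),
      (hB x i j).2.1.trans (mul_le_mul_of_nonneg_left (rp hx (by linarith) (by linarith)) B0),
      (hB x i j).2.2.trans (mul_le_mul_of_nonneg_left (rp hx (by linarith) (by linarith)) B0)⟩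
  have k2 : ∀ x : E n, 1 ≤ ‖x‖ → ‖x‖ ^ (-(q + 1)) * ‖x‖ ^ (-(q + 1)) ≤ ‖x‖ ^ (-(q + 2)) :=
    fun x hx => by
      rw [← Real.rpow_add (by linarith)]
      exact Real.rpow_le_rpow_of_exponent_le hx (by linarith)
  have p1 : 0 ≤ M * B * B := by positivity
  have p2 : 0 ≤ M * B := by positivity
  have p3 : 0 ≤ n * (M' * B * B) := by positivity
  have p4 : 0 ≤ n * (M' * B) := by positivity
  refine ⟨M * B * B + M * B + n * (M' * B * B) + n * (M' * B) + 1, by positivity,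
    fun x hx i j l t => ?_, fun x hx i j l => ?_⟩
  · have e1 : (fun y => g y i j) = fun y => Γ i j (w y) := funext fun y => hE.eg y i j
    have e2 : pd l (fun y => Γ i j (w y)) = fun y => deriv (Γ i j) (w y) * pd l w y :=
      funext fun y => pd_comp (df (hE.sΓ i j _ (hI y))) (hw.diff y) l
    obtain ⟨-, m1, m2, m3⟩ := hM (i, j) _ (hI x)
    obtain ⟨a1, a2, a3⟩ := k x hx l t
    rw [e1, e2, hE.eg, show eu n x i j = Γ i j 0 from (hE.Γ0 i j).symm,
      (pd1 hw (cd (hE.sΓ i j _ (hI x))) (hw.pd l) t).2]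
    refine ⟨(m3.trans (mul_le_mul_of_nonneg_left a1 M0)).trans ?_, (mul1 m1 a2).trans ?_,
      ((abs_add_le _ _).trans (add_le_add (mul2 m2 (k x hx t t).2.1 a2 B0 (k2 x hx))
        (mul1 m1 a3))).trans ?_⟩
    · rw [← mul_assoc]
      exact mul_le_mul_of_nonneg_right (by linarith) (by positivity)
    · exact mul_le_mul_of_nonneg_right (by linarith) (by positivity)
    · rw [← add_mul]
      exact mul_le_mul_of_nonneg_right (by linarith) (by positivity)
  · have e1 : (fun y => K y i j) = fun y => ∑ t, Λ i j t (w y) * pd t w y :=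
      funext fun y => hE.ek y i j
    have d := fun t => pd1 hw (hE.sΛ i j t _ (hI x)) (hw.pd t) l
    rw [e1, hE.ek, pd_sum _ fun t _ => (d t).1]
    refine ⟨((Finset.abs_sum_le_sum_abs _ _).trans (Finset.sum_le_sum fun t _ =>
      mul1 (hM' (i, j, t) _ (hI x)).1 (k x hx t t).2.1)).trans ?_,
      ((Finset.abs_sum_le_sum_abs _ _).trans (Finset.sum_le_sum
        (g := fun _ => (M' * B * B + M' * B) * ‖x‖ ^ (-(q + 2))) fun t _ => ?_)).trans ?_⟩
    · rw [Finset.sum_const, Finset.card_fin, nsmul_eq_mul, ← mul_assoc]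
      exact mul_le_mul_of_nonneg_right (by linarith) (by positivity)
    · rw [(d t).2, add_mul]
      exact (abs_add_le _ _).trans (add_le_add (mul2 (hM' (i, j, t) _ (hI x)).2.1 (k x hx l l).2.1
        (k x hx t t).2.1 B0 (k2 x hx)) (mul1 (hM' (i, j, t) _ (hI x)).1 (k x hx t l).2.2))
    · rw [Finset.sum_const, Finset.card_fin, nsmul_eq_mul, ← mul_assoc]
      exact mul_le_mul_of_nonneg_right (by linarith) (by positivity)

end Vale.Agent.P366Y.B
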