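import Vale.Agent.P366Y.B.Defs
import Vale.Agent.P366Z.St0.Bub
import Vale.Agent.P366Z.Newt
import Vale.Agent.P366Z.Asy

/-!
# P366Y, block B: the potential of a source with zero mean
-/

open MeasureTheory Metric Filter Topology Set
open scoped ContDiff ENNReal
open Vale.Agent.P366.Stmt Vale.Agent.P366Z Vale.Agent.P366Z.St0

noncomputable section

namespace Vale.Agent.P366Y.B

namespace Np

variable {n : ℕ} {f w σ : E n → ℝ} {A q ρ : ℝ}

theorem pd_sc (hf : Smooth f) (c : ℝ) (i : Fin n) (x : E n) :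
    pd i (fun y => f (c • y)) x = c * pd i f (c • x) := by
  have h : HasFDerivAt (fun y => f (c • y)) _ x :=
    (hf.diff (c • x)).hasFDerivAt.comp x ((hasFDerivAt_id x).const_smul c)
  rw [pd_of_hasFDerivAt h, pd_eq (hf.diff _)]
  simp

theorem lap_sc (hf : Smooth f) (c : ℝ) (x : E n) :
    lap (eu n) (fun y => f (c • y)) x = c ^ 2 * lap (eu n) f (c • x) := by
  rw [lap_eu, lap_eu, Finset.mul_sum]
  refine Finset.sum_congr rfl fun i _ => ?_
  rw [show pd i (fun y => f (c • y)) = fun y => c * pd i f (c • y) from funext (pd_sc hf c i),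
    pd_const_mul, pd_sc (hf.pd i)]
  ring

theorem lap_pd (hf : Smooth f) (i : Fin n) (x : E n) :
    lap (eu n) (pd i f) x = pd i (lap (eu n) f) x := by
  rw [lap_eu, show lap (eu n) f = fun y => ∑ j, pd j (pd j f) y from funext (lap_eu f),
    pd_sum _ fun j _ => ((hf.pd j).pd j).diff x]
  refine Finset.sum_congr rfl fun j _ => ?_
  rw [show pd j (pd i f) = pd i (pd j f) from funext fun y => pd_comm (hf.c2 y) j i,
    pd_comm ((hf.pd j).c2 x)]

theorem bl (h : Lip f) {M : ℝ} (hM : ∀ x, |f x| ≤ M) : ∃ A, BL A f := by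
  obtain ⟨K, -, hK⟩ := h.le
  exact ⟨max M K, fun x => (hM x).trans (le_max_left _ _), fun x y =>
    (hK x y).trans (mul_le_mul_of_nonneg_right (le_max_right _ _) (norm_nonneg _))⟩

theorem wt {s t l e : ℝ} (hs : 0 < s) (ht : 0 < t) (hl : t ≤ l * s) (he : 0 ≤ e) :
    s ^ (-e) ≤ l ^ e * t ^ (-e) := by
  have l0 : 0 < l := pos_of_mul_pos_left (ht.trans_le hl) hs.le
  have h := Real.rpow_le_rpow_of_nonpos ht hl (neg_nonpos.2 he)
  rw [Real.mul_rpow l0.le hs.le, Real.rpow_neg l0.le,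
    inv_mul_le_iff₀ (Real.rpow_pos_of_pos l0 _)] at h
  exact h

/-- the gain of one derivative -/
theorem step (hf : Smooth f) (hρ : 0 < ρ) {N p : ℝ} (hN : 0 ≤ N) (hp : 0 ≤ p)
    (h0 : ∀ x, |f x| ≤ N * (ρ + ‖x‖) ^ (-p))
    (h2 : ∀ x, |lap (eu n) f x| ≤ N * (ρ + ‖x‖) ^ (-(p + 2))) (x : E n) (i : Fin n) :
    |pd i f x| ≤ 3 * (n + 1) * 2 ^ (p + 1) * N * (ρ + ‖x‖) ^ (-(p + 1)) := by
  have t0 : 0 < ρ + ‖x‖ := by positivity
  set s : ℝ := (ρ + ‖x‖) / 2 with hs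
  have s0 : 0 < s := by positivity
  have k0 := wt (l := 2) (e := p + 1) s0 t0 (by linarith) (by linarith)
  refine le_of_forall_pos_le_add fun ε hε => ?_
  have k := Nw.abs_pd_le' (f := fun y => f (y - -x)) (M := N * s ^ (-p))
    (S := N * s ^ (-(p + 2)) + ε / ((n + 1) * s)) s0 (by positivity) (by positivity)
    (fun y hy => by
      have a1 : s ≤ ρ + ‖y - -x‖ := by
        have := norm_sub_norm_le (-x) y
        rw [norm_neg, norm_sub_rev] at this
        linarith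
      refine ⟨(hf.c2 _).comp y (contDiffAt_id.sub contDiffAt_const), (h0 _).trans
        (mul_le_mul_of_nonneg_left (Real.rpow_le_rpow_of_nonpos s0 a1 (by linarith)) hN), ?_⟩
      rw [lap_eu_translate]
      exact ((h2 _).trans (mul_le_mul_of_nonneg_left
        (Real.rpow_le_rpow_of_nonpos s0 a1 (by linarith)) hN)).trans_lt
        (lt_add_of_pos_right _ (by positivity))) i
  have e1 : s ^ (-p) = s ^ (-(p + 1)) * s := by
    rw [← Real.rpow_add_one s0.ne']; congr 1; ring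
  have e2 : s ^ (-(p + 2)) = s ^ (-(p + 1)) / s := by
    rw [← Real.rpow_sub_one s0.ne']; congr 1; ring
  have e3 : (n + 1) * ((N * (s ^ (-(p + 1)) / s) + ε / ((n + 1) * s)) * s +
      2 * (N * (s ^ (-(p + 1)) * s)) / s) = 3 * (n + 1) * N * s ^ (-(p + 1)) + ε := by
    field_simp
    ring
  rw [pd_translate, zero_sub, neg_neg, e1, e2, e3] at k
  have k1 := mul_le_mul_of_nonneg_left k0 (by positivity : 0 ≤ 3 * (n + 1) * N)
  linarith

/-- the gain of two derivatives -/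
theorem two (n : ℕ) {p : ℝ} (hp : 0 ≤ p) : ∃ C > (0 : ℝ), ∀ (w : E n → ℝ) (ρ N : ℝ), Smooth w →
    0 < ρ → 0 ≤ N → (∀ x, |w x| ≤ N * (ρ + ‖x‖) ^ (-p)) →
    (∀ x, |lap (eu n) w x| ≤ N * (ρ + ‖x‖) ^ (-(p + 2))) →
    (∀ x i, |pd i (lap (eu n) w) x| ≤ N * (ρ + ‖x‖) ^ (-(p + 3))) → O2 (C * N) p ρ w := by
  have one : ∀ e : ℝ, 0 ≤ e → 1 ≤ 3 * (n + 1 : ℝ) * 2 ^ e := fun e he =>
    one_le_mul_of_one_le_of_one_le (by linarith [Nat.cast_nonneg (α := ℝ) n])
      (Real.one_le_rpow one_le_two he)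
  set a : ℝ := 3 * (n + 1) * 2 ^ (p + 1) with ha
  set b : ℝ := 3 * (n + 1) * 2 ^ (p + 1 + 1) with hb
  have a1 : 1 ≤ a := one _ (by linarith)
  have b1 : 1 ≤ b := one _ (by linarith)
  refine ⟨b * a, by positivity, fun w ρ N hw hρ hN h0 h2 h3 x i j => ?_⟩
  have k1 := step hw hρ hN hp h0 h2
  have n1 : N ≤ a * N := le_mul_of_one_le_left hN a1
  have n2 : a * N ≤ b * a * N :=
    (le_mul_of_one_le_left (by positivity) b1).trans_eq (mul_assoc b a N).symm
  have k2 := step (N := a * N) (p := p + 1) (hw.pd i) hρ (by positivity) (by linarith)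
    (fun y => k1 y i) (fun y => by
      rw [lap_pd hw, show p + 1 + 2 = p + 3 by ring]
      exact (h3 y i).trans (mul_le_mul_of_nonneg_right n1 (by positivity))) x j
  rw [← hb, ← mul_assoc, show p + 1 + 1 = p + 2 by ring] at k2
  exact ⟨(h0 x).trans (mul_le_mul_of_nonneg_right (n1.trans n2) (by positivity)),
    (k1 x i).trans (mul_le_mul_of_nonneg_right n2 (by positivity)), k2⟩

/-- the weight on the ball -/
theorem near (hn : 3 ≤ n) (hρ : 0 < ρ) (hA : 0 ≤ A) {k : ℝ} (k0 : 0 ≤ k) (k3 : k ≤ 3) {x : E n}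
    (hx : ‖x‖ ≤ 8 * ρ) : A * ρ ^ (-(q + k)) ≤
      9 ^ (n + 2 : ℝ) * (A * ρ ^ (n - 1 - q)) * (ρ + ‖x‖) ^ (-(n - 1 + k)) := by
  have n3 : (3 : ℝ) ≤ n := by exact_mod_cast hn
  have h := (wt (l := 9) (e := n - 1 + k) (t := ρ + ‖x‖) hρ (by positivity) (by linarith)
    (by linarith)).trans (mul_le_mul_of_nonneg_right (Real.rpow_le_rpow_of_exponent_le
      (z := (n + 2 : ℝ)) (by norm_num) (by linarith)) (by positivity))
  have e : ρ ^ (-(q + k)) = ρ ^ (n - 1 - q) * ρ ^ (-(n - 1 + k)) := by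
    rw [← Real.rpow_add hρ]; congr 1; ring
  have := mul_le_mul_of_nonneg_left h (by positivity : 0 ≤ A * ρ ^ (n - 1 - q))
  rw [e]
  linarith

/-- the solution that tends to zero -/
theorem sol (hS : SBI) (hn : 3 ≤ n) (hρ : 1 ≤ ρ) (hA : 0 ≤ A) (h : Src σ A q ρ) :
    ∃ w, Smooth w ∧ (∀ x, lap (eu n) w x = σ x) ∧
      (∀ x, |w x| ≤ 5 ^ ((n + 2 : ℝ) / 2) * (A * ρ ^ (-q))) ∧
      Tendsto w (cocompact (E n)) (𝓝 0) := by
  have n3 : (3 : ℝ) ≤ n := by exact_mod_cast hn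
  have ρ0 : 0 < ρ := by linarith
  obtain ⟨sb, -, ab, hb, -⟩ := bub0 n hn
  set c : ℝ := 5 ^ ((n + 2 : ℝ) / 2) * (A * ρ ^ (-q)) with hc
  have c0 : 0 ≤ c := by positivity
  set b : E n → ℝ := fun x => bub n (ρ⁻¹ • x) with hbb
  have s1 : Smooth b := ContDiff.comp sb (contDiff_id.const_smul ρ⁻¹)
  have l1 : Lip b := by
    obtain ⟨K, hK⟩ := lip_of_fderiv (u := bub n) (fun x => sb.diff x) (Bub.grad (by linarith))
    exact ⟨_, hK.comp (lipschitzWith_smul ρ⁻¹)⟩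
  have bb : ∀ s : ℝ, ∃ A, BL A fun x => s * b x := fun s => bl (l1.const_mul s) (M := |s|) fun x => by
    rw [abs_mul, abs_of_pos (hb _).1]
    exact mul_le_of_le_one_right (abs_nonneg _) (hb _).2.1
  have key : ∀ x, |σ x| ≤ -(c * lap (eu n) b x) := fun x => by
    have e : -(c * lap (eu n) b x) = c * ρ⁻¹ ^ 2 * (n * (n - 2) * src n (ρ⁻¹ • x)) := by
      rw [hbb, lap_sc sb, (hb _).2.2.2.2.1]; ring
    have p0 := (hb (ρ⁻¹ • x)).2.2.1
    rw [e]
    rcases le_total (2 * ρ) ‖x‖ with hx | hx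
    · rw [h.zero x (Or.inr hx), abs_zero]
      exact mul_nonneg (by positivity) (mul_nonneg (by nlinarith) p0.le)
    have a1 : ‖ρ⁻¹ • x‖ ≤ 2 := by
      rw [norm_smul, Real.norm_of_nonneg (by positivity), inv_mul_le_iff₀ ρ0]
      linarith
    have a2 : (5 : ℝ) ^ (-(n + 2 : ℝ) / 2) ≤ src n (ρ⁻¹ • x) :=
      Real.rpow_le_rpow_of_nonpos (Bub.pos _) (by nlinarith [norm_nonneg (ρ⁻¹ • x)]) (by linarith)
    have a3 : (5 : ℝ) ^ (-(n + 2 : ℝ) / 2) ≤ n * (n - 2) * src n (ρ⁻¹ • x) :=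
      a2.trans (le_mul_of_one_le_left p0.le (by nlinarith))
    have a4 : c * ρ⁻¹ ^ 2 * 5 ^ (-(n + 2 : ℝ) / 2) = A * ρ ^ (-(q + 2)) := by
      rw [hc, neg_div, Real.rpow_neg (by norm_num) (_ / 2), neg_add', Real.rpow_sub ρ0,
        Real.rpow_two]
      field_simp
    exact (h.d0 x).trans (a4.ge.trans (mul_le_mul_of_nonneg_left a3 (by positivity)))
  obtain ⟨w, hw, h1, h2⟩ := hS n σ (fun x => -c * b x) (fun x => c * b x) hn h.sm
    (bl (lip_of_const h.sm (R := 2 * ρ) fun y hy => h.zero y (Or.inr hy.le)) h.d0)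
    (ContDiff.mul contDiff_const s1) (ContDiff.mul contDiff_const s1) (bb _) (bb _)
    (fun x => mul_le_mul_of_nonneg_right (by linarith) (hb _).1.le)
    (fun x => by rw [lap_const_mul]; linarith [(abs_le.1 (key x)).2])
    (fun x => by rw [lap_const_mul]; linarith [(abs_le.1 (key x)).1])
  have h3 : ∀ x, |w x| ≤ c * b x := fun x => abs_le.2 ⟨by linarith [(h1 x).1], (h1 x).2⟩
  refine ⟨w, hw, h2, fun x => (h3 x).trans (mul_le_of_le_one_right c0 (hb _).2.1),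
    squeeze_zero_norm h3 ?_⟩
  have t : Tendsto b (cocompact (E n)) (𝓝 0) := (AsyF.lim1 hn ab).comp
    (Homeomorph.smulOfNeZero ρ⁻¹ (inv_pos.2 ρ0).ne').isClosedEmbedding.tendsto_cocompact
  simpa using t.const_mul c

/-- the monopole vanishes -/
theorem mono (hn : 3 ≤ n) (h : Src σ A q ρ) (hi : ∫ x, σ x = 0) (hw : Smooth w)
    (e : ∀ x, lap (eu n) w x = σ x) {β : ℝ} (ha : Asy w 0 β) : β = 0 := by
  obtain ⟨C, R, hC⟩ := ha
  have h1 := flux n (fun i => pd i w) (-((n - 2) * β)) hn hw.pd ⟨C, R, fun x hx i => by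
    rw [neg_mul, neg_mul, sub_neg_eq_add]
    exact (hC x hx).2 i⟩
  have h3 : ∀ᶠ r in atTop, 0 = ∫ x, cut r x * ∑ i, pd i (pd i w) x :=
    (eventually_ge_atTop (2 * ρ)).mono fun r hr => by
      rw [← hi]
      congr 1; ext x
      rw [← lap_eu, e]
      rcases le_total ‖x‖ r with k | k
      · rw [cut_one k, one_mul]
      · rw [h.zero x (Or.inr (hr.trans k)), mul_zero]
  have h4 := tendsto_nhds_unique (tendsto_const_nhds.congr' h3) h1
  have := (mul_eq_zero.1 h4.symm).resolve_right (omega_pos (by omega)).ne'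
  exact (mul_eq_zero.1 (neg_eq_zero.1 this)).resolve_left (nm2_pos hn).ne'

end Np

open Np in
theorem np_of (hS : SBI) : NP := by
  intro n hn
  have n3 : (3 : ℝ) ≤ n := by exact_mod_cast hn
  obtain ⟨C, hC⟩ := newt n hn
  obtain ⟨D, D0, hD⟩ := two n (p := n - 1) (by linarith)
  set K : ℝ := 5 ^ ((n + 2 : ℝ) / 2) with hK
  set G : ℝ := 9 ^ (n + 2 : ℝ) with hG
  have K1 : 1 ≤ K := Real.one_le_rpow (by norm_num) (by positivity)
  have G0 : 0 < G := by positivity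
  refine ⟨D * (K * (1 + |C|) * G), by positivity, fun σ A q ρ hρ hA h hi => ?_⟩
  have ρ0 : 0 < ρ := by linarith
  obtain ⟨w, hw, e, hb, hl⟩ := sol hS hn hρ hA h
  obtain ⟨β, ha, hf⟩ := hC w 0 (2 * ρ) (K * (A * ρ ^ (-q))) 0 (by linarith) hw (fun x hx => by
    rw [sub_zero, e, h.zero x (Or.inr hx), abs_zero, zero_mul]
    exact ⟨hb x, le_rfl⟩) hl
  obtain rfl := mono hn h hi hw e ha
  set N : ℝ := A * ρ ^ (n - 1 - q) with hN
  have N0 : 0 ≤ N := by positivity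
  have up : ∀ (k : ℝ) (x : E n), 0 ≤ k → k ≤ 3 → ∀ z : ℝ, |z| ≤ A * ρ ^ (-(q + k)) →
      (8 * ρ < ‖x‖ → z = 0) → |z| ≤ K * (1 + |C|) * G * N * (ρ + ‖x‖) ^ (-(n - 1 + k)) :=
    fun k x k0 k3 z hz h0 => by
      rcases le_or_gt ‖x‖ (8 * ρ) with hx | hx
      · refine hz.trans ((near hn ρ0 hA k0 k3 hx).trans ?_)
        rw [mul_assoc (K * _), mul_assoc (K * _)]
        exact le_mul_of_one_le_left (by positivity)
          (one_le_mul_of_one_le_of_one_le K1 (by linarith [abs_nonneg C]))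
      · rw [h0 hx, abs_zero]
        positivity
  refine ⟨w, hw, e, ?_⟩
  rw [mul_assoc, mul_assoc D]
  refine hD w ρ _ hw ρ0 (by positivity) (fun x => ?_) (fun x => ?_) fun x i => ?_
  · have t0 : 0 ≤ K * (G * N * (ρ + ‖x‖) ^ (-(n - 1 : ℝ))) := by positivity
    rcases le_total ‖x‖ (8 * ρ) with hx | hx
    · have k := near (q := q) hn ρ0 hA le_rfl (by norm_num) hx
      rw [add_zero, add_zero] at k
      have := (hb x).trans (mul_le_mul_of_nonneg_left k (by linarith))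
      nlinarith [abs_nonneg C]
    · have x0 : 0 < ‖x‖ := by linarith
      have k := hf x (by linarith)
      have k1 := wt (l := 2) (e := n - 1) (t := ρ + ‖x‖) x0 (by positivity) (by linarith)
        (by linarith)
      have k2 : (2 : ℝ) ^ (n - 1 : ℝ) * 2 ^ (n - 1 : ℝ) ≤ G := by
        rw [← Real.mul_rpow zero_le_two zero_le_two]
        exact (Real.rpow_le_rpow (by norm_num) (by norm_num) (by linarith)).trans
          (Real.rpow_le_rpow_of_exponent_le (x := 9) (by norm_num) (by linarith))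
      have k3 : K * (A * ρ ^ (-q)) * (2 * ρ / ‖x‖) ^ (n - 1 : ℝ) =
          K * N * 2 ^ (n - 1 : ℝ) * ‖x‖ ^ (-(n - 1 : ℝ)) := by
        rw [hN, Real.div_rpow (by linarith) x0.le, Real.mul_rpow zero_le_two ρ0.le,
          Real.rpow_neg x0.le, sub_eq_add_neg _ q, Real.rpow_add ρ0]
        ring
      have k4 : K * N * 2 ^ (n - 1 : ℝ) * ‖x‖ ^ (-(n - 1 : ℝ)) ≤
          K * (G * N * (ρ + ‖x‖) ^ (-(n - 1 : ℝ))) :=
        calc _ ≤ K * N * 2 ^ (n - 1 : ℝ) * (2 ^ (n - 1 : ℝ) * (ρ + ‖x‖) ^ (-(n - 1 : ℝ))) := by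
              gcongr
          _ = K * (2 ^ (n - 1 : ℝ) * 2 ^ (n - 1 : ℝ) * N * (ρ + ‖x‖) ^ (-(n - 1 : ℝ))) := by ring
          _ ≤ _ := by gcongr
      rw [sub_zero, zero_mul, sub_zero, add_zero, mul_assoc, k3] at k
      have k5 := k.trans ((mul_le_mul_of_nonneg_right (le_abs_self C) (by positivity)).trans
        (mul_le_mul_of_nonneg_left k4 (abs_nonneg C)))
      linarith
  · rw [e]
    exact up 2 x (by norm_num) (by norm_num) _ (h.d0 x) fun hx => h.zero x (Or.inr (by linarith))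
  · rw [funext e]
    exact up 3 x (by norm_num) le_rfl _ (h.d1 x i) fun hx =>
      pd_zero_of_out (R := 2 * ρ) (fun y hy => h.zero y (Or.inr hy)) (by linarith) i

end Vale.Agent.P366Y.B
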