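import Vale.Agent.P366Y.B.Defs
import Vale.Agent.P366Z.St0.Cutm

/-!
# P366Y, block B: the potential that is cut off and the tensor of a vector field
-/

open MeasureTheory Metric Filter Topology Set
open scoped ContDiff ENNReal
open Vale.Agent.P366.Stmt Vale.Agent.P366Z Vale.Agent.P366Z.St0
open Vale.Agent.P366Y.A (Sy B0 Bk ck mg)

noncomputable section

namespace Vale.Agent.P366Y.B

namespace Np2

open Cutm (mulb rp1 rp2 cut_bd)

variable {n : ℕ} {z w : E n → ℝ} {Y : Fin n → E n → ℝ}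

theorem pd_m (hz : Smooth z) (hw : Smooth w) (i : Fin n) :
    pd i (fun y => z y * w y) = fun x => pd i z x * w x + z x * pd i w x :=
  funext fun x => pd_mul (hz.diff x) (hw.diff x) i

theorem pd_mm (hz : Smooth z) (hw : Smooth w) (i j : Fin n) (x : E n) :
    pd j (pd i fun y => z y * w y) x = pd j (pd i z) x * w x + pd i z x * pd j w x +
      (pd j z x * pd i w x + z x * pd j (pd i w) x) := by
  have h1 := (hz.pd i).diff x
  have h4 := (hw.pd i).diff x
  rw [pd_m hz hw, pd_add (h1.fun_mul (hw.diff x)) ((hz.diff x).fun_mul h4), pd_mul h1 (hw.diff x),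
    pd_mul (hz.diff x) h4]

theorem cut_in {r : ℝ} {x : E n} (hx : ‖x‖ < r) (i j : Fin n) : pd j (pd i (cut r)) x = 0 := by
  have e : pd i (cut r) =ᶠ[𝓝 x] fun _ => (0 : ℝ) := by
    filter_upwards [(isOpen_lt continuous_norm continuous_const).mem_nhds hx] with y hy
    exact pd_cut_in hy i
  rw [pd_congr e, pd_const]

theorem cut_b (n : ℕ) : ∃ c > (0 : ℝ), ∀ ρ r : ℝ, 0 < ρ → ρ ≤ r → ∀ (x : E n) i j,
    |pd i (cut r) x| ≤ c * (ρ + ‖x‖)⁻¹ ∧ |pd j (pd i (cut r)) x| ≤ c * (ρ + ‖x‖)⁻¹ ^ 2 := by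
  obtain ⟨c, hc, h⟩ := cut_bd n
  refine ⟨4 * c, by positivity, fun ρ r h0 hr x i j => ?_⟩
  have s0 : 0 < ρ + ‖x‖ := by positivity
  rcases lt_or_ge ‖x‖ r with hx | hx
  · rw [pd_cut_in hx, cut_in hx, abs_zero]
    exact ⟨by positivity, by positivity⟩
  obtain ⟨h1, h2⟩ := h r (h0.trans_le hr) x i j
  rw [abs_mul, abs_norm] at h1
  rw [abs_mul, abs_of_nonneg (sq_nonneg _)] at h2
  have h3 : ρ + ‖x‖ ≤ 2 * ‖x‖ := by linarith
  have h4 : (ρ + ‖x‖) ^ 2 ≤ (2 * ‖x‖) ^ 2 := by gcongr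
  rw [inv_pow, le_mul_inv_iff₀ s0, le_mul_inv_iff₀ (pow_pos s0 2)]
  exact ⟨by linarith [mul_le_mul_of_nonneg_left h3 (abs_nonneg (pd i (cut r) x))],
    by linarith [mul_le_mul_of_nonneg_left h4 (abs_nonneg (pd j (pd i (cut r)) x))]⟩

theorem pd_comb (hY : ∀ j, Smooth (Y j)) (d : ℝ) (i j k : Fin n) (x : E n) :
    pd k (fun y => pd i (Y j) y + pd j (Y i) y - d * ∑ l, pd l (Y l) y) x =
      pd k (pd i (Y j)) x + pd k (pd j (Y i)) x - d * ∑ l, pd k (pd l (Y l)) x := by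
  have h : ∀ i j, DifferentiableAt ℝ (pd i (Y j)) x := fun i j => ((hY j).pd i).diff x
  rw [pd_sub ((h i j).fun_add (h j i)) ((DifferentiableAt.fun_sum fun l _ => h l l).const_mul d),
    pd_add (h i j) (h j i), pd_const_mul, pd_sum _ fun l _ => h l l]

theorem comb {a b d β : ℝ} {s : Fin n → ℝ} (ha : |a| ≤ β) (hb : |b| ≤ β) (hd : |d| ≤ 1)
    (hs : ∀ l, |s l| ≤ β) : |a + b - d * ∑ l, s l| ≤ (2 + n) * β := by
  have h1 : |∑ l, s l| ≤ n * β := by
    refine (Finset.abs_sum_le_sum_abs _ _).trans ((Finset.sum_le_sum fun l _ => hs l).trans_eq ?_)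
    simp
  linarith [mulb hd h1, abs_sub (a + b) (d * ∑ l, s l), abs_add_le a b]

theorem ky_eq (Y : Fin n → E n → ℝ) (i j : Fin n) : (fun y => ky Y y i j) = fun y =>
    pd i (Y j) y + pd j (Y i) y - eu n 0 i j / (n - 1) * ∑ l, pd l (Y l) y := by
  funext y
  change _ - _ * eu n 0 i j = _
  ring

theorem pe_eq (hn : 3 ≤ n) (Y : Fin n → E n → ℝ) (i j : Fin n) : (fun y => pe (ky Y) y i j) =
    fun y => pd i (Y j) y + pd j (Y i) y - eu n 0 i j * ∑ l, pd l (Y l) y := by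
  have h : (n : ℝ) - 1 ≠ 0 := by
    have : (3 : ℝ) ≤ n := by exact_mod_cast hn
    linarith
  funext y
  simp only [pe, ky, eu, if_true, mul_one, Finset.sum_sub_distrib, Finset.sum_add_distrib,
    Finset.sum_const, Finset.card_univ, Fintype.card_fin, nsmul_eq_mul]
  field_simp
  ring

end Np2

open Np2 Cutm

/-- **KY** -/
theorem ky0 : KY := by
  intro n hn
  have hn' : (3 : ℝ) ≤ n := by exact_mod_cast hn
  have hd : ∀ i j, |eu n 0 i j / (n - 1)| ≤ 1 := fun i j => by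
    rw [abs_div, abs_of_pos (show (0 : ℝ) < n - 1 by linarith), div_le_one (by linarith)]
    unfold eu
    split_ifs
    · rw [abs_one]; linarith
    · rw [abs_zero]; linarith
  refine ⟨2 + n, by positivity, fun Y hY => ⟨⟨fun i j => ?_, fun x i j => ?_⟩, fun j x => ?_,
    fun B q ρ _ h x i j k => ⟨?_, ?_⟩⟩⟩
  · rw [ky_eq]
    exact ContDiff.sub (ContDiff.add ((hY j).pd i) ((hY i).pd j))
      (contDiff_const.mul (ContDiff.sum fun l _ => (hY l).pd l))
  · simp only [ky, met_eu.sy x i j, add_comm]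
  · simp only [lj, pe_eq hn, pd_comb hY, lap_eu]
    simp only [Finset.sum_sub_distrib, Finset.sum_add_distrib, eu, ite_mul, one_mul, zero_mul,
      Finset.sum_ite_eq', Finset.mem_univ, if_true]
    rw [Finset.sum_congr rfl fun l _ => pd_comm ((hY l).c2 x) l j]
    ring
  · rw [congrFun (ky_eq Y i j) x, mul_assoc]
    exact comb (h j x i i).2.1 (h i x j j).2.1 (hd i j) fun l => (h l x l l).2.1
  · rw [ky_eq, pd_comb hY, mul_assoc]
    exact comb (h j x i k).2.2 (h i x j k).2.2 (hd i j) fun l => (h l x l k).2.2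

/-- **NP2** -/
theorem np2_of (hN : NP) : NP2 := by
  intro n q q' hn _ q1 _ q3
  obtain ⟨C, hC, hN⟩ := hN n hn
  obtain ⟨c, hc, hb⟩ := cut_b n
  refine ⟨(1 + 3 * c) * C, by positivity, fun A ρ τ h1 A0 τ0 => ?_⟩
  have ρ0 : 0 < ρ := by linarith
  have t1 : Tendsto (fun t : ℝ => n * (3 * c * (C * A * ρ ^ (n - 1 - q))) * t ^ (-(1 - q'))) atTop
      (𝓝 0) := by
    simpa only [mul_zero] using (tendsto_rpow_neg_atTop (sub_pos.2 q3)).const_mul
      (n * (3 * c * (C * A * ρ ^ (n - 1 - q))))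
  obtain ⟨T₁, hT₁⟩ := eventually_atTop.1 (t1.eventually (ge_mem_nhds τ0))
  refine ⟨max (4 * ρ) (2 * T₁), fun T hT σ hσ hi => ?_⟩
  obtain ⟨T1, T2⟩ := max_le_iff.1 hT
  obtain ⟨w, hw, hl, ho⟩ := hN σ A q ρ h1 A0 hσ hi
  have hz := sm_cut (n := n) (T / 2)
  have c0 : ∀ x : E n, |cut (T / 2) x| ≤ 1 := fun x =>
    abs_le.2 ⟨by linarith [cut_nonneg (T / 2) x], cut_le_one _ x⟩
  replace hb := hb ρ (T / 2) ρ0 (by linarith)
  refine ⟨fun y => cut (T / 2) y * w y, ContDiff.mul hz hw, fun x hx => ?_, fun x => ?_,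
    fun x i j => ?_⟩
  · exact mul_eq_zero_of_left (cut_zero (by linarith) (by linarith)) _
  · have e : lap (eu n) (fun y => cut (T / 2) y * w y) x - σ x =
        ∑ i, (pd i (pd i (cut (T / 2))) x * w x + pd i (cut (T / 2)) x * pd i w x +
          pd i (cut (T / 2)) x * pd i w x) := by
      have e1 : cut (T / 2) x * σ x = σ x := by
        rcases le_total ‖x‖ (T / 2) with h | h
        · rw [cut_one h, one_mul]
        · rw [hσ.zero x (Or.inr (by linarith)), mul_zero]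
      rw [← e1, ← hl, lap_eu, lap_eu, Finset.mul_sum, ← Finset.sum_sub_distrib]
      exact Finset.sum_congr rfl fun i _ => by rw [pd_mm hz hw]; ring
    have m0 : 0 < 1 + ‖x‖ := by positivity
    have s0 : 0 < ρ + ‖x‖ := by positivity
    rw [e]
    rcases lt_or_ge ‖x‖ (T / 2) with h | h
    · simp only [pd_cut_in h, cut_in h, zero_mul, add_zero, Finset.sum_const_zero, abs_zero, mg]
      positivity
    have k : ∀ i, |pd i (pd i (cut (T / 2))) x * w x + pd i (cut (T / 2)) x * pd i w x +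
        pd i (cut (T / 2)) x * pd i w x| ≤
          3 * c * (C * A * ρ ^ (n - 1 - q)) * (ρ + ‖x‖) ^ (-((n : ℝ) - 1 + 2)) := fun i => by
      obtain ⟨o0, o1, -⟩ := ho x i i
      rw [rp1 s0] at o1
      rw [rp2 s0]
      refine (abs_add_three _ _ _).trans ?_
      linarith [mulb (hb x i i).2 o0, mulb (hb x i i).1 o1]
    have k1 : (ρ + ‖x‖) ^ (-((n : ℝ) - 1 + 2)) ≤ (1 + ‖x‖) ^ (-(1 - q')) * mg q' x := by
      rw [mg, ← Real.rpow_add m0, show -(1 - q') + -(n + q') = -((n : ℝ) - 1 + 2) by ring]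
      exact Real.rpow_le_rpow_of_nonpos m0 (by linarith) (by linarith [n.cast_nonneg (α := ℝ)])
    have k2 := mul_le_mul_of_nonneg_right (hT₁ (1 + ‖x‖) (by linarith))
      (show 0 ≤ mg q' x from Real.rpow_nonneg m0.le _)
    have k3 := mul_le_mul_of_nonneg_left k1
      (show 0 ≤ n * (3 * c * (C * A * ρ ^ (n - 1 - q))) by positivity)
    refine (Finset.abs_sum_le_sum_abs _ _).trans ((Finset.sum_le_sum fun i _ => k i).trans ?_)
    rw [Finset.sum_const, Finset.card_univ, Fintype.card_fin, nsmul_eq_mul]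
    linarith
  · have s0 : 0 < ρ + ‖x‖ := by positivity
    have k : C * A * ρ ^ (n - 1 - q) * (ρ + ‖x‖) ^ (-((n : ℝ) - 1)) ≤
        C * A * (ρ + ‖x‖) ^ (-q) := by
      rw [mul_assoc (C * A), show -q = n - 1 - q + -((n : ℝ) - 1) by ring, Real.rpow_add s0]
      gcongr
      linarith [norm_nonneg x]
    have i0 : 0 ≤ (ρ + ‖x‖)⁻¹ := by positivity
    have o0 := (ho x i j).1.trans k
    have o1 : ∀ i, |pd i w x| ≤ C * A * (ρ + ‖x‖) ^ (-q) * (ρ + ‖x‖)⁻¹ := fun i => by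
      have o := (ho x i i).2.1
      rw [rp1 s0] at o
      linarith [mul_le_mul_of_nonneg_right k i0]
    have o2 : |pd j (pd i w) x| ≤ C * A * (ρ + ‖x‖) ^ (-q) * (ρ + ‖x‖)⁻¹ ^ 2 := by
      have o := (ho x i j).2.2
      rw [rp2 s0] at o
      linarith [mul_le_mul_of_nonneg_right k (sq_nonneg (ρ + ‖x‖)⁻¹)]
    have p0 : 0 ≤ c * (C * A * (ρ + ‖x‖) ^ (-q)) := by positivity
    have p1 := mul_nonneg p0 i0
    rw [rp1 s0, rp2 s0, pd_mm hz hw, pd_m hz hw]
    refine ⟨?_, (abs_add_le _ _).trans ?_,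
      (abs_add_le _ _).trans ((add_le_add (abs_add_le _ _) (abs_add_le _ _)).trans ?_)⟩
    · linarith [mulb (c0 x) o0]
    · linarith [mulb (hb x i i).1 o0, mulb (c0 x) (o1 i)]
    · linarith [mulb (hb x i j).2 o0, mulb (hb x i i).1 (o1 j), mulb (hb x j j).1 (o1 i),
        mulb (c0 x) o2]

end Vale.Agent.P366Y.B
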