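import Vale.Agent.P366Y.B.Defs

/-!
# P366Y, block B: small perturbations on a ball (row PERT)
-/

open MeasureTheory Metric Filter Topology Set
open scoped ContDiff ENNReal
open Vale.Agent.P366.Stmt Vale.Agent.P366Z Vale.Agent.P366Z.St0
open Vale.Agent.P366Y.A (Sy)

noncomputable section

namespace Vale.Agent.P366Y.B

namespace PertX

section Ow

variable {α : Type} {e a b f h : α → ℝ}

/-- `f` is bounded by a multiple of `e` -/
def Ow (e f : α → ℝ) : Prop := ∃ M ≥ (0 : ℝ), ∀ p, |f p| ≤ M * e p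

theorem Ow.add (hf : Ow e f) (hh : Ow e h) : Ow e fun p => f p + h p := by
  obtain ⟨M, m, k⟩ := hf
  obtain ⟨M', m', k'⟩ := hh
  exact ⟨M + M', by positivity, fun p => (abs_add_le _ _).trans (by linarith [k p, k' p])⟩

theorem Ow.sub (hf : Ow e f) (hh : Ow e h) : Ow e fun p => f p - h p := by
  obtain ⟨M, m, k⟩ := hf
  obtain ⟨M', m', k'⟩ := hh
  exact ⟨M + M', by positivity, fun p => (abs_sub _ _).trans (by linarith [k p, k' p])⟩

theorem Ow.abs (hf : Ow e f) : Ow e fun p => |f p| := by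
  simpa only [Ow, abs_abs] using hf

theorem Ow.sum {ι : Type} [Fintype ι] {F : ι → α → ℝ} (hF : ∀ i, Ow e (F i)) :
    Ow e fun p => ∑ i, F i p := by
  choose M m k using hF
  refine ⟨∑ i, M i, Finset.sum_nonneg fun i _ => m i, fun p =>
    (Finset.abs_sum_le_sum_abs _ _).trans ?_⟩
  rw [Finset.sum_mul]
  exact Finset.sum_le_sum fun i _ => k i p

theorem Ow.mul (hf : Ow a f) (hh : Ow b h) : Ow (fun p => a p * b p) fun p => f p * h p := by
  obtain ⟨M, m, k⟩ := hf
  obtain ⟨M', m', k'⟩ := hh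
  refine ⟨M * M', by positivity, fun p => ?_⟩
  rw [abs_mul]
  exact (mul_le_mul (k p) (k' p) (abs_nonneg _) ((abs_nonneg _).trans (k p))).trans_eq (by ring)

theorem Ow.ml (hf : Ow (fun _ => 1) f) (hh : Ow e h) : Ow e fun p => f p * h p := by
  simpa only [one_mul] using hf.mul hh

theorem Ow.mr (hf : Ow e f) (hh : Ow (fun _ => 1) h) : Ow e fun p => f p * h p := by
  simpa only [mul_one] using hf.mul hh

theorem Ow.one (hf : Ow e f) (he : ∀ p, e p ≤ 1) : Ow (fun _ => 1) f := by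
  obtain ⟨M, m, k⟩ := hf
  exact ⟨M, m, fun p => (k p).trans (mul_le_mul_of_nonneg_left (he p) m)⟩

theorem Ow.sqrt (hf : Ow (fun p => e p * e p) f) (he : ∀ p, 0 ≤ e p) : Ow e fun p => √(f p) := by
  obtain ⟨M, m, k⟩ := hf
  refine ⟨√M, Real.sqrt_nonneg _, fun p => ?_⟩
  rw [abs_of_nonneg (Real.sqrt_nonneg _), ← Real.sqrt_mul_self (he p), ← Real.sqrt_mul m]
  exact Real.sqrt_le_sqrt ((le_abs_self _).trans (k p))

theorem Ow.of_le (k : ∀ p, |f p| ≤ e p) : Ow e f := ⟨1, zero_le_one, fun p => by simpa using k p⟩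

theorem Ow.mono (hh : Ow e h) (k : ∀ p, |f p| ≤ h p) : Ow e f := by
  obtain ⟨M, m, k'⟩ := hh
  exact ⟨M, m, fun p => (k p).trans ((le_abs_self _).trans (k' p))⟩

end Ow

variable {n : ℕ} {g K Z : Field n} {F : E n → ℝ} {r : ℝ} {x : E n}

/-- the admissible perturbations -/
structure Pt (n : ℕ) (r : ℝ) where
  Z : Field n
  w : E n → ℝ
  e : ℝ
  x : E n
  hZ : Sy Z
  hw : Smooth w
  e0 : 0 ≤ e
  e1 : e ≤ 1
  hx : ‖x‖ ≤ r
  bZ : ∀ i j k, |Z x i j| ≤ e ∧ |pd k (fun y => Z y i j) x| ≤ e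
  bw : ∀ i j, |pd i w x| ≤ e ∧ |pd j (pd i w) x| ≤ e

theorem ct {c : E n → ℝ} (hc : Smooth c) : Ow (fun _ => 1) fun p : Pt n r => c p.x := by
  obtain ⟨M, hM⟩ := (isCompact_closedBall (0 : E n) r).exists_bound_of_continuousOn
    hc.cont.continuousOn
  exact ⟨|M|, abs_nonneg _, fun p => by
    simpa using (hM p.x (mem_closedBall_zero_iff.2 p.hx)).trans (le_abs_self M)⟩

theorem oZ (i j : Fin n) : Ow Pt.e fun p : Pt n r => p.Z p.x i j :=
  .of_le fun p => (p.bZ i j i).1

theorem odZ (i j k : Fin n) : Ow Pt.e fun p : Pt n r => pd k (fun y => p.Z y i j) p.x :=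
  .of_le fun p => (p.bZ i j k).2

theorem ow1 (i : Fin n) : Ow Pt.e fun p : Pt n r => pd i p.w p.x := .of_le fun p => (p.bw i i).1

theorem ow2 (i j : Fin n) : Ow Pt.e fun p : Pt n r => pd j (pd i p.w) p.x :=
  .of_le fun p => (p.bw i j).2

theorem cov (hg : Met g) {m : Fin n → Pt n r → ℝ} (hm : ∀ i, Ow Pt.e (m i)) :
    Ow Pt.e fun p : Pt n r => √(∑ i, ∑ j, up g i j p.x * m i p * m j p) :=
  Ow.sqrt (.sum fun i => .sum fun j => ((ct (hg.sm_up i j)).ml (hm i)).mul (hm j)) Pt.e0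

theorem sm_tr (hg : Met g) (hK : Sy K) : Smooth (tr g K) :=
  ContDiff.sum fun i _ => ContDiff.sum fun j _ => ContDiff.mul (hg.sm_up i j) (hK.sm i j)

theorem sm_T (hg : Met g) (hK : Sy K) (i j : Fin n) : Smooth fun y => momT g K y i j :=
  ContDiff.sub (hK.sm i j) (ContDiff.mul (sm_tr hg hK) (hg.sm i j))

theorem tr_add (g K Z : Field n) (x : E n) : tr g (K + Z) x = tr g K x + tr g Z x := by
  simp only [tr, Pi.add_apply, mul_add, Finset.sum_add_distrib]

theorem T_add (g K Z : Field n) (x : E n) (i j : Fin n) :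
    momT g (K + Z) x i j = momT g K x i j + momT g Z x i j := by
  simp only [momT, tr_add, Pi.add_apply]
  ring

theorem mom_add (hg : Met g) (hK : Sy K) (hZ : Sy Z) (j : Fin n) (x : E n) :
    mom g (K + Z) j x = mom g K j x + mom g Z j x := by
  simp only [mom, T_add, pd_add ((sm_T hg hK _ _).diff x) ((sm_T hg hZ _ _).diff x),
    ← Finset.sum_add_distrib]
  refine Finset.sum_congr rfl fun i _ => Finset.sum_congr rfl fun k _ => ?_
  simp only [mul_add, Finset.sum_add_distrib]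
  ring

theorem cov_add (hg : Met g) {a b c : Fin n → E n → ℝ} (h : ∀ i, c i x = a i x + b i x) :
    covNorm g c x ≤ covNorm g a x + covNorm g b x := by
  have h1 := Real.sq_sqrt (hg.up_nonneg x fun i => a i x)
  have h2 := Real.sq_sqrt (hg.up_nonneg x fun i => b i x)
  have h3 : ∑ i, ∑ j, up g i j x * a i x * b j x ≤ covNorm g a x * covNorm g b x := by
    refine (abs_le_of_sq_le_sq' ?_ (mul_nonneg (Real.sqrt_nonneg _) (Real.sqrt_nonneg _))).2
    rw [mul_pow, h1, h2]
    exact hg.up_cs x _ _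
  have h4 : ∑ i, ∑ j, up g i j x * b i x * a j x = ∑ i, ∑ j, up g i j x * a i x * b j x := by
    rw [Finset.sum_comm]
    exact Finset.sum_congr rfl fun i _ => Finset.sum_congr rfl fun j _ => by
      rw [hg.up_sy]; ring
  refine Real.sqrt_le_iff.2 ⟨add_nonneg (Real.sqrt_nonneg _) (Real.sqrt_nonneg _), ?_⟩
  simp only [h, mul_add, add_mul, Finset.sum_add_distrib]
  unfold covNorm at h3 ⊢
  rw [add_sq, h1, h2, h4]
  linarith

theorem nrm_le (hg : Met g) (F : E n → ℝ) (i : Fin n) (x : E n) :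
    |nrm g F i x| ≤ 1 + |up g i i x| := by
  have h1 := hg.up_cs x (Pi.single i 1) fun j => pd j F x
  have h2 : nrm g F i x ^ 2 ≤ |up g i i x| := by
    show (gr g F i x / gn g F x) ^ 2 ≤ _
    rw [div_pow, hg.gn_sq]
    refine div_le_of_le_mul₀ (hg.ip_nonneg F x) (abs_nonneg _) (le_trans ?_
      (mul_le_mul_of_nonneg_right (le_abs_self _) (hg.ip_nonneg F x)))
    simpa [Pi.single_apply, gr, ip] using h1
  rw [← sq_abs] at h2
  nlinarith [abs_nonneg (nrm g F i x), abs_nonneg (up g i i x)]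

theorem otr (hg : Met g) : Ow Pt.e fun p : Pt n r => tr g p.Z p.x :=
  .sum fun i => .sum fun j => (ct (hg.sm_up i j)).ml (oZ i j)

theorem oT (hg : Met g) (i j : Fin n) : Ow Pt.e fun p : Pt n r => momT g p.Z p.x i j :=
  (oZ i j).sub ((otr hg).mr (ct (hg.sm i j)))

theorem odtr (hg : Met g) (k : Fin n) : Ow Pt.e fun p : Pt n r => pd k (tr g p.Z) p.x := by
  have e : ∀ p : Pt n r, pd k (tr g p.Z) p.x = ∑ i, ∑ j, (pd k (up g i j) p.x * p.Z p.x i j +
      up g i j p.x * pd k (fun y => p.Z y i j) p.x) := fun p => by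
    have d : ∀ i j, DifferentiableAt ℝ (fun y => up g i j y * p.Z y i j) p.x := fun i j =>
      ((hg.sm_up i j).diff _).fun_mul ((p.hZ.sm i j).diff _)
    refine (pd_sum _ (fun i _ => DifferentiableAt.fun_sum fun j _ => d i j) k).trans
      (Finset.sum_congr rfl fun i _ => (pd_sum _ (fun j _ => d i j) k).trans
        (Finset.sum_congr rfl fun j _ => ?_))
    exact pd_mul ((hg.sm_up i j).diff _) ((p.hZ.sm i j).diff _) k
  simp only [e]
  exact .sum fun i => .sum fun j => ((ct ((hg.sm_up i j).pd k)).ml (oZ i j)).add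
    ((ct (hg.sm_up i j)).ml (odZ i j k))

theorem odT (hg : Met g) (i j k : Fin n) :
    Ow Pt.e fun p : Pt n r => pd k (fun y => momT g p.Z y i j) p.x := by
  have e : ∀ p : Pt n r, pd k (fun y => momT g p.Z y i j) p.x = pd k (fun y => p.Z y i j) p.x -
      (pd k (tr g p.Z) p.x * g p.x i j + tr g p.Z p.x * pd k (fun y => g y i j) p.x) := fun p => by
    rw [← pd_mul ((sm_tr hg p.hZ).diff _) ((hg.sm i j).diff _)]
    exact pd_sub ((p.hZ.sm i j).diff _)
      (((sm_tr hg p.hZ).diff _).fun_mul ((hg.sm i j).diff _)) k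
  simp only [e]
  exact (odZ i j k).sub (((odtr hg k).mr (ct (hg.sm i j))).add
    ((otr hg).mr (ct ((hg.sm i j).pd k))))

theorem omom (hg : Met g) : Ow Pt.e fun p : Pt n r => covNorm g (mom g p.Z) p.x :=
  cov hg (m := fun j p => mom g p.Z j p.x) fun j => .sum fun i => .sum fun k =>
    (ct (hg.sm_up i k)).ml ((odT hg i j k).sub (.sum fun l =>
      ((ct (hg.sm_chr l k i)).ml (oT hg l j)).add ((ct (hg.sm_chr l k j)).ml (oT hg i l))))

theorem omu (hg : Met g) (hK : Sy K) :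
    Ow Pt.e fun p : Pt n r => 2 * (mu g (K + p.Z) p.x - mu g K p.x) := by
  have e : ∀ p : Pt n r, 2 * (mu g (K + p.Z) p.x - mu g K p.x) =
      (tr g K p.x + tr g K p.x + tr g p.Z p.x) * tr g p.Z p.x - ∑ i, ∑ j, ∑ k, ∑ l,
        up g i k p.x * up g j l p.x * ((K p.x i j + p.Z p.x i j) * p.Z p.x k l +
          p.Z p.x i j * K p.x k l) := fun p => by
    simp only [mu, normSq, tr_add, Pi.add_apply, mul_add, add_mul, Finset.sum_add_distrib,
      mul_assoc]
    ring
  simp only [e]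
  exact ((((ct (sm_tr hg hK)).add (ct (sm_tr hg hK))).add ((otr hg).one Pt.e1)).ml (otr hg)).sub
    (.sum fun i => .sum fun j => .sum fun k => .sum fun l =>
      ((ct (hg.sm_up i k)).ml (ct (hg.sm_up j l))).ml ((((ct (hK.sm i j)).add
        ((oZ i j).one Pt.e1)).ml (oZ k l)).add ((oZ i j).mr (ct (hK.sm k l)))))

theorem ons (hg : Met g) (hK : Sy K) :
    Ow (fun _ => 1) fun p : Pt n r => √(normSq g (K + p.Z) p.x) := by
  have h : ∀ i j, Ow (fun _ => 1) fun p : Pt n r => (K + p.Z) p.x i j := fun i j =>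
    (ct (hK.sm i j)).add ((oZ i j).one Pt.e1)
  exact Ow.sqrt (.sum fun i => .sum fun j => .sum fun k => .sum fun l =>
    (((ct (hg.sm_up i k)).ml (ct (hg.sm_up j l))).ml (h i j)).mul (h k l)) fun _ => zero_le_one

theorem olap (hg : Met g) : Ow Pt.e fun p : Pt n r => lap g p.w p.x := by
  have e : ∀ p : Pt n r, lap g p.w p.x = tr g (hess g p.w) p.x := fun p =>
    hg.lap_eq_tr (p.hw.c2 _)
  simp only [e]
  exact .sum fun i => .sum fun j => (ct (hg.sm_up i j)).ml ((ow2 j i).sub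
    (.sum fun k => (ct (hg.sm_chr k i j)).ml (ow1 k)))

theorem otrS (hg : Met g) (F : E n → ℝ) : Ow Pt.e fun p : Pt n r => trS g p.Z F p.x := by
  have h : ∀ i, Ow (fun _ => 1) fun p : Pt n r => nrm g F i p.x := fun i =>
    ((ct (c := fun _ => 1) contDiff_const).add (ct (hg.sm_up i i)).abs).mono
      fun p => nrm_le hg F i p.x
  exact (otr hg).sub (.sum fun i => .sum fun j => ((oZ i j).mr (h i)).mr (h j))

theorem th_add (g K Z : Field n) (F : E n → ℝ) (x : E n) :
    thetaPlus g (K + Z) F x = thetaPlus g K F x + trS g Z F x := by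
  simp only [thetaPlus, trS, tr_add, Pi.add_apply, add_mul, Finset.sum_add_distrib]
  ring

end PertX

open PertX

theorem pert : PERT := by
  intro n g K F r hg hK hF
  have ogn : Ow Pt.e fun p : Pt n r => gn g p.w p.x := cov hg (m := fun i p => pd i p.w p.x) ow1
  have oip : Ow Pt.e fun p : Pt n r => ip g p.w F p.x :=
    .sum fun i => .sum fun j => ((ct (hg.sm_up i j)).ml (ow1 i)).mr (ct (hF.pd j))
  have oF : Ow (fun _ => 1) fun p : Pt n r => gn g F p.x :=
    Ow.sqrt ((ct (hg.sm_ip hF hF)).mul (ct (c := fun _ => 1) contDiff_const) |>.mono fun p => by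
      rw [mul_one, abs_of_nonneg (hg.ip_nonneg F p.x)]) fun _ => zero_le_one
  obtain ⟨M, m, h⟩ := (((((omom (r := r) hg).abs.add (omu hg hK).abs).add (olap hg).abs).add
    ogn.abs).add (otrS hg F).abs).add oip.abs
  obtain ⟨M', m', h'⟩ := (ons (r := r) hg hK).abs.add oF.abs
  refine ⟨1 + M + M', by linarith, fun Z w e x hZ hw e0 e1 hx bZ bw => ?_⟩
  have k := (le_abs_self _).trans (h ⟨Z, w, e, x, hZ, hw, e0, e1, hx, bZ, bw⟩)
  have k' := (le_abs_self _).trans (h' ⟨Z, w, e, x, hZ, hw, e0, e1, hx, bZ, bw⟩)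
  dsimp only at k k'
  have k1 : M * e ≤ (1 + M + M') * e := mul_le_mul_of_nonneg_right (by linarith) e0
  have a1 := abs_nonneg (covNorm g (mom g Z) x)
  have a2 := abs_nonneg (2 * (mu g (K + Z) x - mu g K x))
  have a3 := abs_nonneg (lap g w x)
  have a4 := abs_nonneg (gn g w x)
  have a5 := abs_nonneg (trS g Z F x)
  have a6 := abs_nonneg (ip g w F x)
  have a7 := abs_nonneg (√(normSq g (K + Z) x))
  have a8 := abs_nonneg (gn g F x)
  rw [th_add]
  exact ⟨(cov_add hg fun j => mom_add hg hK hZ j x).trans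
      (by linarith [le_abs_self (covNorm g (mom g Z) x)]),
    by linarith [neg_abs_le (2 * (mu g (K + Z) x - mu g K x))],
    by linarith [le_abs_self (√(normSq g (K + Z) x))], by linarith,
    by linarith [le_abs_self (gn g w x)], by linarith [le_abs_self (trS g Z F x)],
    by linarith [le_abs_self (ip g w F x)], by linarith [le_abs_self (gn g F x)]⟩

end Vale.Agent.P366Y.B
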