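import Vale.Agent.P366Y.B.Defs
import Vale.Agent.P366Z.Int
import Vale.Agent.P366Z.St0.Bub
import Vale.Agent.P366Z.St0.Mat

/-!
# P366Y, block B: the minimal area is positive
-/

open MeasureTheory Metric Filter Topology Set
open scoped ContDiff ENNReal
open Vale.Agent.P366.Stmt Vale.Agent.P366Z Vale.Agent.P366Z.St0
open Vale.Agent.P366Y.A (Sy B0 Bk ck mg)

noncomputable section

namespace Vale.Agent.P366Y.B

namespace Posa

variable {n : ℕ}

theorem g_bd {g : Field n} {q C R m : ℝ} (h : B0 g q C R m) :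
    ∃ K > (0 : ℝ), ∀ x i j, |g x i j| ≤ K := by
  have hn : (3 : ℝ) ≤ n := by exact_mod_cast h.1
  have q0 : 0 < q := by linarith [h.3]
  have hc : Continuous g := continuous_pi fun i => continuous_pi fun j => (h.2.sm i j).cont
  obtain ⟨K, K0, hK⟩ := bdd_of_out hc (R := R) (C := 1 + C) fun y hy => by
    have C0 := h.4
    refine (pi_norm_le_iff_of_nonneg (by linarith)).2 fun i =>
      (pi_norm_le_iff_of_nonneg (by linarith)).2 fun j => ?_
    have e1 := (h.6 y hy.le i j i i).1
    have e2 : ‖y‖ ^ (-q) ≤ 1 :=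
      Real.rpow_le_one_of_one_le_of_nonpos (by linarith [h.5]) (by linarith)
    have e3 : |eu n y i j| ≤ 1 := by unfold eu; split_ifs <;> simp
    have e4 := abs_sub_abs_le_abs_sub (g y i j) (eu n y i j)
    have e5 := mul_le_mul_of_nonneg_left e2 C0.le
    rw [Real.norm_eq_abs]
    linarith
  exact ⟨K, K0, fun x i j => ((norm_le_pi_norm (g x i) j).trans (norm_le_pi_norm (g x) i)).trans
    (hK x)⟩

theorem dens_lo {g : Field n} {q C R m : ℝ} (h : B0 g q C R m) :
    ∃ k > (0 : ℝ), ∀ x, k ≤ dens g x := by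
  have hn : (3 : ℝ) ≤ n := by exact_mod_cast h.1
  have q0 : 0 < q := by linarith [h.3]
  obtain ⟨e, e0, K, K0, hM⟩ := mat0 n
  have a0 : 0 < min e (1 / (2 * K)) := lt_min e0 (by positivity)
  have t : Tendsto (fun r : ℝ => C * r ^ (-q)) atTop (𝓝 (C * 0)) :=
    (tendsto_rpow_neg_atTop q0).const_mul C
  rw [mul_zero] at t
  obtain ⟨R₁, hR₁⟩ := eventually_atTop.1 (t.eventually (ge_mem_nhds a0))
  obtain ⟨k, k0, hk⟩ := low_of_const h.2.sm_dens.cont h.2.dens_pos (R := max R R₁) (c := 1 / 2)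
    (by norm_num) fun y hy => by
      have e1 := (hM g y _ h.2 a0.le (min_le_left _ _) fun i j =>
        (h.6 y ((le_max_left _ _).trans hy.le) i j i i).1.trans
          (hR₁ _ ((le_max_right _ _).trans hy.le))).2
      have e2 : K * min e (1 / (2 * K)) ≤ K * (1 / (2 * K)) :=
        mul_le_mul_of_nonneg_left (min_le_right _ _) K0.le
      have e3 : K * (1 / (2 * K)) = 1 / 2 := by field_simp
      linarith [(abs_le.1 e1).1]
  exact ⟨k, k0, hk⟩

theorem pd_bub (hn : 3 ≤ n) (hs : Smooth (bub n)) (x : E n) (i : Fin n) : |pd i (bub n) x| ≤ n := by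
  have h3 : (3 : ℝ) ≤ n := by exact_mod_cast hn
  refine (abs_pd_le (hs.diff x) i).trans ?_
  exact (Bub.grad (p := (2 - n : ℝ) / 2) (by linarith) x).trans (by linarith)

/-- the flux of the cut gradient of the bubble -/
theorem flux (hB : BUB) (hn : 3 ≤ n) {G : E n → ℝ} (hG : Continuous G) {ρ : ℝ} (ρ0 : 0 < ρ)
    (hρ : ∀ x, ¬0 ≤ G x → ‖x‖ < ρ) :
    ∫ x in {x | 0 ≤ G x}, ∑ i, pd i (fun y => cut ρ y * pd i (bub n) y) x =
      n * (n - 2) * ∫ x in {x | 0 ≤ G x}ᶜ, src n x := by
  obtain ⟨b1, -, -, b4, -⟩ := hB n hn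
  have ms : MeasurableSet {x | 0 ≤ G x} := (isClosed_le continuous_const hG).measurableSet
  have sm : ∀ i, Smooth fun y => cut ρ y * pd i (bub n) y := fun i =>
    ContDiff.mul (sm_cut ρ) (b1.pd i)
  have z : ∀ i, ∀ y : E n, 2 * ρ ≤ ‖y‖ → cut ρ y * pd i (bub n) y = 0 := fun i y hy => by
    rw [cut_zero ρ0 hy, zero_mul]
  have ig : ∀ i, Integrable (pd i fun y => cut ρ y * pd i (bub n) y) := fun i =>
    integrable_of_out ((sm i).pd i).cont (R := 2 * ρ + 1) fun y hy =>
      pd_zero_of_out (z i) (by linarith) i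
  have t0 : ∫ x, ∑ i, pd i (fun y => cut ρ y * pd i (bub n) y) x = 0 := by
    rw [integral_finsetSum _ fun i _ => ig i]
    refine Finset.sum_eq_zero fun i _ => ?_
    exact integral_pd (lip_of_supp ((sm i).of_le (by norm_cast)) (supp_of_out (z i)))
      (supp_of_out (z i)) i
  have t1 := integral_add_compl ms (integrable_finsetSum Finset.univ fun i _ => ig i)
  have t2 : ∫ x in {x | 0 ≤ G x}ᶜ, ∑ i, pd i (fun y => cut ρ y * pd i (bub n) y) x =
      ∫ x in {x | 0 ≤ G x}ᶜ, -(n * (n - 2)) * src n x := by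
    refine setIntegral_congr_fun ms.compl fun x hx => ?_
    have ev : ∀ i, (fun y => cut ρ y * pd i (bub n) y) =ᶠ[𝓝 x] pd i (bub n) := fun i => by
      filter_upwards [(isOpen_lt continuous_norm continuous_const).mem_nhds (hρ x hx)] with y hy
      rw [cut_one (le_of_lt hy), one_mul]
    have := (b4 x).2.2.2.2.1
    rw [lap_eu] at this
    simp only [fun i => pd_congr (ev i) i, this]
    ring
  rw [t0, t2, integral_const_mul] at t1
  linarith

end Posa

open Posa in
theorem posa_of : BUB → POSA := by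
  intro hB n D g F q C R m h hF hg
  have hn : 3 ≤ n := h.1.1
  have h3 : (3 : ℝ) ≤ n := by exact_mod_cast hn
  have met : Met g := h.1.2
  obtain ⟨K, K0, hK⟩ := g_bd h.1
  obtain ⟨k, k0, hk⟩ := dens_lo h.1
  obtain ⟨b1, b2, -, b4, -⟩ := hB n hn
  obtain ⟨z, hz⟩ := h.4
  obtain ⟨r, r0, hr⟩ := Metric.isOpen_iff.1 (isOpen_lt h.2.1.cont continuous_const) z hz
  have ib : ∀ (w : E n) (s : ℝ), IntegrableOn (src n) (ball w s) := fun w s =>
    (b2.cont.continuousOn.integrableOn_compact (isCompact_closedBall w s)).mono_set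
      ball_subset_closedBall
  have s0 : ∀ x, 0 < src n x := fun x => (b4 x).2.2.1
  have I0 : 0 < ∫ x in ball z r, src n x := by
    rw [setIntegral_pos_iff_support_of_nonneg_ae (Eventually.of_forall fun x => (s0 x).le) (ib z r)]
    have : Function.support (src n) ∩ ball z r = ball z r :=
      inter_eq_right.2 fun x _ => (s0 x).ne'
    rw [this]
    exact measure_ball_pos _ _ r0
  obtain ⟨c, hc⟩ : ∃ c : ℝ, c = k / (n ^ 2 * (K + 1)) := ⟨_, rfl⟩
  have c0 : 0 < c := by rw [hc]; positivity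
  have P0 : 0 < c * (n * (n - 2) * ∫ x in ball z r, src n x) :=
    mul_pos c0 (mul_pos (mul_pos (by linarith) (by linarith)) I0)
  refine lt_of_lt_of_le (ENNReal.ofReal_pos.2 P0) (le_sInf ?_)
  rintro _ ⟨G, hG, hGF, rfl⟩
  obtain ⟨R', hR'⟩ := hG.2.2.2
  have ρ0 : 0 < max R' 0 + 1 := by positivity
  have hρ : ∀ x, ¬0 ≤ G x → ‖x‖ < max R' 0 + 1 := fun x hx => by
    by_contra hh
    exact hx (hR' x (by unfold len; linarith [le_max_left R' 0, not_lt.1 hh])).le
  generalize max R' 0 + 1 = ρ at ρ0 hρ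
  have ms : MeasurableSet {x | 0 ≤ G x} := (isClosed_le continuous_const hG.1.cont).measurableSet
  have tf : D.TestField fun i y => c * (cut ρ y * pd i (bub n) y) / dens g y := by
    refine ⟨fun i => ContDiff.div (ContDiff.mul contDiff_const (ContDiff.mul (sm_cut ρ) (b1.pd i)))
      met.sm_dens fun y => (met.dens_pos y).ne', ⟨2 * ρ, fun x hx i => ?_⟩, fun x hx => ?_⟩
    · simp only [cut_zero ρ0 (le_of_lt hx), zero_mul, mul_zero, zero_div]
    · rw [← (hg x ((hF x).2 hx)).eq_of_nhds]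
      refine (quad_le_of_bd (hK x) _).trans ?_
      have d0 := met.dens_pos x
      have e1 : ∀ i, (c * (cut ρ x * pd i (bub n) x) / dens g x) ^ 2 ≤ (c * n / k) ^ 2 := fun i => by
        refine sq_le_sq.2 ?_
        rw [abs_div, abs_mul, abs_mul, abs_of_pos c0, abs_of_pos d0, abs_of_nonneg (cut_nonneg ρ x),
          abs_of_pos (by positivity : 0 < c * n / k)]
        have e2 : cut ρ x * |pd i (bub n) x| ≤ 1 * n :=
          mul_le_mul (cut_le_one ρ x) (pd_bub hn b1 x i) (abs_nonneg _) zero_le_one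
        rw [one_mul] at e2
        exact div_le_div₀ (by positivity) (mul_le_mul_of_nonneg_left e2 c0.le) k0 (hk x)
      have e3 : ∑ i, (c * (cut ρ x * pd i (bub n) x) / dens g x) ^ 2 ≤ n * (c * n / k) ^ 2 := by
        refine (Finset.sum_le_sum fun i _ => e1 i).trans ?_
        simp
      refine (mul_le_mul_of_nonneg_left e3 (by positivity)).trans ?_
      have e4 : (n : ℝ) * K * (n * (c * n / k) ^ 2) = K / (K + 1) ^ 2 := by
        rw [hc]; field_simp
      rw [e4, div_le_one (by positivity)]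
      nlinarith
  refine le_trans (ENNReal.ofReal_le_ofReal ?_) (le_sSup ⟨_, tf, rfl⟩)
  have e1 : ∫ x in {x | 0 ≤ G x}, ∑ i, pd i (fun y => √(mat D.g y).det *
      (c * (cut ρ y * pd i (bub n) y) / dens g y)) x ∂vol n =
      ∫ x in {x | 0 ≤ G x}, c * ∑ i, pd i (fun y => cut ρ y * pd i (bub n) y) x := by
    rw [vol_eq]
    refine setIntegral_congr_fun ms fun x hx => ?_
    have ev : ∀ i, (fun y => √(mat D.g y).det * (c * (cut ρ y * pd i (bub n) y) / dens g y)) =ᶠ[𝓝 x]
        fun y => c * (cut ρ y * pd i (bub n) y) := fun i => by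
      filter_upwards [hg x ((hF x).2 (hGF x hx))] with y hy
      have d0 := (met.dens_pos y).ne'
      have : √(mat D.g y).det = dens g y := (dens_of_eq hy).symm
      rw [this]
      field_simp
    simp only [fun i => pd_congr (ev i) i, pd_const_mul, Finset.mul_sum]
  rw [e1, integral_const_mul, flux hB hn hG.1.cont ρ0 hρ]
  refine mul_le_mul_of_nonneg_left (mul_le_mul_of_nonneg_left ?_
    (mul_nonneg (by linarith) (by linarith))) c0.le
  refine setIntegral_mono_set ((ib 0 ρ).mono_set fun x hx => mem_ball_zero_iff.2 (hρ x hx))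
    (Eventually.of_forall fun x => (s0 x).le) (LE.le.eventuallyLE fun x hx hx' => ?_)
  exact absurd ((hF x).2 (hGF x hx')) (not_le.2 (hr hx))

end Vale.Agent.P366Y.B
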