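import Vale.Agent.P366Y.B.Defs
import Vale.Agent.P366Z.Calc

/-!
# P366Y, block B: the constraint quantities in linear coordinates
-/

open Matrix
open Vale.Agent.P366.Stmt Vale.Agent.P366Z
open Vale.Agent.P366Y.A (Sy)
open Vale.Agent.P366.T1

noncomputable section

namespace Vale.Agent.P366Y.B

namespace PullH

variable {n : ℕ}

/-- square matrices -/
abbrev Mx (n : ℕ) : Type := Matrix (Fin n) (Fin n) ℝ

/-- `Aᵀ f` -/
def R (A : Mx n) (f : Fin n → ℝ) (i : Fin n) : ℝ := ∑ p, A p i * f p

/-- two indices -/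
def R2 (A B : Mx n) (T : Fin n → Fin n → ℝ) (i j : Fin n) : ℝ := R A (fun p => R B (T p) j) i

/-- three indices -/
def R3 (A B C : Mx n) (T : Fin n → Fin n → Fin n → ℝ) (i j k : Fin n) : ℝ :=
  R A (fun p => R B (fun q => R C (T p q) k) j) i

/-- dual matrices -/
def Du (A B : Mx n) : Prop := ∀ p q, ∑ k, A p k * B q k = if p = q then 1 else 0

section alg

variable {A B C A' B' C' : Mx n}

theorem R_add (f g : Fin n → ℝ) (i : Fin n) : R A (fun p => f p + g p) i = R A f i + R A g i := by
  simp only [R, mul_add, Finset.sum_add_distrib]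

theorem R_sub (f g : Fin n → ℝ) (i : Fin n) : R A (fun p => f p - g p) i = R A f i - R A g i := by
  simp only [R, mul_sub, Finset.sum_sub_distrib]

theorem R_cmul (c : ℝ) (f : Fin n → ℝ) (i : Fin n) : R A (fun p => c * f p) i = c * R A f i := by
  simp only [R, Finset.mul_sum, mul_left_comm]

theorem R_mulc (c : ℝ) (f : Fin n → ℝ) (i : Fin n) : R A (fun p => f p * c) i = R A f i * c := by
  simp only [R, Finset.sum_mul, mul_assoc]

theorem R_sum (f : Fin n → Fin n → ℝ) (i : Fin n) :
    R A (fun p => ∑ a, f a p) i = ∑ a, R A (f a) i := by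
  simp only [R, Finset.mul_sum]
  exact Finset.sum_comm

theorem R_comm (f : Fin n → Fin n → ℝ) (i j : Fin n) :
    R A (fun p => R B (fun q => f p q) j) i = R B (fun q => R A (fun p => f p q) i) j := by
  simp only [R, Finset.mul_sum]
  rw [Finset.sum_comm]
  simp only [mul_left_comm]

theorem R_congr {f g : Fin n → ℝ} (h : ∀ p, f p = g p) (i : Fin n) : R A f i = R A g i := by
  rw [funext h]

theorem Du.symm (h : Du A B) : Du B A := fun p q => by
  simp only [mul_comm (B p _), h q p, eq_comm]

theorem R_tr (h : Du A B) (F : Fin n → Fin n → ℝ) : ∑ k, R2 A B F k k = ∑ p, F p p := by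
  simp only [R2, R, Finset.mul_sum]
  rw [Finset.sum_comm]
  refine Finset.sum_congr rfl fun p _ => ?_
  rw [Finset.sum_comm]
  simp only [← mul_assoc, ← Finset.sum_mul, h p, ite_mul, one_mul, zero_mul, Finset.sum_ite_eq,
    Finset.mem_univ, if_true]

theorem R_dot (h : Du A B) (f g : Fin n → ℝ) : ∑ k, R A f k * R B g k = ∑ p, f p * g p := by
  rw [← R_tr h fun p q => f p * g q]
  simp only [R2, R_cmul, R_mulc]

theorem R2_comm (T : Fin n → Fin n → ℝ) (i j : Fin n) :
    R2 A B T i j = R2 B A (fun q p => T p q) j i := R_comm _ _ _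

theorem ctr2 (h : Du B B') (U T : Fin n → Fin n → ℝ) (i k : Fin n) :
    ∑ j, R2 A B U i j * R2 A' B' T k j = R2 A A' (fun p p' => ∑ q, U p q * T p' q) i k := by
  simp only [R2, ← R_dot h (U _) (T _), R_sum, R_cmul, R_mulc]

theorem dot2 (h : Du A A') (h' : Du B B') (U T : Fin n → Fin n → ℝ) :
    ∑ i, ∑ j, R2 A B U i j * R2 A' B' T i j = ∑ p, ∑ q, U p q * T p q := by
  simp only [ctr2 h' U T]
  exact R_tr h _

theorem R3_rot (F : Fin n → Fin n → Fin n → ℝ) (i j k : Fin n) :
    R3 C A B F k i j = R3 A B C (fun p q r => F r p q) i j k := by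
  unfold R3
  rw [R_comm]
  exact R_congr (fun p => R_comm _ _ _) i

theorem R3_swap (F : Fin n → Fin n → Fin n → ℝ) (i j k : Fin n) :
    R3 A B C F i j k = R3 A C B (fun p r q => F p q r) i k j :=
  R_congr (fun _ => R_comm _ _ _) i

theorem R3_rev (F : Fin n → Fin n → Fin n → ℝ) (i j k : Fin n) :
    R3 C B A F k j i = R3 A B C (fun p q r => F r q p) i j k := by
  rw [R3_swap, R3_rot, R3_rot, R3_swap, R3_rot, R3_swap]

theorem c3 (h : Du A A') (Γ : Fin n → Fin n → Fin n → ℝ) (T : Fin n → Fin n → ℝ) (k i j : Fin n) :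
    ∑ l, R3 A B C Γ l k i * R2 A' B' T l j =
      R3 B C B' (fun q r s => ∑ p, Γ p q r * T p s) k i j := by
  unfold R3 R2
  rw [R_dot h]
  simp only [R_sum, R_cmul, R_mulc]

theorem tr3 (h : Du A B) (F : Fin n → Fin n → Fin n → ℝ) (j : Fin n) :
    ∑ k, R3 A B C F k k j = R C (fun r => ∑ p, F p p r) j := by
  rw [R_congr (fun r => (R_tr h fun p q => F p q r).symm) j, R_sum]
  exact Finset.sum_congr rfl fun k _ => (R3_rot (fun r p q => F p q r) k k j).symm

theorem ctr1 (h : Du B B') (U : Fin n → Fin n → ℝ) (S : Fin n → ℝ) (k : Fin n) :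
    ∑ l, R2 A B U k l * R B' S l = R A (fun p => ∑ l, U p l * S l) k := by
  simp only [R2, ← R_dot h (U _) S, R_sum, R_mulc]

theorem c23 (h : Du A A') (h' : Du B B') (U : Fin n → Fin n → ℝ) (N : Fin n → Fin n → Fin n → ℝ)
    (j : Fin n) : ∑ i, ∑ k, R2 A B U i k * R3 A' C B' N i j k =
      R C (fun q => ∑ p, ∑ r, U p r * N p q r) j := by
  have e : ∀ i k, R3 A' C B' N i j k = R C (fun q => R2 A' B' (fun p r => N p q r) i k) j :=
    fun i k => R_comm _ _ _
  simp only [e, ← dot2 h h' U, R_sum, R_cmul]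

end alg

variable (L : E n ≃L[ℝ] E n) {g K T : Field n} {y : E n}

/-- the matrix for the upper indices -/
def mu' : Mx n := (mt L.symm)ᵀ

theorem du : Du (mu' L) (mt L) := fun p q => by
  have h := congrFun (congrFun (mt_mul_symm L) q) p
  rw [Matrix.mul_apply, Matrix.one_apply] at h
  simp only [mu', transpose_apply, mul_comm (mt L.symm _ p), h, eq_comm]

theorem pull_eq (T : Field n) (y : E n) (i j : Fin n) :
    pull L T y i j = R2 (mt L) (mt L) (T (L y)) i j := by
  simp only [R2, R, Finset.mul_sum, ← mul_assoc]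
  rfl

theorem up_pull (g : Field n) (i j : Fin n) (y : E n) :
    up (pull L g) i j y = R2 (mu' L) (mu' L) (fun p q => up g p q (L y)) i j := by
  rw [up, inv_pull, R2_comm]
  simp only [R2, R, Matrix.mul_apply, mu', transpose_apply, up]
  exact Finset.sum_congr rfl fun _ _ => mul_comm _ _

theorem pd_R (A : Mx n) {f : Fin n → E n → ℝ} (hf : ∀ p, Smooth (f p)) (i : Fin n) :
    Smooth (fun y => R A (fun p => f p y) i) ∧
      ∀ m y, pd m (fun y => R A (fun p => f p y) i) y = R A (fun p => pd m (f p) y) i :=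
  ⟨ContDiff.sum fun p _ => contDiff_const.mul (hf p), fun m y => by
    unfold R
    rw [pd_sum _ fun p _ => ((hf p).diff y).const_mul _]
    simp only [pd_const_mul]⟩

theorem pd_L {f : E n → ℝ} (hf : Smooth f) (m : Fin n) :
    pd m (fun y => f (L y)) y = R (mt L) (fun l => pd l f (L y)) m := pd_comp_lin L (hf.diff _) m

theorem pd_pl (hT : ∀ i j, Smooth fun x => T x i j) (m i j : Fin n) :
    pd m (fun y => pull L T y i j) y =
      R3 (mt L) (mt L) (mt L) (fun p q l => pd l (fun x => T x p q) (L y)) i j m := by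
  have h := fun p => pd_R (mt L) (fun q => smooth_comp L (hT p q)) j
  simp only [pull_eq, R2]
  rw [(pd_R (mt L) (fun p => (h p).1) i).2]
  exact R_congr (fun p => ((h p).2 m y).trans (R_congr (fun q => pd_L L (hT p q) m) j)) i

theorem chr_pull (hg : Met g) (k i j : Fin n) (y : E n) : chr (pull L g) k i j y =
    R3 (mu' L) (mt L) (mt L) (fun p q r => chr g p q r (L y)) k i j := by
  have h : ∀ l, pd i (fun y => pull L g y j l) y + pd j (fun y => pull L g y i l) y -
      pd l (fun y => pull L g y i j) y = R (mt L) (fun s => R2 (mt L) (mt L) (fun q r =>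
        pd q (fun x => g x r s) (L y) + pd r (fun x => g x q s) (L y) -
          pd s (fun x => g x q r) (L y)) i j) l := fun l => by
    have e : ∀ D : Fin n → Fin n → Fin n → ℝ, R3 (mt L) (mt L) (mt L) D i l j =
      R3 (mt L) (mt L) (mt L) (fun s q r => D q s r) l i j := fun D => R_comm _ _ _
    rw [pd_pl L hg.sm i, pd_pl L hg.sm j, pd_pl L hg.sm l, R3_rot _ l i j, e,
      ← R3_rot (fun s q r => pd s (fun x => g x q r) (L y)) i j l]
    simp only [R3, R2, R_add, R_sub]
  unfold chr
  simp only [h, up_pull, ctr1 (du L)]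
  simp only [R3, R2, div_eq_mul_inv, R_mulc, R_sum, R_cmul]

theorem momT_pull (g K : Field n) : momT (pull L g) (pull L K) = pull L (momT g K) := by
  funext y i j
  unfold momT
  simp only [tr_pull, pull_eq, R2, R_sub, R_cmul]

theorem normSq_pull (g K : Field n) (y : E n) :
    normSq (pull L g) (pull L K) y = normSq g K (L y) := by
  have e : ∀ (g K : Field n) (x : E n), normSq g K x =
      ∑ i, ∑ j, K x i j * ∑ k, up g i k x * ∑ l, up g j l x * K x k l := fun g K x => by
    unfold normSq
    simp only [Finset.mul_sum]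
    refine Finset.sum_congr rfl fun i _ => Finset.sum_congr rfl fun j _ => ?_
    exact Finset.sum_congr rfl fun k _ => Finset.sum_congr rfl fun l _ => by ring
  rw [e, e]
  simp only [up_pull, pull_eq, ctr2 (du L)]
  exact dot2 (du L).symm (du L).symm _ _

theorem mom_pull (hg : Met g) (hK : Sy K) (j : Fin n) :
    mom (pull L g) (pull L K) j y = R (mt L) (fun p => mom g K p (L y)) j := by
  have hT : ∀ i j, Smooth fun x => momT g K x i j := fun i j =>
    ContDiff.sub (hK.sm i j) (ContDiff.mul (ContDiff.sum fun p _ => ContDiff.sum fun q _ =>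
      ContDiff.mul (hg.sm_up p q) (hK.sm p q)) (hg.sm i j))
  unfold mom
  rw [momT_pull, ← c23 (du L) (du L)]
  generalize momT g K = T at hT ⊢
  refine Finset.sum_congr rfl fun i _ => Finset.sum_congr rfl fun k _ => ?_
  rw [up_pull, pd_pl L hT]
  simp only [chr_pull L hg, Finset.sum_add_distrib, pull_eq, c3 (du L), R2_comm _ i]
  rw [R3_rot _ i j k, R3_rev _ i j k]
  simp only [R3, R_add, R_sub]

theorem pd_chr (hg : Met g) (m k i j : Fin n) : pd m (chr (pull L g) k i j) y =
    R3 (mu' L) (mt L) (mt L)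
      (fun p q r => R (mt L) (fun l => pd l (chr g p q r) (L y)) m) k i j := by
  have h1 := fun p q => pd_R (mt L) (fun r => smooth_comp L (hg.sm_chr p q r)) j
  have h2 := fun p => pd_R (mt L) (fun q => (h1 p q).1) i
  rw [funext (chr_pull L hg k i j)]
  exact ((pd_R (mu' L) (fun p => (h2 p).1) k).2 m y).trans (R_congr (fun p => ((h2 p).2 m y).trans
    (R_congr (fun q => ((h1 p q).2 m y).trans
      (R_congr (fun r => pd_L L (hg.sm_chr p q r) m) j)) i)) k)

theorem scal_pull (hg : Met g) : scal (pull L g) y = scal g (L y) := by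
  unfold scal
  refine .trans (Finset.sum_congr rfl fun i _ => Finset.sum_congr rfl fun j _ => ?_)
    (dot2 (du L) (du L) _ _)
  rw [up_pull]
  congr 1
  simp only [pd_chr L hg, chr_pull L hg]
  generalize hD : (fun p q r l => pd l (chr g p q r) (L y)) = D
  generalize hΓ : (fun p q r => chr g p q r (L y)) = Γ
  have eD : ∀ p q r l, pd l (chr g p q r) (L y) = D p q r l := fun _ _ _ _ => by rw [← hD]
  have eΓ : ∀ p q r, chr g p q r (L y) = Γ p q r := fun _ _ _ => by rw [← hΓ]
  simp only [eD, eΓ, Finset.sum_add_distrib, Finset.sum_sub_distrib, R2, R_add, R_sub]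
  have t : ∀ F : Fin n → Fin n → Fin n → Fin n → ℝ, ∑ k, R (mt L) (fun q => R (mt L) (fun r =>
      R2 (mu' L) (mt L) (F q r) k k) j) i =
      R (mt L) (fun q => R (mt L) (fun r => ∑ p, F q r p p) j) i := fun F => by
    simp only [← R_sum, R_tr (du L)]
  congr 2
  · rw [← t fun q r p l => D p q r l]
    exact Finset.sum_congr rfl fun k _ => R3_rot _ i j k
  · rw [← t fun q l p r => D p q r l]
    refine Finset.sum_congr rfl fun k _ => (R_comm _ _ _).trans (R_congr (fun q => ?_) i)
    exact (R3_rot (fun l p r => D p q r l) k k j).symm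
  · rw [Finset.sum_comm]
    simp only [← Finset.sum_mul, tr3 (du L)]
    unfold R3
    rw [R_dot (du L).symm]
    simp only [← R_cmul, ← R_sum, Finset.sum_mul]
    exact R_congr (fun q => R_congr (fun r => Finset.sum_comm) j) i
  · have e1 : ∀ k l, R3 (mu' L) (mt L) (mt L) Γ k j l =
        R2 (mu' L) (mt L) (fun p r => R (mt L) (fun q => Γ p q r) j) k l := fun k l => R3_swap _ _ _ _
    have e2 : ∀ k l, R3 (mu' L) (mt L) (mt L) Γ l i k =
        R2 (mt L) (mu' L) (fun r p => R (mt L) (fun q => Γ p q r) i) k l := fun k l =>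
      (R3_swap _ _ _ _).trans (R_comm _ _ _)
    simp only [e1, e2, dot2 (du L) (du L).symm, R_sum, R_cmul, R_mulc]

end PullH

open PullH in
/-- **PULL** -/
theorem pull0 : PULL := by
  intro n L g K hg hK
  have hs : ∀ T : Field n, (∀ x i j, T x i j = T x j i) → ∀ y i j,
      pull L T y i j = pull L T y j i := fun T h y i j => by
    rw [pull_eq, pull_eq, R2_comm]
    simp only [h _ _ _ , R2]
  refine ⟨⟨smooth_pull L hg.sm, hs g hg.sy, fun y => ?_⟩, ⟨smooth_pull L hK.sm, hs K hK.sy⟩,
    fun y => ⟨?_, covNorm_pull L g fun i => mom_pull L hg hK i⟩⟩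
  · rw [mat_pull]
    refine (hg.pos (L y)).conjTranspose_mul_mul_same (B := mt L) ?_
    exact Matrix.mulVec_injective_of_isUnit (IsUnit.of_mul_eq_one _ (mt_mul_symm L))
  · unfold mu
    rw [scal_pull L hg, tr_pull, normSq_pull]

end Vale.Agent.P366Y.B
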