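import Vale.Agent.P366Y.B.Defs
import Vale.Agent.P366Z.St0.Bar

/-!
# P366Y, block B: the radial barrier with compact support
-/

open MeasureTheory Metric Filter Topology Set
open scoped ContDiff ENNReal
open Vale.Agent.P366.Stmt Vale.Agent.P366Z Vale.Agent.P366Z.St0

noncomputable section

namespace Vale.Agent.P366Y.B

namespace RbH

open BarA

theorem dz {z : ℝ} (h : z < 0 ∨ 1 < z) : deriv Real.smoothTransition z = 0 := by
  rcases h with h | h
  · have e : Real.smoothTransition =ᶠ[𝓝 z] fun _ => 0 := by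
      filter_upwards [Iio_mem_nhds h] with u hu using Real.smoothTransition.zero_of_nonpos hu.le
    rw [e.deriv_eq, deriv_const]
  · have e : Real.smoothTransition =ᶠ[𝓝 z] fun _ => 1 := by
      filter_upwards [Ioi_mem_nhds h] with u hu using Real.smoothTransition.one_of_one_le hu.le
    rw [e.deriv_eq, deriv_const]

theorem d0 (z : ℝ) : 0 ≤ deriv Real.smoothTransition z :=
  Real.smoothTransition.monotone.deriv_nonneg

theorem hd (z : ℝ) : HasDerivAt Real.smoothTransition (deriv Real.smoothTransition z) z :=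
  ((Real.smoothTransition.contDiff (n := 1)).differentiable one_ne_zero z).hasDerivAt

theorem alg {N ν ν' t τ L I ε κ w D P : ℝ} (hN : 0 ≤ N) (ht : 0 < t) (hτ : 0 ≤ τ)
    (h1 : |ν| ≤ 3 * w) (h2 : t * ν' ≤ D - w * P) (hD : 0 ≤ D) (hL : |L - 4 * N| ≤ ε)
    (hI : |I - 4 * t| ≤ 4 * t * ε) (hε : ε ≤ 1 / 2) (hκ : 0 ≤ κ)
    (hP : 3 * (ε * (1 + 4 * N) + κ) ≤ P) :
    ν * τ * L + (ν' * τ - N * ν * (τ / t)) * I + κ * |ν * τ| ≤ τ * (6 * D) - w * P * τ := by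
  obtain ⟨J, rfl⟩ : ∃ J, I = t * J := ⟨I / t, by field_simp⟩
  have e0 := (abs_nonneg _).trans hL
  have w0 : 0 ≤ w := by linarith [abs_nonneg ν]
  have j : |J - 4| ≤ 4 * ε := by
    rw [show t * J - 4 * t = t * (J - 4) by ring, abs_mul, abs_of_pos ht] at hI
    exact le_of_mul_le_mul_left (by linarith) ht
  obtain ⟨j1, j2⟩ := abs_le.1 j
  have a1 : |L - N * J| ≤ ε * (1 + 4 * N) := by
    rw [show L - N * J = (L - 4 * N) - N * (J - 4) by ring]
    refine (abs_sub _ _).trans ?_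
    rw [abs_mul, abs_of_nonneg hN]
    linarith [mul_le_mul_of_nonneg_left j hN]
  have a0 : 0 ≤ ε * (1 + 4 * N) := by positivity
  have a2 : ν * (L - N * J) ≤ 3 * w * (ε * (1 + 4 * N)) := (le_abs_self _).trans
    ((abs_mul _ _).trans_le (mul_le_mul h1 a1 (abs_nonneg _) (by positivity)))
  have a3 := mul_le_mul_of_nonneg_left h1 hκ
  have a4 := mul_le_mul_of_nonneg_left hP w0
  have a5 := mul_le_mul_of_nonneg_right h2 (by linarith : 0 ≤ J)
  have a6 := mul_le_mul_of_nonneg_left (by linarith : J ≤ 6) hD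
  have a7 := mul_le_mul_of_nonneg_left (by linarith : 2 ≤ J)
    (mul_nonneg w0 (by linarith : 0 ≤ P))
  rw [abs_mul, abs_of_nonneg hτ,
    show ν * τ * L + (ν' * τ - N * ν * (τ / t)) * (t * J) + κ * (|ν| * τ) =
      τ * (ν * (L - N * J) + t * ν' * J + κ * |ν|) by field_simp; ring,
    show τ * (6 * D) - w * P * τ = τ * (6 * D - w * P) by ring]
  exact mul_le_mul_of_nonneg_left (by linarith) hτ

theorem ex2 {N p W s a B : ℝ} (hN : 1 < N) (hp : 0 < p) (hs : 0 < s) (hW : 0 ≤ W)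
    (hw : W * s ^ (-p) ≤ 1) (h1 : 4 * s ≤ a) (h2 : 2 * a ≤ B) : ∃ Φ : ℝ → ℝ, ContDiff ℝ ∞ Φ ∧
    (∀ t ≤ s, Φ s = Φ t) ∧ (∀ t, 2 * B ≤ t → Φ t = 0) ∧
    (∀ t, 0 < t → |Φ t| ≤ 2 * (N - 1)⁻¹ * t ^ (1 - N)) ∧
    ∀ t L I ε κ, s ≤ t → |L - 4 * N| ≤ ε → |I - 4 * t| ≤ 4 * t * ε → ε ≤ 1 / 2 → 0 ≤ κ →
      3 * (ε * (1 + 4 * N) + κ) ≤ p / 2 * W * t ^ (-p) → ∃ z, 0 ≤ z ∧
        (4 * s ≤ t → t ≤ B → 1 / 2 * (p / 2 * W * t ^ (-p)) * t ^ (-N) ≤ z) ∧
        deriv Φ t * L + deriv (deriv Φ) t * I + κ * |deriv Φ t| ≤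
          24 * (deriv Real.smoothTransition (t / a - 1) * a ^ (-N)) - z := by
  have a0 : 0 < a := by linarith
  have B0 : 0 < B := by linarith
  obtain ⟨Φ₀, μ, μ', P⟩ := ex_pr (T₀ := 2 * B) (T := 3 * B) hN hp hs hW hw (by linarith)
    (by linarith)
  let χ : ℝ → ℝ := fun t => Real.smoothTransition (2 - t / B)
  let m : ℝ → ℝ := fun t => Real.smoothTransition (t / a - 1)
  have c1 : ContDiff ℝ ∞ χ := Real.smoothTransition.contDiff.comp (by fun_prop)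
  have m1 : ContDiff ℝ ∞ m := Real.smoothTransition.contDiff.comp (by fun_prop)
  have c2 : ∀ t, HasDerivAt χ (deriv Real.smoothTransition (2 - t / B) * -(1 / B)) t := fun t =>
    (hd _).comp t (((hasDerivAt_id t).div_const B).const_sub 2)
  have m2 : ∀ t, HasDerivAt m (deriv Real.smoothTransition (t / a - 1) * (1 / a)) t := fun t =>
    (hd _).comp t (((hasDerivAt_id t).div_const a).sub_const 1)
  have c3 : ∀ t ≤ B, χ t = 1 := fun t h => Real.smoothTransition.one_of_one_le (by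
    linarith [(div_le_one B0).2 h])
  have c4 : ∀ t, 2 * B ≤ t → χ t = 0 := fun t h => Real.smoothTransition.zero_of_nonpos (by
    linarith [(le_div_iff₀ B0).2 h])
  have m3 : ∀ t ≤ a, m t = 0 := fun t h => Real.smoothTransition.zero_of_nonpos (by
    linarith [(div_le_one a0).2 h])
  have m4 : ∀ t, 2 * a ≤ t → m t = 1 := fun t h => Real.smoothTransition.one_of_one_le (by
    linarith [(le_div_iff₀ a0).2 h])
  have c5 : ∀ t, 0 ≤ χ t ∧ χ t ≤ 1 := fun t =>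
    ⟨Real.smoothTransition.nonneg _, Real.smoothTransition.le_one _⟩
  have m5 : ∀ t, 0 ≤ m t ∧ m t ≤ 1 := fun t =>
    ⟨Real.smoothTransition.nonneg _, Real.smoothTransition.le_one _⟩
  let ψ : ℝ → ℝ := fun t => χ t * (2 * (m t * t ^ (-N)) + deriv Φ₀ t)
  have s0 : ContDiff ℝ ∞ (deriv Φ₀) := (contDiff_infty_iff_deriv.1 P.sm).2
  have s1 : ContDiff ℝ ∞ fun t : ℝ => m t * t ^ (-N) := contDiff_iff_contDiffAt.2 fun t => by
    rcases lt_or_ge t a with h | h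
    · refine (contDiffAt_const (c := 0)).congr_of_eventuallyEq ?_
      filter_upwards [Iio_mem_nhds h] with u hu
      simp only [m3 u (le_of_lt hu), zero_mul]
    · exact m1.contDiffAt.mul (Real.contDiffAt_rpow_const_of_ne (a0.trans_le h).ne')
  have p1 : ContDiff ℝ ∞ ψ := c1.mul ((contDiff_const.mul s1).add s0)
  have p2 : ∀ t, ψ t = χ t * (2 * m t - μ t) * t ^ (-N) := fun t => by
    simp only [ψ, (P.d1 t).deriv]
    ring
  let Φ : ℝ → ℝ := fun t => ∫ u in (2 * B)..t, ψ u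
  have f1 : ∀ t, HasDerivAt Φ (ψ t) t := fun t =>
    (p1.continuous.integral_hasStrictDerivAt _ t).hasDerivAt
  have f2 : deriv Φ = ψ := funext fun t => (f1 t).deriv
  have f3 : ∀ t, 2 * B ≤ t → Φ t = 0 := fun t h =>
    (cst h fun u hu => ⟨f1 u, by rw [p2, c4 u hu.1, zero_mul, zero_mul]⟩).trans (by simp [Φ])
  have n1 : ∀ t, |χ t * (2 * m t - μ t)| ≤ 2 := fun t => by
    rw [abs_mul, abs_of_nonneg (c5 t).1]
    refine (mul_le_of_le_one_left (abs_nonneg _) (c5 t).2).trans (abs_le.2 ⟨?_, ?_⟩) <;>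
      linarith [m5 t, P.bd t, (m5 t).1, (m5 t).2, (P.bd t).1, (P.bd t).2]
  have g1 : ∀ t, 0 < t → HasDerivAt (fun t : ℝ => 2 * (N - 1)⁻¹ * t ^ (1 - N))
      (-(2 * t ^ (-N))) t := fun t h => by
    refine ((Real.hasDerivAt_rpow_const (.inl h.ne')).const_mul _).congr_deriv ?_
    have : N - 1 ≠ 0 := by linarith
    rw [sub_sub_cancel_left]
    field_simp
    ring
  refine ⟨Φ, contDiff_infty_iff_deriv.2 ⟨fun t => (f1 t).differentiableAt, f2 ▸ p1⟩,
    fun t h => cst h fun u hu => ⟨f1 u, ?_⟩, f3, fun t h => ?_, fun t L I ε κ h hL hI hε hκ hP => ?_⟩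
  · rw [p2, m3 u (by linarith [hu.2]), P.zero u hu.2]
    ring
  · have k0 : 0 ≤ 2 * (N - 1)⁻¹ * max t (2 * B) ^ (1 - N) := by
      have : 0 < N - 1 := by linarith
      have := lt_max_of_lt_left (c := 2 * B) h
      positivity
    have k1 : ∀ u ∈ Icc t (max t (2 * B)), |ψ u| ≤ 2 * u ^ (-N) := fun u hu => by
      have := Real.rpow_nonneg (h.le.trans hu.1) (-N)
      rw [p2, abs_mul, abs_of_nonneg this]
      exact mul_le_mul_of_nonneg_right (n1 u) this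
    have k2 := anti (le_max_left t (2 * B)) fun u hu =>
      ⟨(g1 u (h.trans_le hu.1)).fun_add (f1 u), by linarith [(abs_le.1 (k1 u hu)).2]⟩
    have k3 := anti (le_max_left t (2 * B)) fun u hu =>
      ⟨(g1 u (h.trans_le hu.1)).fun_sub (f1 u), by linarith [(abs_le.1 (k1 u hu)).1]⟩
    simp only [f3 _ (le_max_right t (2 * B))] at k2 k3
    exact abs_le.2 ⟨by linarith, by linarith⟩
  have t0 := hs.trans_le h
  have τ0 := Real.rpow_nonneg t0.le (-N)
  have P0 : 0 ≤ p / 2 * W * t ^ (-p) := by positivity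
  have e1 : deriv ψ t = (deriv Real.smoothTransition (2 - t / B) * -(1 / B) * (2 * m t - μ t) +
      χ t * (2 * (deriv Real.smoothTransition (t / a - 1) * (1 / a)) - μ' t)) * t ^ (-N) -
      N * (χ t * (2 * m t - μ t)) * (t ^ (-N) / t) := by
    rw [((c2 t).fun_mul ((((m2 t).fun_mul (Real.hasDerivAt_rpow_const (p := -N)
      (.inl t0.ne'))).const_mul 2).fun_add (s0.differentiable (by simp) t).hasDerivAt)).deriv,
      P.d2 t t0, (P.d1 t).deriv, Real.rpow_sub_one t0.ne']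
    ring
  have u1 : |χ t * (2 * m t - μ t)| ≤ 3 * (χ t * μ t) := by
    rw [abs_mul, abs_of_nonneg (c5 t).1, mul_left_comm]
    refine mul_le_mul_of_nonneg_left (abs_le.2 ⟨by linarith [(m5 t).1, (P.bd t).1], ?_⟩) (c5 t).1
    rcases le_total t a with k | k
    · linarith [m3 t k, (P.bd t).1]
    · linarith [(m5 t).2, P.half t (h1.trans k)]
  have u2 : deriv Real.smoothTransition (2 - t / B) * -(1 / B) * (2 * m t - μ t) ≤ 0 := by
    rcases lt_or_ge t B with k | k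
    · rw [dz (.inr (by linarith [(div_lt_one B0).2 k])), zero_mul, zero_mul]
    · exact mul_nonpos_of_nonpos_of_nonneg (mul_nonpos_of_nonneg_of_nonpos (d0 _)
        (neg_nonpos.2 (by positivity))) (by linarith [m4 t (h2.trans k), (P.bd t).2])
  have u3 : χ t * (μ t * (p / 2 * W * t ^ (-p))) ≤ χ t * (t * μ' t) := by
    rcases le_total t (2 * B) with k | k
    · exact mul_le_mul_of_nonneg_left (P.str t h k) (c5 t).1
    · rw [c4 t k, zero_mul, zero_mul]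
  have u4 : t ^ (-N) * (6 * (2 * χ t * (t / a) * deriv Real.smoothTransition (t / a - 1))) ≤
      24 * (deriv Real.smoothTransition (t / a - 1) * a ^ (-N)) := by
    by_cases k : t / a - 1 < 0 ∨ 1 < t / a - 1
    · simp only [dz k, mul_zero, zero_mul, le_refl]
    · push Not at k
      have k1 : t ^ (-N) ≤ a ^ (-N) := Real.rpow_le_rpow_of_nonpos a0
        ((one_le_div a0).1 (by linarith [k.1])) (by linarith)
      have k2 : χ t * (t / a) ≤ 1 * 2 :=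
        mul_le_mul (c5 t).2 (by linarith [k.2]) (by positivity) zero_le_one
      have k3 := mul_le_mul_of_nonneg_left (mul_le_mul k2 k1 τ0 (by positivity))
        (d0 (t / a - 1))
      linarith
  refine ⟨χ t * μ t * (p / 2 * W * t ^ (-p)) * t ^ (-N),
    mul_nonneg (mul_nonneg (mul_nonneg (c5 t).1 (P.bd t).1) P0) τ0, fun k k' => ?_, ?_⟩
  · rw [c3 t k', one_mul]
    exact mul_le_mul_of_nonneg_right (mul_le_mul_of_nonneg_right (P.half t k) P0) τ0
  · rw [f2, e1, p2]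
    refine (alg (by linarith) t0 τ0 u1 ?_ (mul_nonneg (mul_nonneg (mul_nonneg zero_le_two (c5 t).1)
      (by positivity : 0 ≤ t / a)) (d0 (t / a - 1))) hL hI hε hκ hP).trans (by linarith)
    have k := mul_nonpos_of_nonneg_of_nonpos t0.le u2
    have k' : t * (χ t * (2 * (deriv Real.smoothTransition (t / a - 1) * (1 / a)))) =
        2 * χ t * (t / a) * deriv Real.smoothTransition (t / a - 1) := by ring
    linarith

variable {n : ℕ} {g : Field n} {x : E n}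

theorem est2 (hg : Met g) {a a₁ : ℝ} (h1 : ∀ i j, |up g i j x - eu n x i j| ≤ a)
    (h2 : ∀ j, |bv g j x| ≤ a₁) :
    lap g (fun y => ‖y‖ ^ 2) x ≤ 2 * n + 2 * n * (a + a₁ * ‖x‖) := by
  have c : ∀ i, |x i| ≤ ‖x‖ := fun i => PiLp.norm_apply_le x i
  have e : ∀ j, (pd j fun y : E n => ‖y‖ ^ 2) = fun y => 2 * y j := fun j => funext (pd_normSq j)
  rw [hg.lap_eq contDiff_normSq.contDiffAt, ← Finset.sum_add_distrib]
  refine (Finset.sum_le_sum (g := fun _ => 2 + 2 * (a + a₁ * ‖x‖)) fun i _ => ?_).trans_eq ?_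
  · have k1 := (abs_le.1 (h1 i i)).2
    have k2 := (abs_le.1 ((abs_mul _ _).trans_le
      (mul_le_mul (h2 i) (c i) (abs_nonneg _) ((abs_nonneg _).trans (h2 i))))).2
    simp only [e, pd_const_mul, pd_coord, mul_ite, mul_one, mul_zero, Finset.sum_ite_eq,
      Finset.mem_univ, if_true, eu] at k1 ⊢
    linarith
  · simp only [Finset.sum_const, Finset.card_fin, nsmul_eq_mul]
    ring

theorem geo (hM : MAT) (hS : SCL) (n : ℕ) (q : ℝ) {C : ℝ} (hn : 3 ≤ n) (hC : 0 < C) :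
    ∃ A > (0 : ℝ), ∃ B > (0 : ℝ), ∀ (g : Field n) (R₁ : ℝ) (x : E n), Met g → Af g q C R₁ →
      R₁ ≤ ‖x‖ → 0 < ‖x‖ → B * ‖x‖ ^ (-q) ≤ 1 →
      |lap g (fun y => ‖y‖ ^ 2) x - 4 * (n / 2)| ≤ A * ‖x‖ ^ (-q) ∧
        |ip g (fun y => ‖y‖ ^ 2) (fun y => ‖y‖ ^ 2) x - 4 * ‖x‖ ^ 2| ≤
          4 * ‖x‖ ^ 2 * (A * ‖x‖ ^ (-q)) := by
  obtain ⟨e, e0, K, K0, hK⟩ := hM n
  obtain ⟨e', e0', K', K0', hK'⟩ := hS n
  have n3 : (3 : ℝ) ≤ n := by exact_mod_cast hn
  refine ⟨(2 * n * (K + K') + n ^ 2 * K) * C, by positivity, C / e + C / e', by positivity,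
    fun g R₁ x hg ha h x0 hB => ?_⟩
  have y0 := Real.rpow_pos_of_pos x0 (-q)
  have af := ha x h
  have d : ∀ c, 0 < c → C / c ≤ C / e + C / e' → C * ‖x‖ ^ (-q) ≤ c := fun c c0 k => by
    have := (mul_le_mul_of_nonneg_right k y0.le).trans hB
    rwa [div_mul_eq_mul_div, div_le_one c0] at this
  have m1 := (hK g x _ hg (by positivity) (d e e0 (le_add_of_nonneg_right (by positivity)))
    fun i j => (af i j i i).1).1
  have m2 := (hK' g x _ _ _ hg (by positivity) (d e' e0' (le_add_of_nonneg_left (by positivity)))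
    (by positivity) (by positivity) (fun i j => (af i j i i).1) (fun i j k => (af i j k k).2.1)
    fun i j k l => (af i j k l).2.2).2.2
  obtain ⟨l1, l2⟩ := est hg m1 m2
  have l3 := est2 hg m1 m2
  have e1 : K' * (C * ‖x‖ ^ (-(q + 1))) * ‖x‖ = K' * (C * ‖x‖ ^ (-q)) := by
    rw [neg_add', Real.rpow_sub_one x0.ne']
    field_simp
  rw [e1] at l1 l3
  have u1 : 0 ≤ n ^ 2 * (K * (C * ‖x‖ ^ (-q))) := by positivity
  have u2 : 0 ≤ 2 * n * (K * (C * ‖x‖ ^ (-q)) + K' * (C * ‖x‖ ^ (-q))) := by positivity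
  exact ⟨abs_le.2 ⟨by linarith, by linarith⟩,
    l2.trans (mul_le_mul_of_nonneg_left (by linarith) (by positivity))⟩

end RbH

open BarA RbH

/-- **RB2** -/
theorem rb2_of (hM : MAT) (hS : SCL) : RB2 := by
  intro n q C hn hq hC
  obtain ⟨A, A0, B, B0, hA⟩ := geo hM hS n q hn hC
  have n3 : (3 : ℝ) ≤ n := by exact_mod_cast hn
  obtain ⟨S₀, hS₀⟩ := eventually_atTop.1 (((tendsto_rpow_atTop hq).eventually_ge_atTop
    (B + 2 * A + 3 * (A * (1 + 2 * n) + 3 * C) / (q / 4))).and (eventually_ge_atTop 1))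
  have N1 : 1 < (n : ℝ) / 2 := by linarith
  have β0 : 0 < ((n : ℝ) / 2 - 1)⁻¹ := inv_pos.2 (by linarith)
  refine ⟨q / 8 / 2 ^ q, by positivity, 2 * ((n : ℝ) / 2 - 1)⁻¹ + 24, by positivity,
    2 * max S₀ 1, by positivity, fun g R₁ R ρ T hg ha r1 r2 r3 r4 => ?_⟩
  obtain ⟨S, rfl⟩ : ∃ S, R = 2 * S := ⟨R / 2, by ring⟩
  obtain ⟨s2, s1⟩ := hS₀ S (by linarith [le_max_left S₀ 1])
  have S0 : 0 < S := by linarith
  have ρ0 : 0 < ρ := by linarith
  have W0 := Real.rpow_pos_of_pos S0 q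
  have pw : ∀ r : ℝ, 0 ≤ r → (r ^ 2) ^ (-(q / 2)) = r ^ (-q) ∧ (r ^ 2) ^ (-(n / 2 : ℝ)) = r ^ (-n : ℝ) ∧
      (r ^ 2) ^ (1 - n / 2 : ℝ) = r ^ (2 - n : ℝ) := fun r h => by
    simp only [sq_rpow h]
    refine ⟨?_, ?_, ?_⟩ <;> refine congrArg _ ?_ <;> ring
  have w1 : ∀ r, S ≤ r → S ^ q * r ^ (-q) ≤ 1 := fun r h =>
    (mul_le_mul_of_nonneg_left (Real.rpow_le_rpow_of_nonpos S0 h (by linarith)) W0.le).trans_eq
      (by rw [Real.rpow_neg S0.le, mul_inv_cancel₀ W0.ne'])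
  obtain ⟨Φ, sm, inn, out, bd, hz⟩ := ex2 (W := S ^ q) (s := S ^ 2) (a := ρ ^ 2) (B := T ^ 2) N1
    (half_pos hq) (by positivity) W0.le ((pw S S0.le).1 ▸ w1 S le_rfl) (by nlinarith) (by nlinarith)
  have bp0 : ∀ x : E n, 0 ≤ bp ρ x := fun x => mul_nonneg (d0 _) (by positivity)
  have b1 : ∀ x : E n, S ≤ ‖x‖ → |Φ (‖x‖ ^ 2)| ≤ 2 * ((n : ℝ) / 2 - 1)⁻¹ * ‖x‖ ^ (2 - n : ℝ) :=
    fun x h => (pw _ (norm_nonneg x)).2.2 ▸ bd _ (pow_pos (S0.trans_le h) 2)
  have b2 : ∀ r, S ≤ r → |Φ (r ^ 2)| ≤ 2 * ((n : ℝ) / 2 - 1)⁻¹ + 24 := fun r h => by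
    have k := bd _ (pow_pos (S0.trans_le h) 2)
    rw [(pw _ (S0.le.trans h)).2.2] at k
    have k1 : r ^ (2 - n : ℝ) ≤ 1 := Real.rpow_le_one_of_one_le_of_nonpos (s1.trans h) (by linarith)
    linarith [mul_le_of_le_one_right (by positivity : 0 ≤ 2 * ((n : ℝ) / 2 - 1)⁻¹) k1]
  have key : ∀ (x : E n) (k : ℝ), S ≤ ‖x‖ → 0 ≤ k → k ≤ C * ‖x‖ ^ (-(q + 1)) → ∃ z, 0 ≤ z ∧
      (2 * S ≤ ‖x‖ → ‖x‖ ≤ T → q / 8 * S ^ q * (‖x‖ ^ (-q) * ‖x‖ ^ (-n : ℝ)) ≤ z) ∧
      lap g (fun y => Φ (‖y‖ ^ 2)) x + k * gn g (fun y => Φ (‖y‖ ^ 2)) x ≤ 24 * bp ρ x - z := by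
    intro x k h k0 k1
    have x0 := S0.trans_le h
    have y0 := Real.rpow_pos_of_pos x0 (-q)
    have sm' : ∀ B, B ≤ S ^ q → B * ‖x‖ ^ (-q) ≤ 1 := fun B k =>
      (mul_le_mul_of_nonneg_right k y0.le).trans (w1 _ h)
    have q3 : 0 ≤ 3 * (A * (1 + 2 * n) + 3 * C) / (q / 4) := by positivity
    obtain ⟨l1, u5⟩ := hA g R₁ x hg ha (by linarith) x0 (sm' B (by linarith only [s2, A0, q3]))
    have e0 : ‖x‖ ^ (-(q + 1)) * ‖x‖ = ‖x‖ ^ (-q) := by
      rw [neg_add', Real.rpow_sub_one x0.ne']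
      field_simp
    have u4 : A * ‖x‖ ^ (-q) ≤ 1 / 2 := by
      linarith only [sm' (2 * A) (by linarith only [s2, B0, q3])]
    have u6 : gn g (fun y => ‖y‖ ^ 2) x ≤ 3 * ‖x‖ := Real.sqrt_le_iff.2 ⟨by positivity, by
      linarith only [(abs_le.1 u5).2, sq_nonneg ‖x‖,
        mul_le_mul_of_nonneg_left u4 (by positivity : 0 ≤ 4 * ‖x‖ ^ 2)]⟩
    have u7 : k * gn g (fun y => ‖y‖ ^ 2) x ≤ 3 * C * ‖x‖ ^ (-q) :=
      (mul_le_mul k1 u6 (gn_nonneg _ _ _) (by positivity)).trans_eq (by rw [← e0]; ring)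
    have u8 : 3 * (A * (1 + 2 * n) + 3 * C) ≤ S ^ q * (q / 4) :=
      (div_le_iff₀ (by positivity)).1 (by linarith only [s2, A0, B0])
    have u9 := mul_le_mul_of_nonneg_right u8 y0.le
    obtain ⟨z, z0, z1, z2⟩ := hz (‖x‖ ^ 2) (lap g (fun y => ‖y‖ ^ 2) x) _ (A * ‖x‖ ^ (-q))
      (k * gn g (fun y => ‖y‖ ^ 2) x) (by gcongr) l1 u5 u4
      (mul_nonneg k0 (gn_nonneg _ _ _)) (by rw [(pw _ x0.le).1]; linarith only [u7, u9])
    refine ⟨z, z0, fun h1 h2 => le_of_eq_of_le ?_ (z1 (by nlinarith only [h1, S0]) (by gcongr)), ?_⟩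
    · rw [(pw _ x0.le).1, (pw _ x0.le).2.1]
      ring
    · rw [hg.lap_comp contDiff_normSq.contDiffAt (sm.contDiffAt.of_le (by norm_cast)),
        gn_comp (u := fun y => ‖y‖ ^ 2) (sm.differentiable (by simp) _).hasDerivAt
          (Smooth.diff contDiff_normSq x), bp, ← (pw ρ ρ0.le).2.1]
      linarith only [z2]
  refine ⟨fun y => Φ (‖y‖ ^ 2), sm.comp contDiff_normSq, fun x h => ?_, fun x => ?_,
    fun x h => ?_, fun x h => out _ (by nlinarith only [h, r4, ρ0]), fun x k k0 k1 => ?_⟩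
  · exact (inn _ (by gcongr; linarith)).symm.trans (inn _ (by simp [sq_nonneg]))
  · rcases le_total ‖x‖ S with h | h
    · exact (congrArg abs (inn (‖x‖ ^ 2) (by gcongr))).symm.trans_le (b2 S le_rfl)
    · exact b2 _ h
  · exact (b1 x (by linarith)).trans (mul_le_mul_of_nonneg_right
      (le_add_of_nonneg_right (by norm_num)) (by positivity))
  have L1 : 24 * bp ρ x ≤ (2 * ((n : ℝ) / 2 - 1)⁻¹ + 24) * bp ρ x :=
    mul_le_mul_of_nonneg_right (le_add_of_nonneg_left (by positivity)) (bp0 x)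
  rcases lt_or_ge ‖x‖ S with h | h
  · have loc : (fun y : E n => Φ (‖y‖ ^ 2)) =ᶠ[𝓝 x] fun _ => Φ (S ^ 2) := by
      filter_upwards [(isOpen_lt continuous_norm continuous_const).mem_nhds h] with y hy
      exact (inn _ (by gcongr)).symm
    refine ⟨?_, fun h' => absurd h (by linarith)⟩
    rw [lap_congr loc, lap_const, gn_congr loc, gn_zero fun i => pd_const _ i x, mul_zero, add_zero]
    linarith [bp0 x]
  obtain ⟨z, z0, z1, z2⟩ := key x k h k0 (k1 (by linarith))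
  refine ⟨by linarith only [z0, z2, L1], fun h1 h2 => ?_⟩
  have x0 := S0.trans_le h
  have k := z1 h1 h2
  have e : q / 8 / 2 ^ q * (2 * S) ^ q * ‖x‖ ^ (-(n + q)) =
      q / 8 * S ^ q * (‖x‖ ^ (-q) * ‖x‖ ^ (-n : ℝ)) := by
    rw [← Real.rpow_add x0, Real.mul_rpow zero_le_two S0.le, show -q + -(n : ℝ) = -(n + q) by ring]
    field_simp
  linarith only [k, e, z2, L1]

end Vale.Agent.P366Y.B
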