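import Vale.Agent.P366Y.B.GluDefs
import Vale.Agent.P366Z.Int

/-!
# P366Y, block B: the linear correction
-/

open MeasureTheory Metric Filter Topology Set
open scoped ContDiff ENNReal
open Vale.Agent.P366.Stmt Vale.Agent.P366Z Vale.Agent.P366Z.St0
open Vale.Agent.P366Y.A (Sy B0 Bk ck mg)

noncomputable section

namespace Vale.Agent.P366Y.B

namespace SolvH

variable {n : ℕ} {σ σ' : E n → ℝ} {A A' q ρ : ℝ}

theorem lin (h : Src σ A q ρ) (h' : Src σ' A' q ρ) (ρ0 : 0 < ρ) {a b B : ℝ}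
    (hB : |a| * A + |b| * A' ≤ B) : Src (fun x => a * σ x + b * σ' x) B q ρ := by
  have k : ∀ s t r : ℝ, 0 ≤ r → |s| ≤ A * r → |t| ≤ A' * r → |a * s + b * t| ≤ B * r :=
    fun s t r r0 hs ht => by
      refine (abs_add_le _ _).trans (le_trans ?_ (mul_le_mul_of_nonneg_right hB r0))
      rw [abs_mul, abs_mul, add_mul, mul_assoc, mul_assoc]
      gcongr
  refine ⟨(contDiff_const.mul h.sm).add (contDiff_const.mul h'.sm), fun x hx => ?_,
    fun x => k _ _ _ (by positivity) (h.d0 x) (h'.d0 x), fun x i => ?_⟩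
  · rw [h.zero x hx, h'.zero x hx, mul_zero, mul_zero, add_zero]
  · rw [pd_add ((h.sm.diff x).const_mul a) ((h'.sm.diff x).const_mul b), pd_const_mul, pd_const_mul]
    exact k _ _ _ (by positivity) (h.d1 x i) (h'.d1 x i)

theorem int (h : Src σ A q ρ) : Integrable σ :=
  h.sm.cont.integrable_of_hasCompactSupport (supp_of_out fun x hx => h.zero x (Or.inr hx))

theorem mean (h : Src σ A q ρ) (h' : Src σ' A' q ρ) (a b : ℝ) :
    ∫ x, (a * σ x + b * σ' x) = a * (∫ x, σ x) + b * ∫ x, σ' x := by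
  rw [integral_add ((int h).const_mul a) ((int h').const_mul b), integral_const_mul,
    integral_const_mul]

theorem o2_mono {w : E n → ℝ} {B B' : ℝ} (h : O2 B q ρ w) (ρ0 : 0 < ρ) (e : B ≤ B') :
    O2 B' q ρ w := fun x i j =>
  ⟨(h x i j).1.trans (by gcongr), (h x i j).2.1.trans (by gcongr), (h x i j).2.2.trans (by gcongr)⟩

end SolvH

open SolvH

theorem solv_of (hE : ERE) (hS : ERS) (hB : BP) (hN : NP2) (hK : KY) : SOLV := by
  intro n g K g₂ K₂ q q' C R m m₂ P hn q0 q1 q'0 q'1 C0 R1 h1 h2 hm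
  obtain ⟨Ae, Ae0, hE⟩ := hE n q C q0 C0
  obtain ⟨As, As0, hS⟩ := hS n q C q0 C0
  obtain ⟨κ, κ0, Ab, Ab0, hB⟩ := hB n hn
  obtain ⟨Cn, Cn0, hN⟩ := hN n q q' hn q0 (by linarith) q'0 q'1
  obtain ⟨Ck, Ck0, hK⟩ := hK n hn
  obtain ⟨e1, e2⟩ := hE g g₂ R h1.met h2.met h1.af h2.af R1
  obtain ⟨s1, s2⟩ := hS K K₂ R h1.sy h2.sy h1.ak h2.ak R1
  have γ1 := one_lt_gam hn
  have n3 : (3 : ℝ) ≤ n := by exact_mod_cast hn
  obtain ⟨I₀, hI⟩ : ∃ I₀, I₀ = 2 * ((n : ℝ) - 1) * omega n * (m₂ - m) := ⟨_, rfl⟩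
  have I0 : 0 < I₀ := by
    have := omega_pos (n := n) (by omega)
    rw [hI]
    exact mul_pos (mul_pos (by linarith) this) (by linarith)
  have t1 := hI ▸ e2 m m₂ h1.ce h2.ce
  have v1 := (t1.eventually (lt_mem_nhds (half_lt_self I0))).and
    (t1.eventually (gt_mem_nhds (show I₀ < 2 * I₀ by linarith)))
  have v2 : ∀ᶠ ρ in atTop, ∀ j, |∫ x, es ρ K K₂ j x| < I₀ / (16 * n) := eventually_all.2 fun j =>
    (s2 P h1.cp h2.cp j).abs.eventually (gt_mem_nhds (by rw [abs_zero]; positivity))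
  obtain ⟨ρ₀, hρ⟩ := eventually_atTop.1 ((v1.and v2).and (eventually_ge_atTop R))
  obtain ⟨A, hA⟩ : ∃ A, A = Ae + As + 2 * I₀ / κ * Ab := ⟨_, rfl⟩
  have A0 : 0 < A := by rw [hA]; positivity
  refine ⟨(1 + Ck) * (Cn * A), by positivity, I₀ / (8 * κ), by positivity, ρ₀, fun ρ hρ' τ τ0 => ?_⟩
  obtain ⟨⟨⟨i1, i2⟩, i3⟩, i4⟩ := hρ ρ hρ'
  have ρ1 := R1.trans i4
  have ρ0 : 0 < ρ := by linarith
  obtain ⟨b1, b2, b3⟩ := hB ρ ρ1
  obtain ⟨τ', hτ⟩ : ∃ τ', τ' = τ / (2 * gam n + 2 * n) := ⟨_, rfl⟩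
  have τ1 : (2 * gam n + 2 * n) * τ' = τ := by rw [hτ]; field_simp
  have τ'0 : 0 < τ' := by rw [hτ]; positivity
  obtain ⟨T₀, hT⟩ := hN A ρ τ' ρ1 A0.le τ'0
  refine ⟨T₀ + 1, fun T hT' => ?_⟩
  have r1 : Src (fun x => 1 / (4 * gam n) * ee ρ g g₂ x +
      -((∫ x, ee ρ g g₂ x) / κ / (4 * gam n)) * bp ρ x) A q ρ := lin (e1 ρ i4) (b1 q q1) ρ0 (by
    have k1 : |1 / (4 * gam n)| ≤ 1 := by
      rw [abs_of_pos (by positivity), div_le_one (by positivity)]; linarith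
    have k2 : |-((∫ x, ee ρ g g₂ x) / κ / (4 * gam n))| ≤ 2 * I₀ / κ := by
      have : 0 ≤ (∫ x, ee ρ g g₂ x) / κ := div_nonneg (by linarith) κ0.le
      rw [abs_neg, abs_of_nonneg (by positivity)]
      exact (div_le_self this (by linarith)).trans (by gcongr)
    have k3 := mul_le_mul_of_nonneg_right k1 Ae0.le
    have k4 := mul_le_mul_of_nonneg_right k2 Ab0.le
    linarith)
  have k5 : ∀ j, |(∫ x, es ρ K K₂ j x) / κ| ≤ I₀ / (16 * n) / κ := fun j => by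
    rw [abs_div, abs_of_pos κ0]
    exact div_le_div_of_nonneg_right (i3 j).le κ0.le
  have r2 : ∀ j, Src (fun x => -1 * es ρ K K₂ j x + (∫ x, es ρ K K₂ j x) / κ * bp ρ x) A q ρ :=
    fun j => lin (s1 ρ i4 j) (b1 q q1) ρ0 (by
      have k2 : I₀ / (16 * n) / κ ≤ 2 * I₀ / κ := by
        gcongr; exact (div_le_self I0.le (by linarith)).trans (by linarith)
      have k4 := mul_le_mul_of_nonneg_right ((k5 j).trans k2) Ab0.le
      rw [abs_neg, abs_one]
      linarith)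
  obtain ⟨w, w1, w2, w3, w4⟩ := hT (T - 1) (by linarith) _ r1 (by
    rw [mean (e1 ρ i4) (b1 q q1), b3]; field_simp; ring)
  choose Y y1 y2 y3 y4 using fun j => hT (T - 1) (by linarith) _ (r2 j) (by
    rw [mean (s1 ρ i4 j) (b1 q q1), b3]; field_simp; ring)
  obtain ⟨z1, z2, z3⟩ := hK Y y1
  have m0 : ∀ x : E n, 0 ≤ mg q' x := fun x => by unfold mg; positivity
  have CA : 0 ≤ Cn * A := by positivity
  refine ⟨w, ky Y, w1, z1, o2_mono w4 ρ0 (by nlinarith), fun x i j k => ?_, fun x hx => ?_,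
    fun x hx => ?_, fun x => ?_⟩
  · obtain ⟨k1, k2⟩ := z3 _ q ρ ρ0 y4 x i j k
    have : Ck * (Cn * A) ≤ (1 + Ck) * (Cn * A) := by nlinarith
    exact ⟨k1.trans (by gcongr), k2.trans (by gcongr)⟩
  · have p : ∀ i j, pd i (Y j) x = 0 := fun i j => by
      rw [pd_congr (h := fun _ => 0) ((continuousAt_const.eventually_lt continuous_norm.continuousAt
        (show T - 1 < ‖x‖ by linarith)).mono fun y hy => y2 j y hy.le), pd_const]
    refine ⟨w2 x (by linarith), ?_⟩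
    funext i j
    simp [ky, p]
  · have k := w3 x
    rw [r1.zero x (Or.inl hx), sub_zero] at k
    refine k.trans (mul_le_mul_of_nonneg_right ?_ (m0 x))
    nlinarith
  · have k1 := (abs_le.1 (w3 x)).2
    have k2 : ∀ j, |es ρ K K₂ j x + lj (ky Y) j x| ≤ I₀ / (16 * n) / κ * bp ρ x + τ' * mg q' x :=
      fun j => by
        have k3 := abs_le.1 (y3 j x)
        have k4 := abs_le.1 (k5 j)
        have k6 := mul_le_mul_of_nonneg_right k4.1 (b2 x)
        have k7 := mul_le_mul_of_nonneg_right k4.2 (b2 x)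
        rw [z2, abs_le]
        constructor <;> linarith [k3.1, k3.2]
    have k3 := Finset.sum_le_sum fun j (_ : j ∈ Finset.univ) => k2 j
    rw [Finset.sum_const, Finset.card_univ, Fintype.card_fin, nsmul_eq_mul] at k3
    have k4 := mul_le_mul_of_nonneg_left k1 (show 0 ≤ 2 * gam n by linarith)
    have k6 : I₀ / 2 / κ * bp ρ x ≤ (∫ x, ee ρ g g₂ x) / κ * bp ρ x := by
      have := b2 x
      gcongr
    have k7 : 2 * gam n * (1 / (4 * gam n) * ee ρ g g₂ x +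
        -((∫ x, ee ρ g g₂ x) / κ / (4 * gam n)) * bp ρ x) =
        ee ρ g g₂ x / 2 - (∫ x, ee ρ g g₂ x) / κ * bp ρ x / 2 := by field_simp; ring
    have k8 : n * (I₀ / (16 * n) / κ * bp ρ x) = I₀ / (8 * κ) * bp ρ x / 2 := by field_simp; ring
    have k9 : I₀ / 2 / κ * bp ρ x = 4 * (I₀ / (8 * κ) * bp ρ x) := by field_simp; ring
    rw [← τ1]
    linarith

end Vale.Agent.P366Y.B
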