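import Vale.Agent.P366Y.B.Defs
import Vale.Agent.P366Y.C.Stat
import Vale.Agent.P366Z.Calc3

/-!
# P366Y, block B, row SV1: graphs in static vacuum spacetimes
-/

open MeasureTheory Metric Filter Topology Set
open scoped ContDiff ENNReal
open Vale.Agent.P366.Stmt Vale.Agent.P366Z
open Vale.Agent.P366.Kerr (pt sp tng con indG indK lapse ein ric)
open Vale.Agent.P366Y.C.StatH

noncomputable section

namespace Vale.Agent.P366Y.B

namespace Sv1H

variable {n : ℕ} {φ f : E n → ℝ} {γ : P366.Stmt.Field n} {p : E (n + 1)} {y : E n}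

theorem dss (k i j : Fin n) :
    pd k.succ (fun p => st φ γ p i.succ j.succ) p = pd k (fun y => γ y i j) (sp p) :=
  pd_sp (fun y => γ y i j) k

section
variable (hγ : Met γ) (h0 : ∀ x, 0 < φ x) (i j k : Fin n) (p : E (n + 1))
include hγ h0

theorem csss : chr (st φ γ) k.succ i.succ j.succ p = chr γ k i j (sp p) := by
  simp [chr, Fin.sum_univ_succ, up_st hγ h0, bs0, bss, dss]

theorem cs00 (hφ : Smooth φ) : chr (st φ γ) k.succ 0 0 p = φ (sp p) * gr γ φ k (sp p) := by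
  simp only [chr, Fin.sum_univ_succ, up_st hγ h0, bs0, bss, d0, d00 hφ, zero_mul, gr,
    Finset.mul_sum, Finset.sum_div, zero_add]
  exact Finset.sum_congr rfl fun l _ => by ring

theorem ric_0s : ric (st φ γ) 0 i.succ p = 0 := by
  have e : ∀ (a : Fin (n + 1)) (k l : Fin n), pd a (chr (st φ γ) k.succ 0 l.succ) p = 0 :=
    fun a k l => by
      rw [show chr (st φ γ) k.succ 0 l.succ = fun _ => 0 from funext (cs0s hγ h0 l k), pd_const]
  have e0 : ∀ a : Fin (n + 1), pd a (chr (st φ γ) 0 0 0) p = 0 := fun a => by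
    rw [show chr (st φ γ) 0 0 0 = fun _ => 0 from funext (c000 hγ h0), pd_const]
  simp [ric, Fin.sum_univ_succ, e, e0, (iv_chr _ _ _).zero p, c000 hγ h0, c0ss hγ h0,
    cs0s hγ h0, css0 hγ h0]

theorem ric_ss (hφ : Smooth φ) :
    ric (st φ γ) i.succ j.succ p = ric γ i j (sp p) - hess γ φ (sp p) i j / φ (sp p) := by
  have a0 := (h0 (sp p)).ne'
  have e : ∀ m k i j : Fin n, pd m.succ (chr (st φ γ) k.succ i.succ j.succ) p =
      pd m (chr γ k i j) (sp p) := fun m k i j => by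
    rw [show chr (st φ γ) k.succ i.succ j.succ = fun p => chr γ k i j (sp p) from
      funext (csss hγ h0 i j k), pd_sp]
  have e0 : pd j.succ (chr (st φ γ) 0 i.succ 0) p =
      pd i (pd j φ) (sp p) / φ (sp p) - pd i φ (sp p) * pd j φ (sp p) / φ (sp p) ^ 2 := by
    rw [show chr (st φ γ) 0 i.succ 0 = fun p => pd i φ (sp p) / φ (sp p) from
      funext fun p => c0s0 hγ h0 i p hφ]
    refine (pd_sp (fun y => pd i φ y / φ y) j).trans ?_
    rw [pd_div ((hφ.pd i).diff _) (hφ.diff _) a0, pd_comm (hφ.c2 _) j i]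
    field_simp
  have e1 : ∑ l, pd l φ (sp p) / φ (sp p) * chr γ l i j (sp p) =
      (∑ l, chr γ l i j (sp p) * pd l φ (sp p)) / φ (sp p) := by
    rw [Finset.sum_div]
    exact Finset.sum_congr rfl fun l _ => by ring
  simp only [ric, Fin.sum_univ_succ, e, e0, (iv_chr _ _ _).zero p, c0ss hγ h0,
    css0 hγ h0, csss hγ h0, c00s hγ h0 _ _ hφ, c0s0 hγ h0 _ _ hφ, mul_zero,
    e1, hess, Finset.sum_add_distrib, Finset.sum_sub_distrib, Finset.sum_const_zero]
  field_simp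
  ring

end

theorem ein_zero (hγ : Met γ) (hφ : Smooth φ) (h0 : ∀ x, 0 < φ x) (hV : Vac γ φ y) (t : ℝ)
    (a b : Fin (n + 1)) : ein (st φ γ) a b (pt t y) = 0 := by
  have a0 := (h0 y).ne'
  have hss : ∀ i j : Fin n, ric (st φ γ) i.succ j.succ (pt t y) = 0 := fun i j => by
    rw [ric_ss hγ h0 i j _ hφ, sp_pt, ← hV.1 i j]
    field_simp
    ring
  have hs : scal γ y = 0 := by
    have h1 : φ y * scal γ y = lap γ φ y := by
      rw [hγ.lap_eq_tr (hφ.c2 y), P366.GC.scal_ric', tr, Finset.mul_sum]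
      refine Finset.sum_congr rfl fun i _ => ?_
      rw [Finset.mul_sum]
      exact Finset.sum_congr rfl fun j _ => by rw [← hV.1 i j]; ring
    rw [hV.2] at h1
    exact (mul_eq_zero.1 h1).resolve_left a0
  have h00 := ein00 hγ hφ h0 t y
  rw [hs, mul_zero, zero_div] at h00
  have hS : scal (st φ γ) (pt t y) = -(φ y ^ 2)⁻¹ * ric (st φ γ) 0 0 (pt t y) := by
    rw [P366.GC.scal_ric']
    simp [Fin.sum_univ_succ, up_st hγ h0, b00, b0s, bs0, hss, sp_pt]
  have hS0 : scal (st φ γ) (pt t y) = 0 := by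
    have h1 := h00
    rw [ein, show st φ γ (pt t y) 0 0 = -φ y ^ 2 from rfl] at h1
    have h2 : φ y ^ 2 * scal (st φ γ) (pt t y) = 0 := by
      have h3 : φ y ^ 2 * scal (st φ γ) (pt t y) = -ric (st φ γ) 0 0 (pt t y) := by
        rw [hS]
        field_simp
      linarith
    exact (mul_eq_zero.1 h2).resolve_left (pow_ne_zero 2 a0)
  refine Fin.cases ?_ (fun i => ?_) a <;> refine Fin.cases ?_ (fun j => ?_) b
  · exact h00
  · rw [ein, ric_0s hγ h0, hS0]
    simp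
  · exact ein_s0 hγ h0 i _
  · rw [ein, hss, hS0]
    simp

theorem cs (hγ : Met γ) (f : E n → ℝ) (y : E n) (ξ : Fin n → ℝ) :
    (∑ i, pd i f y * ξ i) ^ 2 ≤ ip γ f f y * ∑ i, ∑ j, γ y i j * ξ i * ξ j := by
  have h := quad_cs (hγ.sy y) (hγ.g_nonneg y) ξ fun j => gr γ f j y
  have e : ∀ X : Fin n → ℝ, ∑ i, ∑ j, γ y i j * X i * gr γ f j y = ∑ i, pd i f y * X i :=
    fun X => Finset.sum_congr rfl fun i _ => by
      rw [← hγ.g_up_mul y i fun l => pd l f y, Finset.sum_mul]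
      exact Finset.sum_congr rfl fun j _ => by rw [gr]; ring
  rw [e, e, ← ip_eq_gr, mul_comm] at h
  exact h

theorem met_sg (hγ : Met γ) (hφ : Smooth φ) (hf : Smooth f) (h1 : ∀ y, φ y ^ 2 * ip γ f f y < 1) :
    Met (sg γ φ f) where
  sm i j := ContDiff.sub (hγ.sm i j) (((ContDiff.pow hφ 2).mul (hf.pd i)).mul (hf.pd j))
  sy x i j := by unfold sg; rw [hγ.sy]; ring
  pos x := by
    refine Matrix.PosDef.of_dotProduct_mulVec_pos ?_ fun ξ hξ => ?_
    · ext i j
      change sg γ φ f x j i = sg γ φ f x i j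
      unfold sg
      rw [hγ.sy]
      ring
    · rw [← quad_eq]
      have e : ∑ i, ∑ j, mat (sg γ φ f) x i j * ξ i * ξ j =
          ∑ i, ∑ j, γ x i j * ξ i * ξ j - φ x ^ 2 * (∑ i, pd i f x * ξ i) ^ 2 := by
        rw [sq (∑ i, pd i f x * ξ i), Finset.sum_mul_sum, Finset.mul_sum, ← Finset.sum_sub_distrib]
        refine Finset.sum_congr rfl fun i _ => ?_
        rw [Finset.mul_sum, ← Finset.sum_sub_distrib]
        exact Finset.sum_congr rfl fun j _ => by simp only [mat, sg]; ring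
      rw [e]
      have h2 := mul_le_mul_of_nonneg_left (cs hγ f x ξ) (sq_nonneg (φ x))
      have h3 := hγ.g_pos x hξ
      nlinarith [h1 x]

theorem rad_pos (h0 : 0 < φ y) (h1 : φ y ^ 2 * ip γ f f y < 1) : 0 < (φ y ^ 2)⁻¹ - ip γ f f y := by
  have h2 : 0 < φ y ^ 2 := pow_pos h0 2
  rw [sub_pos, ← one_div, lt_div_iff₀ h2, mul_comm]
  exact h1

theorem indK_eq (hγ : Met γ) (hφ : Smooth φ) (h0 : ∀ x, 0 < φ x) :
    indK (st φ γ) f = sk γ φ f := by
  funext y i j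
  have e1 : lapse (st φ γ) f y = 1 / √((φ y ^ 2)⁻¹ - ip γ f f y) := by
    rw [lapse, qf hγ h0]
    congr 2
    ring
  have e2 : ∑ k, pd k f y * (φ y * gr γ φ k y * pd i f y * pd j f y + chr γ k i j y) =
      φ y * ip γ φ f y * pd i f y * pd j f y + ∑ k, chr γ k i j y * pd k f y := by
    rw [hγ.ip_sy, ip_eq_gr, Finset.mul_sum, Finset.sum_mul, Finset.sum_mul,
      ← Finset.sum_add_distrib]
    exact Finset.sum_congr rfl fun k _ => by ring
  rw [indK, e1, sk, hess]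
  simp only [Fin.sum_univ_succ, con, tng, Fin.cons_zero, Fin.cons_succ, c000 hγ h0, c0ss hγ h0,
    cs0s hγ h0, css0 hγ h0, csss hγ h0, c00s hγ h0 _ _ hφ, c0s0 hγ h0 _ _ hφ, cs00 hγ h0 _ _ hφ,
    sp_pt, zero_mul, zero_add, add_zero, Pi.single_apply, mul_ite, mul_one, ite_self,
    mul_zero, ite_mul, Finset.sum_ite_eq', Finset.mem_univ, if_true, one_mul, neg_mul,
    Finset.sum_neg_distrib, e2]
  ring

theorem sy_sk (hγ : Met γ) (hφ : Smooth φ) (hf : Smooth f) (h0 : ∀ x, 0 < φ x)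
    (h1 : ∀ y, φ y ^ 2 * ip γ f f y < 1) : A.Sy (sk γ φ f) where
  sm i j := ContDiff.div (ContDiff.sub (ContDiff.add (hγ.sm_hess hf i j)
      (ContDiff.div (ContDiff.add (ContDiff.mul (hφ.pd i) (hf.pd j))
        (ContDiff.mul (hφ.pd j) (hf.pd i))) hφ fun y => (h0 y).ne'))
      (((ContDiff.mul hφ (hγ.sm_ip hφ hf)).mul (hf.pd i)).mul (hf.pd j)))
    (ContDiff.sqrt (ContDiff.sub ((ContDiff.pow hφ 2).inv fun y => pow_ne_zero 2 (h0 y).ne')
      (hγ.sm_ip hf hf)) fun y => (rad_pos (h0 y) (h1 y)).ne')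
    fun y => (Real.sqrt_pos.2 (rad_pos (h0 y) (h1 y))).ne'
  sy x i j := by
    unfold sk
    rw [hγ.hess_sy (hf.c2 x)]
    ring

end Sv1H

open Sv1H in
/-- **row SV1** -/
theorem sv1 : SV1 := by
  intro n γ φ f hγ hφ hf h0 h1
  have hg := met_sg hγ hφ hf h1
  refine ⟨hg, sy_sk hγ hφ hf h0 h1, fun y hV => ?_⟩
  have e1 : indG (st φ γ) f = sg γ φ f := by
    funext y i j
    exact indG_st i j
  have hS := sl hγ hφ h0 hf (L := fun y => (√((φ y ^ 2)⁻¹ - ip γ f f y))⁻¹)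
    (fun y => inv_pos.2 (Real.sqrt_pos.2 (rad_pos (h0 y) (h1 y))))
    (fun y => by rw [inv_inv, Real.sq_sqrt (rad_pos (h0 y) (h1 y)).le]; ring) (e1.symm ▸ hg)
  have h2 := P366.GC.mu_eq hS (mem_univ y)
  have h3 := P366.GC.mom_ein hS (mem_univ y)
  rw [e1, indK_eq hγ hφ h0] at h2 h3
  simp only [ein_zero hγ hφ h0 hV, zero_mul, Finset.sum_const_zero] at h2 h3
  exact ⟨h2, h3⟩

end Vale.Agent.P366Y.B
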