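import Vale.Agent.P366Y.B.Defs
import Vale.Agent.P366Y.G.Scf

/-!
# P366Y, block B: the Schwarzschild metric is static vacuum
-/

open MeasureTheory Metric Filter Topology Set
open scoped ContDiff ENNReal
open Vale.Agent.P366.Stmt Vale.Agent.P366Z Vale.Agent.P366Z.St0
open Vale.Agent.P366.Kerr (ric)

noncomputable section

namespace Vale.Agent.P366Y.B

namespace Sv2H

open Vale.Agent.P366Z.Y.ScfH (ls chr_cf ric_cf pd_ls sm_ls af aa)

variable {n : ℕ} {u : E n → ℝ} {y : E n}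

theorem hess_eu (f : E n → ℝ) (i j : Fin n) : hess (eu n) f y i j = pd i (pd j f) y := by
  simp [hess, chr_eu]

theorem ric_eu (i j : Fin n) : Y.ScfH.ric (eu n) y i j = 0 := by
  simp [Y.ScfH.ric, chr_eu, pd_const]

theorem sm1 (hu : Smooth u) : Smooth fun y => 1 + u y := ContDiff.add contDiff_const hu

theorem pd_s (hu : Smooth u) (h0 : ∀ y, 0 < 1 + u y) (i : Fin n) :
    pd i (ls fun y => 1 + u y) = fun y => bb n * (pd i u y / (1 + u y)) := by
  funext y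
  rw [pd_ls (sm1 hu) h0, pd_const_add]
  ring

theorem pd2_s (hu : Smooth u) (h0 : ∀ y, 0 < 1 + u y) (i j : Fin n) :
    pd i (pd j (ls fun y => 1 + u y)) y =
      bb n * ((pd i (pd j u) y * (1 + u y) - pd j u y * pd i u y) / (1 + u y) ^ 2) := by
  rw [pd_s hu h0, pd_const_mul, pd_div ((hu.pd j).diff y) ((sm1 hu).diff y) (h0 y).ne',
    pd_const_add]

theorem sm_φ (hu : Smooth u) (h0 : ∀ y, 0 < 1 + u y) : Smooth (sφ u) :=
  ContDiff.div (ContDiff.sub contDiff_const hu) (sm1 hu) fun y => (h0 y).ne'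

theorem pd_φ (hu : Smooth u) (h0 : ∀ y, 0 < 1 + u y) (i : Fin n) :
    pd i (sφ u) = fun y => -2 * (pd i u y / (1 + u y) ^ 2) := by
  funext y
  have h1 : DifferentiableAt ℝ (fun y => 1 - u y) y := (differentiableAt_const _).fun_sub (hu.diff y)
  have h2 : pd i (sφ u) y = _ := pd_div h1 ((sm1 hu).diff y) (h0 y).ne' i
  rw [h2, pd_const_sub, pd_const_add]
  ring

theorem pd2_φ (hu : Smooth u) (h0 : ∀ y, 0 < 1 + u y) (i j : Fin n) :
    pd i (pd j (sφ u)) y =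
      -2 * ((pd i (pd j u) y * (1 + u y) - 2 * pd j u y * pd i u y) / (1 + u y) ^ 3) := by
  have h1 := (h0 y).ne'
  rw [pd_φ hu h0, pd_const_mul, pd_div ((hu.pd j).diff y) (((sm1 hu).diff y).fun_pow 2)
    (pow_ne_zero 2 h1), pd_pow ((sm1 hu).diff y), pd_const_add]
  field_simp
  ring

/-- the Ricci tensor of the conformally flat metric -/
theorem ric_s (hn : 3 ≤ n) (hu : Smooth u) (h0 : ∀ y, 0 < 1 + u y)
    (hl : ∑ k, pd k (pd k u) y = 0) (i j : Fin n) : ric (sγ u) i j y =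
      -2 * pd i (pd j u) y / (1 + u y) + (2 + 2 * bb n) * pd i u y * pd j u y / (1 + u y) ^ 2 -
        bb n * eu n y i j * (∑ k, pd k u y ^ 2) / (1 + u y) ^ 2 := by
  have h1 := (h0 y).ne'
  have h2 : ric (sγ u) i j y = _ := ric_cf met_eu (sm1 hu) h0 i j
  have h3 : lap (eu n) (ls fun y => 1 + u y) y = -bb n * (∑ k, pd k u y ^ 2) / (1 + u y) ^ 2 := by
    have h4 : ∀ k, pd k (pd k (ls fun y => 1 + u y)) y = bb n / (1 + u y) * pd k (pd k u) y -
        bb n / (1 + u y) ^ 2 * pd k u y ^ 2 := fun k => by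
      rw [pd2_s hu h0]
      field_simp
    rw [lap_eu]
    simp only [h4, Finset.sum_sub_distrib, ← Finset.mul_sum, hl]
    ring
  have h5 : ip (eu n) (ls fun y => 1 + u y) (ls fun y => 1 + u y) y =
      bb n ^ 2 * (∑ k, pd k u y ^ 2) / (1 + u y) ^ 2 := by
    rw [ip_eu, Finset.mul_sum, Finset.sum_div]
    refine Finset.sum_congr rfl fun k _ => ?_
    rw [pd_s hu h0]
    field_simp
  rw [h2, ric_eu, hess_eu, pd2_s hu h0, h3, h5, pd_s hu h0, pd_s hu h0]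
  have h6 := nm2_bb hn
  generalize ∑ k, pd k u y ^ 2 = S
  field_simp
  linear_combination (-(pd i (pd j u) y * (1 + u y)) + (1 + bb n) * pd i u y * pd j u y -
    bb n * eu n y i j * S) * h6

/-- the Hessian of the lapse -/
theorem hess_s (hu : Smooth u) (h0 : ∀ y, 0 < 1 + u y) (i j : Fin n) :
    hess (sγ u) (sφ u) y i j = -2 * pd i (pd j u) y / (1 + u y) ^ 2 +
      (4 + 4 * bb n) * pd i u y * pd j u y / (1 + u y) ^ 3 -
        2 * bb n * eu n y i j * (∑ k, pd k u y ^ 2) / (1 + u y) ^ 3 := by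
  have h1 := (h0 y).ne'
  have h2 : ∀ k, chr (sγ u) k i j y = aa (eu n y) (fun i => pd i (ls fun y => 1 + u y) y)
      (fun k => pd k (ls fun y => 1 + u y) y) k i j := fun k => by
    have h3 : chr (sγ u) k i j = _ := chr_cf met_eu (sm1 hu) h0 k i j
    rw [h3, chr_eu]
    simp [af, gr_eu]
  have h4 : ∑ l, pd l (sφ u) y * pd l (ls fun y => 1 + u y) y =
      -2 * bb n * (∑ k, pd k u y ^ 2) / (1 + u y) ^ 3 := by
    rw [Finset.mul_sum, Finset.sum_div]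
    refine Finset.sum_congr rfl fun k _ => ?_
    rw [pd_s hu h0, pd_φ hu h0]
    field_simp
  unfold hess
  simp only [h2, mul_comm (aa _ _ _ _ _ _)]
  rw [Y.ScfH.sum2, h4, pd2_φ hu h0, pd_s hu h0, pd_s hu h0, pd_φ hu h0, pd_φ hu h0]
  generalize ∑ k, pd k u y ^ 2 = S
  field_simp
  ring

theorem lap_s (hn : 3 ≤ n) (hu : Smooth u) (h0 : ∀ y, 0 < 1 + u y)
    (hl : ∑ k, pd k (pd k u) y = 0) : lap (sγ u) (sφ u) y = 0 := by
  have hm : Met (sγ u) := met_eu.cf (sm1 hu) h0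
  have h1 : ∀ i j, up (sγ u) i j y = _ := fun i j => met_eu.up_cf (U := fun y => 1 + u y) (h0 y) i j
  have h2 : ∀ i, ∑ j, up (sγ u) i j y * hess (sγ u) (sφ u) y i j =
      (1 + u y) ^ (-(2 * bb n)) * (-2 / (1 + u y) ^ 2 * pd i (pd i u) y +
        (4 + 4 * bb n) / (1 + u y) ^ 3 * pd i u y ^ 2 -
          2 * bb n * (∑ k, pd k u y ^ 2) / (1 + u y) ^ 3) := fun i => by
    simp only [h1, up_eu, mul_ite, ite_mul, mul_zero, zero_mul, Finset.sum_ite_eq, Finset.mem_univ,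
      if_true, hess_s hu h0, eu]
    ring
  rw [hm.lap_eq_tr ((sm_φ hu h0).c2 y)]
  unfold tr
  simp only [h2, ← Finset.mul_sum, Finset.sum_sub_distrib, Finset.sum_add_distrib, hl,
    Finset.sum_const, Finset.card_univ, Fintype.card_fin, nsmul_eq_mul]
  have h3 := n_bb hn
  linear_combination (-2 * (1 + u y) ^ (-(2 * bb n)) * (∑ k, pd k u y ^ 2) / (1 + u y) ^ 3) * h3

variable {a y₁ : ℝ}

theorem ev (h : Su a y₁ u) (hy : y₁ < ‖y‖) : u =ᶠ[𝓝 y] fun y => a * ‖y‖ ^ (2 - n : ℝ) := by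
  filter_upwards [(isOpen_lt continuous_const continuous_norm).mem_nhds hy] with z hz
  exact h.out z hz.le

theorem ne0 (h : Su a y₁ u) (hy : y₁ < ‖y‖) : y ≠ 0 :=
  norm_pos_iff.1 (by linarith [h.y1])

theorem pd_u (h : Su a y₁ u) (hy : y₁ < ‖y‖) (i : Fin n) :
    pd i u y = a * (2 - n) * (y i * ‖y‖ ^ (-n : ℝ)) := by
  rw [pd_congr (ev h hy), pd_const_mul, pd_norm_rpow (ne0 h hy),
    show (2 - n : ℝ) - 2 = -n by ring]
  ring

theorem pd2_u (h : Su a y₁ u) (hy : y₁ < ‖y‖) (i j : Fin n) :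
    pd i (pd j u) y = a * (2 - n) * ‖y‖ ^ (-n : ℝ) * (eu n y i j - n * y i * y j / ‖y‖ ^ 2) := by
  have h0 := ne0 h hy
  have h1 : pd j u =ᶠ[𝓝 y] fun y => a * (2 - n) * (y j * ‖y‖ ^ (-n : ℝ)) := by
    filter_upwards [(isOpen_lt continuous_const continuous_norm).mem_nhds hy] with z hz
    exact pd_u h hz j
  have h2 : DifferentiableAt ℝ (fun y : E n => y j) y :=
    (contDiff_coord (m := 1) j).differentiable one_ne_zero y
  have h3 : DifferentiableAt ℝ (fun y : E n => ‖y‖ ^ (-n : ℝ)) y :=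
    (contDiffAt_norm_rpow (m := 1) h0 _).differentiableAt one_ne_zero
  have h4 : 0 < ‖y‖ := norm_pos_iff.2 h0
  rw [pd_congr h1, pd_const_mul, pd_mul h2 h3, pd_coord, pd_norm_rpow h0, Real.rpow_sub h4,
    Real.rpow_two]
  unfold eu
  ring

theorem vac (h : Su a y₁ u) (hy : y₁ < ‖y‖) : Vac (sγ u) (sφ u) y := by
  have h0 : ∀ y, 0 < 1 + u y := fun y => by linarith [(h.bd y).1]
  have h4 : 0 < ‖y‖ := norm_pos_iff.2 (ne0 h hy)
  have hl : ∑ k, pd k (pd k u) y = 0 := by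
    simp only [pd2_u h hy, ← Finset.mul_sum, eu, if_true, Finset.sum_sub_distrib, mul_assoc,
      ← Finset.sum_div, ← sq, ← norm_sq_eq, Finset.sum_const, Finset.card_univ, Fintype.card_fin,
      nsmul_eq_mul]
    field_simp
    ring
  refine ⟨fun i j => ?_, lap_s h.dim h.sm h0 hl⟩
  have h1 : ∑ k, pd k u y ^ 2 = (a * (2 - n) * ‖y‖ ^ (-n : ℝ)) ^ 2 * ‖y‖ ^ 2 := by
    rw [norm_sq_eq, Finset.mul_sum]
    exact Finset.sum_congr rfl fun k _ => by rw [pd_u h hy]; ring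
  have h2 : u y = a * ‖y‖ ^ (-n : ℝ) * ‖y‖ ^ 2 := by
    rw [h.out y hy.le, show (2 - n : ℝ) = -n + 2 by ring, Real.rpow_add h4, Real.rpow_two]
    ring
  have h3 : 2 * u y * pd i (pd j u) y - (2 + 2 * bb n) * pd i u y * pd j u y +
      bb n * eu n y i j * ∑ k, pd k u y ^ 2 = 0 := by
    rw [h1, pd2_u h hy, pd_u h hy, pd_u h hy, h2]
    have h5 := nm2_bb h.dim
    generalize ‖y‖ ^ (-n : ℝ) = W
    field_simp
    linear_combination (a ^ 2 * W ^ 2 * (n - 2) * (eu n y i j * ‖y‖ ^ 2 - 2 * y i * y j)) * h5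
  rw [ric_s h.dim h.sm h0 hl, hess_s h.sm h0]
  unfold sφ
  have h6 := (h0 y).ne'
  generalize ∑ k, pd k u y ^ 2 = S at h3 ⊢
  field_simp
  linear_combination (1 + u y) * h3

end Sv2H

open Sv2H in
/-- **SV2** -/
theorem sv2 : SV2 := by
  intro n a y₁ u h
  have h0 : ∀ y, 0 < 1 + u y := fun y => by linarith [(h.bd y).1]
  refine ⟨met_eu.cf (sm1 h.sm) h0, sm_φ h.sm h0, fun y => ⟨?_, ?_⟩, fun f y => ?_,
    fun y hy => vac h hy⟩
  · exact div_pos (by linarith [(h.bd y).2]) (h0 y)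
  · exact (div_le_one (h0 y)).2 (by linarith [(h.bd y).1])
  · have h1 : ip (sγ u) f f y = _ := met_eu.ip_cf (U := fun y => 1 + u y) (h0 y) f f
    have h2 : (1 + u y) ^ (-(2 * bb n)) ≤ 1 :=
      Real.rpow_le_one_of_one_le_of_nonpos (by linarith [(h.bd y).1])
        (by linarith [bb_pos h.dim])
    rw [h1, ip_eu]
    simp only [← sq]
    exact mul_le_of_le_one_left (Finset.sum_nonneg fun i _ => sq_nonneg _) h2

/-- **SUE** -/
theorem sue : SUE := by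
  intro n a hn ha
  obtain ⟨y₀, h1, h2⟩ : ∃ y₀ : ℝ, 1 ≤ y₀ ∧ 4 * a ≤ y₀ := ⟨max 1 (4 * a), le_max_left _ _,
    le_max_right _ _⟩
  have h3 : (3 : ℝ) ≤ n := by exact_mod_cast hn
  have hb : ∀ y : E n, y₀ ^ 2 ≤ ‖y‖ ^ 2 + y₀ ^ 2 * cut y₀ y := fun y => by
    rcases le_total ‖y‖ y₀ with h | h
    · rw [cut_one h]
      nlinarith [sq_nonneg ‖y‖]
    · nlinarith [mul_nonneg (sq_nonneg y₀) (cut_nonneg y₀ y)]
  have hp : ∀ y : E n, 0 < ‖y‖ ^ 2 + y₀ ^ 2 * cut y₀ y := fun y =>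
    lt_of_lt_of_le (by positivity) (hb y)
  have hs : Smooth fun y : E n => ‖y‖ ^ 2 + y₀ ^ 2 * cut y₀ y :=
    ContDiff.add contDiff_normSq (ContDiff.mul contDiff_const (sm_cut y₀))
  refine ⟨2 * y₀, fun y => a * (‖y‖ ^ 2 + y₀ ^ 2 * cut y₀ y) ^ ((2 - n : ℝ) / 2), hn, ha,
    by linarith, ContDiff.mul contDiff_const (hs.rpow hp _), fun y => ⟨?_, ?_⟩, fun y hy => ?_⟩
  · exact mul_nonneg ha (Real.rpow_nonneg (hp y).le _)
  · have h4 : (‖y‖ ^ 2 + y₀ ^ 2 * cut y₀ y) ^ ((2 - n : ℝ) / 2) ≤ (y₀ ^ 2) ^ ((2 - n : ℝ) / 2) :=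
      Real.rpow_le_rpow_of_nonpos (by positivity) (hb y) (by linarith)
    have h5 : (y₀ ^ 2) ^ ((2 - n : ℝ) / 2) ≤ (y₀ ^ 2) ^ (-(1 / 2) : ℝ) :=
      Real.rpow_le_rpow_of_exponent_le (by nlinarith) (by linarith)
    have h6 : (y₀ ^ 2) ^ (-(1 / 2) : ℝ) = y₀⁻¹ := by
      rw [Real.rpow_neg (sq_nonneg _), ← Real.sqrt_eq_rpow, Real.sqrt_sq (by linarith)]
    have h7 : a * y₀⁻¹ ≤ 1 / 2 := by
      rw [← div_eq_mul_inv, div_le_iff₀ (by linarith)]
      linarith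
    exact (mul_le_mul_of_nonneg_left (h4.trans (h5.trans h6.le)) ha).trans h7
  · rw [cut_zero (by linarith) hy, mul_zero, add_zero, ← Real.rpow_two,
      ← Real.rpow_mul (norm_nonneg _)]
    congr 2
    ring

end Vale.Agent.P366Y.B
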