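import Vale.Agent.P366Y.B.Defs
import Vale.Agent.P366Z.Int

/-!
# P366Y, block B: the comparison of the areas and the passage to the limit
-/

open MeasureTheory Metric Filter Topology Set
open scoped ContDiff ENNReal
open Vale.Agent.P366.Stmt Vale.Agent.P366Z Vale.Agent.P366Z.St0
open Vale.Agent.P366Y.A (Sy B0 Bk ck mg)

noncomputable section

namespace Vale.Agent.P366Y.B

namespace Tp

variable {n : ℕ}

theorem pd_cm (κ : ℝ) (f : E n → ℝ) (i : Fin n) (x : E n) :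
    pd i (fun y => κ * f y) x = κ * pd i f x := by
  unfold pd lineDeriv
  exact deriv_const_mul_field κ

theorem pd_ev {f f' : E n → ℝ} {x : E n} (h : f =ᶠ[𝓝 x] f') (i : Fin n) :
    pd i f x = pd i f' x := h.lineDeriv_eq

/-- the scaled test field -/
def sx (κ : ℝ) (g g' : Field n) (X : Fin n → E n → ℝ) (i : Fin n) (y : E n) : ℝ :=
  κ * dens g y / dens g' y * X i y

theorem test {D D' : Exterior n} {g : Field n} {κ : ℝ} (hg : Met g) (hg' : Met D'.g)
    (hF : ∀ x, 0 ≤ D'.F x ↔ 0 ≤ D.F x) (he : ∀ x, 0 ≤ D.F x → g =ᶠ[𝓝 x] D.g)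
    (hd : ∀ x, 0 ≤ D.F x → Dom κ g D'.g x) {X : Fin n → E n → ℝ} (hX : D.TestField X) :
    D'.TestField (sx κ g D'.g X) := by
  obtain ⟨h1, ⟨R, h2⟩, h3⟩ := hX
  refine ⟨fun i => ?_, ⟨R, fun x hx i => by simp [sx, h2 x hx i]⟩, fun x hx => ?_⟩
  · exact ContDiff.mul (ContDiff.div (ContDiff.mul contDiff_const hg.sm_dens) hg'.sm_dens
      fun x => (hg'.dens_pos x).ne') (h1 i)
  · have hx' := (hF x).1 hx
    have hgx : g x = D.g x := (he x hx').eq_of_nhds
    have h4 := hd x hx' fun i => X i x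
    have h5 := h3 x hx'
    rw [← hgx] at h5
    have hp := hg'.det_pos x
    have hc : (κ * dens g x / dens D'.g x) ^ 2 = κ ^ 2 * (mat g x).det / (mat D'.g x).det := by
      rw [div_pow, mul_pow, dens, dens, Real.sq_sqrt (hg.det_pos x).le, Real.sq_sqrt hp.le]
    have hs : ∑ i, ∑ j, D'.g x i j * sx κ g D'.g X i x * sx κ g D'.g X j x =
        (κ * dens g x / dens D'.g x) ^ 2 * ∑ i, ∑ j, D'.g x i j * X i x * X j x := by
      simp only [Finset.mul_sum]
      refine Finset.sum_congr rfl fun i _ => Finset.sum_congr rfl fun j _ => ?_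
      simp only [sx]
      ring
    rw [hs, hc, div_mul_eq_mul_div, div_le_one hp]
    exact h4.trans (mul_le_of_le_one_right hp.le h5)

theorem dv_eq {D : Exterior n} {g g' : Field n} (κ : ℝ) (hg' : Met g') (X : Fin n → E n → ℝ)
    {x : E n} (he : g =ᶠ[𝓝 x] D.g) :
    ∑ i, pd i (fun y => √(mat g' y).det * sx κ g g' X i y) x =
      κ * ∑ i, pd i (fun y => √(mat D.g y).det * X i y) x := by
  rw [Finset.mul_sum]
  refine Finset.sum_congr rfl fun i _ => ?_
  rw [← pd_cm]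
  refine pd_ev (he.mono fun y hy => ?_) i
  have h0 := (hg'.dens_pos y).ne'
  have h1 : √(mat D.g y).det = dens g y := by
    simp only [dens, mat, hy]
  have h2 : √(mat g' y).det = dens g' y := rfl
  simp only [h1, h2, sx]
  field_simp

theorem area_le {D D' : Exterior n} {g : Field n} {κ : ℝ} (hg : Met g) (hg' : Met D'.g)
    (hκ : 0 ≤ κ) (hF : ∀ x, 0 ≤ D'.F x ↔ 0 ≤ D.F x) (he : ∀ x, 0 ≤ D.F x → g =ᶠ[𝓝 x] D.g)
    (hd : ∀ x, 0 ≤ D.F x → Dom κ g D'.g x) {G : E n → ℝ} (hG : Smooth G)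
    (hs : ∀ x, 0 ≤ G x → 0 ≤ D.F x) : ENNReal.ofReal κ * D.area G ≤ D'.area G := by
  unfold Exterior.area
  rw [ENNReal.mul_sSup]
  refine iSup₂_le ?_
  rintro a ⟨X, hX, rfl⟩
  refine le_sSup ⟨sx κ g D'.g X, test hg hg' hF he hd hX, ?_⟩
  have hm : MeasurableSet {x | 0 ≤ G x} :=
    (isClosed_le continuous_const (ContDiff.continuous hG)).measurableSet
  rw [← ENNReal.ofReal_mul hκ, ← integral_const_mul]
  exact congrArg _ (setIntegral_congr_fun hm fun x hx => (dv_eq κ hg' X (he x (hs x hx))).symm)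

/-- the passage to the limit in the factor -/
theorem lim1 {A w p c : ℝ} (hp : 0 ≤ p)
    (h : ∀ η ∈ Ioo (0 : ℝ) 1, ((1 - η) * A / w) ^ p / 2 ≤ c) : (A / w) ^ p / 2 ≤ c := by
  have hc : Continuous fun η : ℝ => ((1 - η) * A / w) ^ p / 2 :=
    ((((continuous_const.sub continuous_id).mul continuous_const).div_const w).rpow_const
      fun _ => Or.inr hp).div_const 2
  have ht : Tendsto (fun η : ℝ => ((1 - η) * A / w) ^ p / 2) (𝓝[>] 0)
      (𝓝 (((1 - 0) * A / w) ^ p / 2)) := (hc.tendsto 0).mono_left nhdsWithin_le_nhds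
  rw [sub_zero, one_mul] at ht
  exact le_of_tendsto ht (mem_of_superset (Ioo_mem_nhdsGT one_pos) fun η hη => h η hη)

/-- the passage to the limit in the energy -/
theorem lim2 {a m S : ℝ} (ha : 0 < a) (hS : 0 ≤ S)
    (h : ∀ m₂, m < m₂ → √S < m₂ → a ≤ √(m₂ ^ 2 - S)) : √S < m ∧ a ≤ √(m ^ 2 - S) := by
  have hc : Continuous fun t : ℝ => √(t ^ 2 - S) :=
    ((continuous_pow 2).sub continuous_const).sqrt
  have ht : Tendsto (fun t : ℝ => √(t ^ 2 - S)) (𝓝[>] (max m √S)) (𝓝 √((max m √S) ^ 2 - S)) :=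
    (hc.tendsto _).mono_left nhdsWithin_le_nhds
  have h1 : a ≤ √((max m √S) ^ 2 - S) :=
    ge_of_tendsto ht (mem_of_superset self_mem_nhdsWithin fun t ht =>
      h t (lt_of_le_of_lt (le_max_left _ _) ht) (lt_of_le_of_lt (le_max_right _ _) ht))
  have h2 : √S < m := by
    by_contra h3
    rw [max_eq_right (not_lt.1 h3), Real.sq_sqrt hS, sub_self, Real.sqrt_zero] at h1
    exact absurd ha (not_lt.2 h1)
  rw [max_eq_left h2.le] at h1
  exact ⟨h2, h1⟩

end Tp

/-- **ACMP** holds -/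
theorem acmp : ACMP := by
  intro n D D' g κ hg hg' hκ hF he hd
  refine le_sInf ?_
  rintro a ⟨G, hG, hs, rfl⟩
  have hs' : ∀ x, 0 ≤ G x → 0 ≤ D.F x := fun x hx => (hF x).1 (hs x hx)
  have h1 : D.Amin ≤ D.area G := sInf_le ⟨G, hG, hs', rfl⟩
  exact (mul_le_mul_right h1 _).trans (Tp.area_le hg hg' hκ hF he hd hG.1 hs')

/-- the full inequality from the boost and the inequality with the energy -/
theorem top_of (hB : BST) (hX : EXQ) (hP : POSA) (hE : EN) : FULL := by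
  intro n D m P hn hAF hDEC hT hm hPm
  have hfin := (hE n D m hn hAF hDEC hT hm).1
  obtain ⟨g, F, q, C, R, hk, -, -, h1, -, h2, -⟩ := hX n D m P hn hAF hDEC hT hm hPm
  have hpos : 0 < D.Amin.toReal := ENNReal.toReal_pos (hP n D g F q C R m hk h1 h2).ne' hfin
  have hw : 0 < omega n := omega_pos (by omega)
  have hn' : (3 : ℝ) ≤ n := by exact_mod_cast hn
  have hp : 0 ≤ ((n : ℝ) - 2) / (n - 1) := div_nonneg (by linarith) (by linarith)
  refine ⟨hfin, Tp.lim2 (half_pos (Real.rpow_pos_of_pos (div_pos hpos hw) _))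
    (Finset.sum_nonneg fun i _ => sq_nonneg _) fun m₂ hm₁ hm₂ => Tp.lim1 hp fun η hη => ?_⟩
  obtain ⟨D', a1, a2, a3, a4, a5⟩ := hB n D m P hn hAF hDEC hT hm hPm m₂ hm₁ hm₂ η hη
  obtain ⟨b1, b2⟩ := hE n D' _ hn a1 a2 a3 a4
  have h3 : 0 ≤ 1 - η := sub_nonneg.2 hη.2.le
  have h4 : (1 - η) * D.Amin.toReal ≤ D'.Amin.toReal := by
    have := ENNReal.toReal_mono b1 a5
    rwa [ENNReal.toReal_mul, ENNReal.toReal_ofReal h3] at this
  refine le_trans (div_le_div_of_nonneg_right (Real.rpow_le_rpow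
    (div_nonneg (mul_nonneg h3 hpos.le) hw.le) (div_le_div_of_nonneg_right h4 hw.le) hp)
    zero_le_two) b2

end Vale.Agent.P366Y.B
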