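import Vale.Agent.P366Y.B.Defs
import Vale.Agent.P366Y.A.Wk

/-!
# P366Y, block B, row WK2: the strict supersolution with compact support
-/

open MeasureTheory Metric Filter Topology Set
open scoped ContDiff ENNReal
open Vale.Agent.P366.Stmt Vale.Agent.P366Z Vale.Agent.P366Z.St0 Vale.Agent.P366Z.St0.Wt0
open Vale.Agent.P366Y.A (Bk mg THK)
open Vale.Agent.P366Y.A.WkH (pw af_mono mg_pos mg_le mg_le')

noncomputable section

namespace Vale.Agent.P366Y.B

namespace Wk2H

variable {n : ℕ} {g : Field n} {u v : E n → ℝ} {x : E n} {k : ℝ}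

/-- the operator with the drift -/
def nk (g : Field n) (k : ℝ) (u : E n → ℝ) (x : E n) : ℝ := lap g u x + k * gn g u x

theorem cont_nk (hg : Met g) (hu : Smooth u) : Continuous (nk g k u) :=
  (hg.sm_lap hu).cont.add (continuous_const.mul (hg.sm_ip hu hu).cont.sqrt)

theorem nk_congr (e : u =ᶠ[𝓝 x] v) : nk g k u x = nk g k v x := by
  rw [nk, nk, lap_congr e, gn_congr e]

theorem nk_const {c : ℝ} (e : u =ᶠ[𝓝 x] fun _ => c) : nk g k u x = 0 := by
  rw [nk_congr e, nk, lap_const, gn_zero fun i => pd_const c i x, mul_zero, add_zero]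

theorem nk_le {G : Field n} {k' : ℝ} (e : G =ᶠ[𝓝 x] g) (h : k ≤ k') :
    nk G k u x ≤ nk g k' u x := by
  rw [nk, nk, lap_of_ev e, gn_of_eq e.self_of_nhds]
  exact add_le_add_right (mul_le_mul_of_nonneg_right h (gn_nonneg _ _ _)) _

theorem nk_add (hg : Met g) (hu : Smooth u) (hv : Smooth v) {A : ℝ} (hA : 0 ≤ A) (hk : 0 ≤ k) :
    nk g k (fun y => 1 * u y + A * v y) x ≤ nk g k u x + A * nk g k v x := by
  have h1 := hg.gn_add_le (u := fun y => 1 * u y + A * v y) (u₁ := u) (u₂ := fun y => A * v y)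
    (x := x) fun i => by
      simp only [one_mul]
      exact pd_add (hu.diff x) ((hv.diff x).const_mul A) i
  rw [gn_of_pd (u := fun y => A * v y) (u' := v) (s := A) fun i => pd_const_mul A i,
    abs_of_nonneg hA] at h1
  have h2 := mul_le_mul_of_nonneg_left h1 hk
  rw [nk, nk, nk, hg.lap_lin (hu.c2 x) (hv.c2 x)]
  linarith

theorem bp_nonneg {ρ : ℝ} (h : 0 ≤ ρ) : 0 ≤ bp ρ x :=
  mul_nonneg Real.smoothTransition.monotone.deriv_nonneg (Real.rpow_nonneg h _)

end Wk2H

open Wk2H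

/-- **WK2** -/
theorem wk2_of : RB2 → THK → WK2 := by
  intro hB hT n g K F q C R m q' C' hS q0 qq C1
  have hn := hS.dim
  have hg := hS.met
  have R1 := hS.R1
  obtain ⟨c, c0, L, L0, R₀, -, hB⟩ := hB n q' C' hn q0 C1
  obtain ⟨r, h1, h2⟩ : ∃ r, 2 * R ≤ r ∧ R₀ ≤ r := ⟨_, le_max_left _ _, le_max_right _ _⟩
  have r0 : 0 < r := by linarith
  have cB := isCompact_closedBall (0 : E n)
  obtain ⟨θ, sθ, hθ, hθ'⟩ := hT n g F r C' hn hg hS.ext C1.le
  obtain ⟨c₁, c1, hc₁⟩ := ((cB r).inter_right (isClosed_le continuous_const hS.ext.1.cont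
      (f := fun _ => 0))).exists_forall_le' (cont_nk (k := C') hg sθ).neg.continuousOn (a := 0)
    fun x hx => neg_pos.2 (hθ x hx.2 (mem_closedBall_zero_iff.1 hx.1))
  have hK : IsCompact {x | F x = 0} := (cB R).of_isClosed_subset
    (isClosed_eq hS.ext.1.cont continuous_const) fun x hx => mem_closedBall_zero_iff.2
      (not_lt.1 fun h => by linarith [hS.far x h.le, show F x = 0 from hx])
  obtain ⟨c₂, c2, hc₂⟩ := hK.exists_forall_le' (hg.sm_ip sθ hS.ext.1).cont.neg.continuousOn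
    (a := 0) fun x hx => neg_pos.2 (hθ' x hx)
  obtain ⟨z, hz⟩ : ∃ z : E n → ℝ, z = fun x => cut r x * θ x := ⟨_, rfl⟩
  have sz : Smooth z := hz ▸ ContDiff.mul (sm_cut r) sθ
  have z0 : ∀ x, 2 * r ≤ ‖x‖ → z x = 0 := fun x hx => by simp [hz, cut_zero r0 hx]
  have z1 : ∀ x, 2 * r < ‖x‖ → z =ᶠ[𝓝 x] fun _ => 0 := fun x hx =>
    (ev_gt hx).mono fun y hy => z0 y hy.le
  have z2 : ∀ x, ‖x‖ < r → z =ᶠ[𝓝 x] θ := fun x hx =>
    (ev_lt hx).mono fun y hy => by simp [hz, cut_one hy.le]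
  obtain ⟨M, M0, hM⟩ := bdd_of_const sz (R := 2 * r) (c := 0) fun y hy => z0 y hy.le
  obtain ⟨M', hM'⟩ := (cB (2 * r)).exists_bound_of_continuousOn
    (cont_nk (k := C') hg sz).continuousOn
  have p1 : 0 < c * r ^ q' := by positivity
  have p0 : 0 < c * r ^ q' * (2 * r) ^ (-(n + q')) := by positivity
  obtain ⟨A, A0, hA⟩ : ∃ A, 0 < A ∧ A * (c * r ^ q' * (2 * r) ^ (-(n + q'))) = |M'| + 1 :=
    ⟨_, by positivity, div_mul_cancel₀ _ p0.ne'⟩
  obtain ⟨e, e0, e1, e2, e3, e4⟩ : ∃ e, 0 < e ∧ e ≤ c₁ ∧ e ≤ c₂ ∧ e ≤ 1 ∧ e ≤ A * (c * r ^ q') :=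
    ⟨min (min c₁ c₂) (min 1 (A * (c * r ^ q'))), by positivity, by simp, by simp, by simp, by simp⟩
  have a2 := mul_pos A0 L0
  refine ⟨M + A * L, by positivity, e, e0, 3 * r, fun ρ (hρ : 3 * r ≤ ρ) T (hT : 2 * ρ ≤ T) G mG
    aG eG => ?_⟩
  obtain ⟨b, sb, b0, b1, b2, b3, b4⟩ := hB G R r ρ T mG (af_mono aG R1 qq.le le_rfl C1.le) h1 h2
    (by linarith) hT
  refine ⟨fun y => 1 * z y + A * b y, ContDiff.add (contDiff_const.mul sz) (contDiff_const.mul sb),
    fun x => ?_, fun x hx => ?_, fun x hx => ?_, fun x k hx k0 k1 => ?_, fun x hx => ?_⟩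
  · refine (abs_add_le _ _).trans (add_le_add (by simpa using (hM x).1) ?_)
    rw [abs_mul, abs_of_pos A0]
    exact mul_le_mul_of_nonneg_left (b1 x) A0.le
  · simp only [z0 x (by linarith), mul_zero, zero_add, abs_mul, abs_of_pos A0]
    refine (mul_le_mul_of_nonneg_left (b2 x (by linarith)) A0.le).trans ?_
    rw [← mul_assoc]
    exact mul_le_mul_of_nonneg_right (by linarith) (by positivity)
  · simp only [z0 x (by linarith), b3 x hx, mul_zero, add_zero]
  · have q1 : -(q + 1) ≤ 0 := by linarith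
    have k2 : k ≤ C' := k1.trans (mul_le_of_le_one_right C1.le
      (Real.rpow_le_one_of_one_le_of_nonpos (le_add_of_nonneg_right (norm_nonneg x)) q1))
    obtain ⟨d1, d2⟩ := b4 x k k0 fun h => (k1.trans (mul_le_mul_of_nonneg_left
      (Real.rpow_le_rpow_of_nonpos (by linarith) (le_add_of_nonneg_left zero_le_one) q1)
      C1.le)).trans (pw (by linarith) (by linarith) le_rfl C1.le)
    have d3 := mul_le_mul_of_nonneg_left d1 A0.le
    have d4 := mul_nonneg M0.le (bp_nonneg (x := x) (show 0 ≤ ρ by linarith))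
    have d5 := nk_add (x := x) mG sz sb A0.le k0
    have d6 := mul_pos e0 (mg_pos (q' := q') (x := x))
    have d7 : e * mg q' x ≤ e := mul_le_of_le_one_right e0.le (mg_le q0)
    have main : ‖x‖ ≤ T → nk G k (fun y => 1 * z y + A * b y) x ≤
        (M + A * L) * bp ρ x - e * mg q' x := fun hx' => by
      rw [nk.eq_1 G k b] at d5
      rcases lt_or_ge ‖x‖ r with h | h
      · have k3 : c₁ ≤ -nk g C' θ x := hc₁ x ⟨mem_closedBall_zero_iff.2 h.le, hx⟩
        have k4 := nk_le (u := θ) (eG x (by linarith)) k2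
        rw [nk_congr (z2 x h)] at d5
        linarith
      have k3 := mul_le_mul_of_nonneg_left (d2 h hx') A0.le
      rcases le_or_gt ‖x‖ (2 * r) with h' | h'
      · have k4 := (nk_le (u := z) (eG x (by linarith)) k2).trans ((le_abs_self _).trans
          ((hM' x (mem_closedBall_zero_iff.2 h')).trans (le_abs_self _)))
        have k5 := mul_le_mul_of_nonneg_left (Real.rpow_le_rpow_of_nonpos (r0.trans_le h) h'
          (z := -(n + q')) (neg_nonpos.2 (by positivity))) (mul_pos A0 p1).le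
        linarith
      · have k4 := mul_le_mul e4 (mg_le' q0 (r0.trans_le h)) mg_pos.le (mul_pos A0 p1).le
        rw [nk_const (z1 x h')] at d5
        linarith
    refine ⟨?_, main⟩
    rcases le_or_gt ‖x‖ T with h | h
    · exact (main h).trans (by linarith)
    · rw [nk_const (z1 x (by linarith)), nk.eq_1 G k b] at d5
      exact d5.trans (by linarith)
  · have k1 : ‖x‖ < R := not_le.1 fun h => by linarith [hS.far x h]
    rw [ip_congr (u' := fun y => θ y + A * b 0) (((z2 x (by linarith)).and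
      (ev_lt (show ‖x‖ < r / 2 by linarith))).mono fun y hy => by
        simp [hy.1, b0 y hy.2.le]) EventuallyEq.rfl,
      ip_add_left (sθ.diff x) (differentiableAt_const _), ip_const_left, add_zero]
    exact le_neg.1 (e2.trans (hc₂ x hx))

end Vale.Agent.P366Y.B
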