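import Vale.Agent.P366Y.B.Bnd
import Vale.Agent.P366Y.B.Bst
import Vale.Agent.P366Y.B.Chd
import Vale.Agent.P366Y.B.Chm
import Vale.Agent.P366Y.B.Cmp2
import Vale.Agent.P366Y.B.Dcw
import Vale.Agent.P366Y.B.Def2
import Vale.Agent.P366Y.B.Ere
import Vale.Agent.P366Y.B.Ers
import Vale.Agent.P366Y.B.Exm
import Vale.Agent.P366Y.B.Exq
import Vale.Agent.P366Y.B.Fars
import Vale.Agent.P366Y.B.Gl0
import Vale.Agent.P366Y.B.Glu
import Vale.Agent.P366Y.B.Inp
import Vale.Agent.P366Y.B.Mid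
import Vale.Agent.P366Y.B.Mln
import Vale.Agent.P366Y.B.Mod
import Vale.Agent.P366Y.B.Np
import Vale.Agent.P366Y.B.Np2
import Vale.Agent.P366Y.B.Pert
import Vale.Agent.P366Y.B.Posa
import Vale.Agent.P366Y.B.Pull
import Vale.Agent.P366Y.B.Rb2
import Vale.Agent.P366Y.B.Sbi2
import Vale.Agent.P366Y.B.Solv
import Vale.Agent.P366Y.B.Sv1
import Vale.Agent.P366Y.B.Sv2
import Vale.Agent.P366Y.B.Top
import Vale.Agent.P366Y.B.Wk2
import Vale.Agent.P366Y.A.All

/-!
# P366Y, block B: from the energy to the mass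
-/

namespace Vale.Agent.P366Y.B

open Vale.Agent.P366Z Vale.Agent.P366Z.St0

theorem def0 : DEF := def2_of scl (mln_of mat0)

theorem glu : GLU :=
  glu_of gl0 (solv_of ere ers bp0 (np2_of (np_of sbi2)) ky0) (mid_of def0 (lapd_of mat0 scl))
    (inp_of pert) def0 pert (wk2_of (rb2_of mat0 scl) (A.thk_of A.hop)) bp0

theorem bst : BST :=
  bst_of (exq_of mat0) (chd_of mas1 mat0) glu sv1 sue sv2 boe pull0 (mod_of exm dcw)
    (chm_of exm dcw) bnd cls fars cmp2 acmp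

theorem full_of (h : EN) : FULL := top_of bst (exq_of mat0) (posa_of bub0) h

end Vale.Agent.P366Y.B
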