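import Vale.Agent.P366Y.B.Defs

/-!
# P366Y, block B: the bending function and the metric of the bent slice
-/

open MeasureTheory Metric Filter Topology Set
open scoped ContDiff ENNReal
open Vale.Agent.P366.Stmt Vale.Agent.P366Z Vale.Agent.P366Z.St0
open Vale.Agent.P366.T1 (pull push)

noncomputable section

namespace Vale.Agent.P366Y.B

namespace BndH

variable {n : ℕ}

theorem sm_st : ContDiff ℝ ∞ Real.smoothTransition := Real.smoothTransition.contDiff

theorem der_bd : ∃ D > (0 : ℝ), ∀ s, |deriv Real.smoothTransition s| ≤ D := by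
  have hc : Continuous (deriv Real.smoothTransition) := sm_st.continuous_deriv (by simp)
  obtain ⟨D, hD⟩ := (isCompact_Icc (a := (0 : ℝ)) (b := 1)).exists_bound_of_continuousOn
    hc.continuousOn
  refine ⟨|D| + 1, by positivity, fun s => ?_⟩
  have h0 : (0 : ℝ) ≤ |D| + 1 := by positivity
  rcases lt_or_ge s 0 with h | h
  · have : Real.smoothTransition =ᶠ[𝓝 s] fun _ => 0 :=
      (eventually_lt_nhds h).mono fun t ht => Real.smoothTransition.zero_of_nonpos ht.le
    rw [this.deriv_eq]; simpa using h0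
  rcases lt_or_ge 1 s with h' | h'
  · have : Real.smoothTransition =ᶠ[𝓝 s] fun _ => 1 :=
      (eventually_gt_nhds h').mono fun t ht => Real.smoothTransition.one_of_one_le ht.le
    rw [this.deriv_eq]; simpa using h0
  · have := hD s ⟨h, h'⟩
    rw [Real.norm_eq_abs] at this
    linarith [le_abs_self D]

theorem sm_lv (v : Fin n → ℝ) : Smooth (lv v) :=
  ContDiff.sum fun i _ => contDiff_const.mul (contDiff_coord i)

theorem pd_lv (v : Fin n → ℝ) (i : Fin n) (y : E n) : pd i (lv v) y = v i := by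
  have : pd i (lv v) y = ∑ j, pd i (fun z : E n => v j * z j) y :=
    pd_sum Finset.univ (fun j _ => ((contDiff_const.mul (contDiff_coord (m := 1) j)).differentiable
      (by simp)) y) i
  rw [this]
  simp [pd_const_mul, pd_coord]

theorem abs_coord (y : E n) (i : Fin n) : |y i| ≤ ‖y‖ := by
  simpa using PiLp.norm_apply_le y i

theorem abs_lv (v : Fin n → ℝ) (y : E n) : |lv v y| ≤ (∑ i, |v i|) * ‖y‖ := by
  rw [Finset.sum_mul]
  refine (Finset.abs_sum_le_sum_abs _ _).trans (Finset.sum_le_sum fun i _ => ?_)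
  rw [abs_mul]
  exact mul_le_mul_of_nonneg_left (abs_coord y i) (abs_nonneg _)

/-- the argument of the cut -/
def ar (ε T : ℝ) (y : E n) : ℝ := 1 - ε * (Real.log (1 + ‖y‖ ^ 2) - Real.log (1 + T ^ 2))

theorem sm_ar (ε T : ℝ) : Smooth (ar ε T : E n → ℝ) :=
  contDiff_const.sub (contDiff_const.mul (((contDiff_const.add contDiff_normSq).log
    fun y => by positivity).sub contDiff_const))

theorem pd_ar (ε T : ℝ) (i : Fin n) (y : E n) :
    pd i (ar ε T) y = -(ε * (2 * y i / (1 + ‖y‖ ^ 2))) := by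
  have hd : DifferentiableAt ℝ (fun z : E n => 1 + ‖z‖ ^ 2) y :=
    ((contDiff_const.add (contDiff_normSq (m := 1))).differentiable (by simp)) y
  unfold ar
  rw [pd_const_sub, pd_const_mul, pd_sub_const, pd_log hd (by positivity), pd_const_add, pd_normSq]

theorem col {v : Fin n → ℝ} {γ : ℝ} {L : E n ≃L[ℝ] E n} (h : Bo v γ L) (i k : Fin n) :
    L (EuclideanSpace.single i 1) k = (if k = i then 1 else 0) + γ ^ 2 / (1 + γ) * v i * v k := by
  rw [h.eq]
  simp [lv]

theorem col_v {v : Fin n → ℝ} {γ : ℝ} {L : E n ≃L[ℝ] E n} (h : Bo v γ L) (i : Fin n) :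
    ∑ k, L (EuclideanSpace.single i 1) k * v k = γ * v i := by
  have h1 := h.γ1
  have h2 := h.γ2
  have e : ∑ k, L (EuclideanSpace.single i 1) k * v k =
      v i + γ ^ 2 / (1 + γ) * v i * ∑ k, v k ^ 2 := by
    simp only [col h, add_mul, Finset.sum_add_distrib, Finset.mul_sum]
    congr 1
    · simp
    · exact Finset.sum_congr rfl fun k _ => by ring
  rw [e]
  generalize ∑ k, v k ^ 2 = S at h2 ⊢
  have h3 : γ ^ 2 * S = γ ^ 2 - 1 := by linarith
  have h4 : (1 + γ) ≠ 0 := by positivity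
  field_simp
  linear_combination v i * h3

theorem col_col {v : Fin n → ℝ} {γ : ℝ} {L : E n ≃L[ℝ] E n} (h : Bo v γ L) (i j : Fin n) :
    ∑ k, L (EuclideanSpace.single i 1) k * L (EuclideanSpace.single j 1) k =
      (if i = j then 1 else 0) + γ ^ 2 * v i * v j := by
  have h1 := h.γ1
  have e : ∑ k, L (EuclideanSpace.single i 1) k * L (EuclideanSpace.single j 1) k =
      L (EuclideanSpace.single i 1) j +
        γ ^ 2 / (1 + γ) * v j * ∑ k, L (EuclideanSpace.single i 1) k * v k := by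
    simp only [col h j, mul_add, Finset.sum_add_distrib, Finset.mul_sum]
    congr 1
    · simp
    · exact Finset.sum_congr rfl fun k _ => by ring
  rw [e, col_v h, col h]
  have h4 : (1 + γ) ≠ 0 := by positivity
  have : (if j = i then (1 : ℝ) else 0) = if i = j then 1 else 0 := by simp [eq_comm]
  rw [this]
  field_simp
  ring

/-- the metric as a function of the potential and the differential -/
def Gm (L : E n ≃L[ℝ] E n) (z : ℝ) (p : Fin n → ℝ) (i j : Fin n) : ℝ :=
  ∑ k, ∑ l, L (EuclideanSpace.single i 1) k * L (EuclideanSpace.single j 1) l *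
    ((1 + z) ^ (2 * bb n) * (if k = l then 1 else 0) - ((1 - z) / (1 + z)) ^ 2 * p k * p l)

theorem gm_zero {v : Fin n → ℝ} {γ : ℝ} {L : E n ≃L[ℝ] E n} (h : Bo v γ L) (s : ℝ) (i j : Fin n) :
    Gm L 0 (fun k => s * v k) i j = (if i = j then 1 else 0) + (1 - s ^ 2) * γ ^ 2 * v i * v j := by
  have e : Gm L 0 (fun k => s * v k) i j =
      ∑ k, L (EuclideanSpace.single i 1) k * L (EuclideanSpace.single j 1) k -
        s ^ 2 * ((∑ k, L (EuclideanSpace.single i 1) k * v k) *
          ∑ k, L (EuclideanSpace.single j 1) k * v k) := by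
    rw [Finset.sum_mul_sum]
    simp only [Gm, add_zero, sub_zero, Real.one_rpow, div_one, one_pow, one_mul, mul_sub,
      Finset.sum_sub_distrib, Finset.mul_sum]
    congr 1
    · simp
    · exact Finset.sum_congr rfl fun k _ => Finset.sum_congr rfl fun l _ => by ring
  rw [e, col_col h, col_v h, col_v h]
  ring

theorem gm_cont (L : E n ≃L[ℝ] E n) (v : Fin n → ℝ) (s : ℝ) (i j : Fin n) :
    ContinuousAt (fun w : (ℝ × (Fin n → ℝ)) × ℝ => Gm L w.1.1 (fun k => w.1.2 k + w.2 * v k) i j)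
      ((0, 0), s) := by
  have c1 : ContinuousAt (fun w : (ℝ × (Fin n → ℝ)) × ℝ => (1 + w.1.1) ^ (2 * bb n)) ((0, 0), s) :=
    ContinuousAt.rpow_const (by fun_prop) (Or.inl (by simp))
  have c2 : ContinuousAt (fun w : (ℝ × (Fin n → ℝ)) × ℝ => (1 - w.1.1) / (1 + w.1.1)) ((0, 0), s) :=
    ContinuousAt.div (by fun_prop) (by fun_prop) (by simp)
  unfold Gm
  refine tendsto_finsetSum _ fun k _ => tendsto_finsetSum _ fun l _ => ?_
  exact ContinuousAt.mul continuousAt_const ((c1.mul continuousAt_const).sub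
    (((c2.pow 2).mul (by fun_prop)).mul (by fun_prop)))

end BndH

open BndH

theorem bnd : BND := by
  intro n v T e he
  obtain ⟨D, hD0, hD⟩ := der_bd
  obtain ⟨S, hS⟩ : ∃ S, S = ∑ i, |v i| := ⟨_, rfl⟩
  have hS0 : 0 ≤ S := hS ▸ Finset.sum_nonneg fun i _ => abs_nonneg _
  obtain ⟨ε, hε⟩ : ∃ ε, ε = e / (2 * D * S + 1) := ⟨_, rfl⟩
  have hε0 : 0 < ε := hε ▸ by positivity
  have hsm : Smooth fun y : E n => Real.smoothTransition (ar ε T y) := sm_st.comp (sm_ar ε T)
  refine ⟨fun y => Real.smoothTransition (ar ε T y) * lv v y, (1 + T ^ 2) * Real.exp (1 / ε),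
    hsm.mul (sm_lv v), fun y hy => ?_, fun y hy => ?_, fun y => ?_⟩
  · have h1 : Real.log (1 + ‖y‖ ^ 2) ≤ Real.log (1 + T ^ 2) :=
      Real.log_le_log (by positivity) (by nlinarith [norm_nonneg y])
    have : 1 ≤ ar ε T y := by unfold ar; nlinarith
    simp only [Real.smoothTransition.one_of_one_le this, one_mul]
  · have h0 : 1 ≤ (1 + T ^ 2) * Real.exp (1 / ε) :=
      one_le_mul_of_one_le_of_one_le (by nlinarith) (Real.one_le_exp (by positivity))
    have h1 : Real.log ((1 + T ^ 2) * Real.exp (1 / ε)) ≤ Real.log (1 + ‖y‖ ^ 2) :=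
      Real.log_le_log (by positivity) (by nlinarith)
    rw [Real.log_mul (by positivity) (by positivity), Real.log_exp] at h1
    have h2 : ε * (1 / ε) = 1 := by field_simp
    have : ar ε T y ≤ 0 := by unfold ar; nlinarith
    simp only [Real.smoothTransition.zero_of_nonpos this, zero_mul]
  · refine ⟨Real.smoothTransition (ar ε T y), ⟨Real.smoothTransition.nonneg _,
      Real.smoothTransition.le_one _⟩, fun i => ?_⟩
    have hd : HasDerivAt Real.smoothTransition (deriv Real.smoothTransition (ar ε T y)) (ar ε T y) :=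
      ((sm_st.differentiable (by simp)) _).hasDerivAt
    rw [pd_mul (hsm.diff y) ((sm_lv v).diff y), pd_lv, pd_comp hd ((sm_ar ε T).diff y), pd_ar]
    have hy := norm_nonneg y
    have hp : 0 < 1 + ‖y‖ ^ 2 := by positivity
    have b1 : |2 * y i / (1 + ‖y‖ ^ 2) * lv v y| ≤ 2 * S := by
      rw [abs_mul, abs_div, abs_mul, abs_two, abs_of_pos hp, div_mul_eq_mul_div, div_le_iff₀ hp]
      have := mul_le_mul (abs_coord y i) (abs_lv v y) (abs_nonneg _) hy
      rw [← hS] at this
      nlinarith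
    have b2 : ε * (D * (2 * S)) ≤ e := by
      rw [hε, div_mul_eq_mul_div, div_le_iff₀ (by positivity)]
      nlinarith
    calc _ = ε * (|deriv Real.smoothTransition (ar ε T y)| * |2 * y i / (1 + ‖y‖ ^ 2) * lv v y|) := by
          rw [← abs_mul, ← abs_of_pos hε0, ← abs_mul, abs_of_pos hε0, ← abs_neg]
          congr 1
          ring
      _ ≤ ε * (D * (2 * S)) :=
          mul_le_mul_of_nonneg_left (mul_le_mul (hD _) b1 (abs_nonneg _) hD0.le) hε0.le
      _ ≤ e := b2

theorem cls : CLS := by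
  intro n a y₁ γ u v L hu hB e he
  have hv : ∑ i, v i ^ 2 < 1 := by
    by_contra hc
    have := hB.γ2
    nlinarith [sq_nonneg γ, not_lt.1 hc]
  have hv0 : 0 ≤ ∑ i, v i ^ 2 := Finset.sum_nonneg fun i _ => sq_nonneg _
  have key : ∀ᶠ w : ℝ × (Fin n → ℝ) in 𝓝 (0, 0), ∀ s ∈ Icc (0 : ℝ) 1,
      ∑ i, (w.2 i + s * v i) ^ 2 < 1 ∧ ∀ i j, |Gm L w.1 (fun k => w.2 k + s * v k) i j -
        ((if i = j then 1 else 0) + (1 - s ^ 2) * γ ^ 2 * v i * v j)| < e := by
    refine isCompact_Icc.eventually_forall_of_forall_eventually fun s hs => Eventually.and ?_ ?_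
    · have c : ContinuousAt (fun w : (ℝ × (Fin n → ℝ)) × ℝ => ∑ i, (w.1.2 i + w.2 * v i) ^ 2)
          ((0, 0), s) := by fun_prop
      refine c.eventually_lt continuousAt_const ?_
      have : ∑ i, (s * v i) ^ 2 = s ^ 2 * ∑ i, v i ^ 2 := by
        rw [Finset.mul_sum]; exact Finset.sum_congr rfl fun i _ => by ring
      have h2 : s ^ 2 ≤ 1 := by nlinarith [hs.1, hs.2]
      simp only [Pi.zero_apply, zero_add, this]
      nlinarith
    · refine eventually_all.2 fun i => eventually_all.2 fun j => ?_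
      have c : ContinuousAt (fun w : (ℝ × (Fin n → ℝ)) × ℝ =>
          |Gm L w.1.1 (fun k => w.1.2 k + w.2 * v k) i j -
            ((if i = j then 1 else 0) + (1 - w.2 ^ 2) * γ ^ 2 * v i * v j)|) ((0, 0), s) :=
        ((gm_cont L v s i j).sub (by fun_prop)).abs
      refine c.eventually_lt continuousAt_const ?_
      simp only [Pi.zero_apply, zero_add, gm_zero hB, sub_self, abs_zero, he]
  obtain ⟨r, hr, hk⟩ := Metric.eventually_nhds_iff.1 key
  refine ⟨r / 2, by positivity, max y₁ (a / r + 1), fun f s y hs hf => ?_⟩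
  have hd : ‖fun i => pd i f y - s * v i‖ < r :=
    ((pi_norm_le_iff_of_nonneg (by positivity)).2 fun i => hf i).trans_lt (half_lt_self hr)
  have hk' : ∀ z : ℝ, |z| < r → ∑ i, pd i f y ^ 2 < 1 ∧ ∀ i j, |Gm L z (fun k => pd k f y) i j -
      ((if i = j then 1 else 0) + (1 - s ^ 2) * γ ^ 2 * v i * v j)| < e := fun z hz => by
    have := @hk (z, fun i => pd i f y - s * v i) (by
      rw [dist_eq_norm, Prod.mk_sub_mk, sub_zero, sub_zero, Prod.norm_mk]
      exact max_lt hz hd) s hs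
    simpa only [sub_add_cancel] using this
  refine ⟨(hk' 0 (by simpa using hr)).1, fun x hx hT => ⟨fun i => √(1 - s ^ 2) * γ * v i, ?_, ?_⟩⟩
  · have h2 : s ^ 2 ≤ 1 := by nlinarith [hs.1, hs.2]
    have : ∑ i, (√(1 - s ^ 2) * γ * v i) ^ 2 = (1 - s ^ 2) * γ ^ 2 * ∑ i, v i ^ 2 := by
      rw [Finset.mul_sum]
      exact Finset.sum_congr rfl fun i _ => by rw [mul_pow, mul_pow, Real.sq_sqrt (by linarith)]
    rw [this]
    have h3 : (1 - s ^ 2) * ∑ i, v i ^ 2 ≤ 1 := by nlinarith [sq_nonneg s]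
    nlinarith [sq_nonneg γ]
  · intro i j
    have hy : ‖x‖ ≤ ‖y‖ := hx ▸ hB.lo x
    have y1 : y₁ ≤ ‖y‖ := ((le_max_left _ _).trans hT).trans hy
    have y2 : a / r + 1 ≤ ‖y‖ := ((le_max_right _ _).trans hT).trans hy
    have y3 : 1 ≤ ‖y‖ := hu.y1.trans y1
    have hn : (3 : ℝ) ≤ n := by exact_mod_cast hu.dim
    have p1 : ‖y‖ ^ (2 - n : ℝ) ≤ ‖y‖ ^ (-1 : ℝ) := Real.rpow_le_rpow_of_exponent_le y3 (by linarith)
    rw [Real.rpow_neg_one] at p1
    have hz : |u y| < r := by
      rw [abs_of_nonneg (hu.bd y).1, hu.out y y1]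
      refine (mul_le_mul_of_nonneg_left p1 hu.a0).trans_lt ?_
      rw [← div_eq_mul_inv, div_lt_iff₀ (by linarith), ← div_lt_iff₀' hr]
      linarith
    have h2 : s ^ 2 ≤ 1 := by nlinarith [hs.1, hs.2]
    have e1 : gM L u f x i j = Gm L (u y) (fun k => pd k f y) i j := by
      subst hx; rfl
    have e2 : √(1 - s ^ 2) * γ * v i * (√(1 - s ^ 2) * γ * v j) =
        (1 - s ^ 2) * γ ^ 2 * v i * v j := by
      have := Real.mul_self_sqrt (show 0 ≤ 1 - s ^ 2 by linarith)
      linear_combination γ ^ 2 * v i * v j * this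
    rw [e1, e2]
    exact ((hk' _ hz).2 i j).le

end Vale.Agent.P366Y.B
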