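import Vale.Agent.P366Y.A.Defs
import Vale.Agent.P366.Kerr.Defs
import Vale.Agent.P366.T1.Push2

/-!
# P366Y, block B: the boost (definitions, statements)
-/

open MeasureTheory Metric Filter Topology Set
open scoped ContDiff ENNReal
open Vale.Agent.P366.Stmt Vale.Agent.P366Z Vale.Agent.P366Z.St0
open Vale.Agent.P366Y.A (Sy B0 Bk ck mg)
open Vale.Agent.P366.T1 (pull push)
open Vale.Agent.P366.Kerr (ric)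

noncomputable section

namespace Vale.Agent.P366Y.B

variable {n : ℕ}

/-- decay of the tensor `K` with one derivative -/
def Ak (K : Field n) (q C R : ℝ) : Prop := ∀ x : E n, R ≤ ‖x‖ → ∀ i j k,
  |K x i j| ≤ C * ‖x‖ ^ (-(q + 1)) ∧ |pd k (fun y => K y i j) x| ≤ C * ‖x‖ ^ (-(q + 2))

/-- the Euclidean tensor `π` -/
def pe (K : Field n) : Field n := fun x i j => K x i j - (∑ k, K x k k) * eu n x i j

/-- the linear part of the scalar curvature -/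
def lr (g : Field n) (x : E n) : ℝ := ∑ i, pd i (yv g i) x

/-- the linear part of the momentum density -/
def lj (K : Field n) (j : Fin n) (x : E n) : ℝ := ∑ i, pd i (fun y => pe K y i j) x

/-- the energy as a volume integral -/
def Ce (g : Field n) (m : ℝ) : Prop :=
  Tendsto (fun ρ => ∫ x, ∑ i, pd i (cut ρ) x * yv g i x) atTop (𝓝 (-(2 * (n - 1) * omega n * m)))

/-- the momentum as a volume integral -/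
def Cp (K : Field n) (P : Fin n → ℝ) : Prop := ∀ j,
  Tendsto (fun ρ => ∫ x, ∑ i, pd i (cut ρ) x * pe K x i j) atTop (𝓝 (-((n - 1) * omega n * P j)))

/-- an end with the energy `m` and the momentum `P` -/
structure Md (g K : Field n) (q C R m : ℝ) (P : Fin n → ℝ) : Prop where
  met : Met g
  sy : Sy K
  af : Af g q C R
  ak : Ak K q C R
  dec : ∀ x, R ≤ ‖x‖ → covNorm g (mom g K) x ≤ mu g K x
  ce : Ce g m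
  cp : Cp K P

/-- **EXQ**: the extension -/
def EXQ : Prop := ∀ (n : ℕ) (D : Exterior n) (m : ℝ) (P : Fin n → ℝ), 3 ≤ n → D.IsAF → D.DEC →
  D.Trapped → D.IsEnergy m → D.IsMomentum P → ∃ g F q C R, Bk g D.K F q C R m ∧ Ak D.K q C R ∧
    q ≤ n - 2 ∧ (∀ x, 0 ≤ F x ↔ 0 ≤ D.F x) ∧ (∃ x, F x = 0) ∧ (∀ x, 0 ≤ F x → g =ᶠ[𝓝 x] D.g) ∧
    ∀ i, Tendsto (flx fun j x => momT g D.K x i j) atTop (𝓝 (P i))

/-- **CHD**: the charges of the data -/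
def CHD : Prop := ∀ (n : ℕ) (g K : Field n) F q C R m (P : Fin n → ℝ), Bk g K F q C R m →
  Ak K q C R → (∀ i, Tendsto (flx fun j x => momT g K x i j) atTop (𝓝 (P i))) → Ce g m ∧ Cp K P

/-- **MLN**: the linear part of the momentum density -/
def MLN : Prop := ∀ n : ℕ, ∃ e > (0 : ℝ), ∃ L > (0 : ℝ), ∀ (g K : Field n) (x : E n)
  (a a₁ k₀ k₁ : ℝ), Met g → Sy K → 0 ≤ a → a ≤ e → 0 ≤ a₁ → 0 ≤ k₀ → 0 ≤ k₁ →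
  (∀ i j, |g x i j - eu n x i j| ≤ a) → (∀ i j k, |pd k (fun y => g y i j) x| ≤ a₁) →
  (∀ i j, |K x i j| ≤ k₀) → (∀ i j k, |pd k (fun y => K y i j) x| ≤ k₁) →
  (∀ j, |mom g K j x - lj K j x| ≤ L * (a * k₁ + a₁ * k₀) ∧ |lj K j x| ≤ L * k₁) ∧
    |tr g K x| ≤ L * k₀ ∧ √(normSq g K x) ≤ L * k₀ ∧
    ∀ w : Fin n → ℝ, |covNorm g (fun i _ => w i) x - √(∑ i, w i ^ 2)| ≤ L * a * √(∑ i, w i ^ 2)

/-- the interpolation at the radius `ρ` -/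
def gm (ρ : ℝ) (g g₂ : Field n) : Field n :=
  fun x i j => cut ρ x * g x i j + (1 - cut ρ x) * g₂ x i j

/-- **GL0**: the interpolated fields -/
def GL0 : Prop := ∀ (n : ℕ) (q C : ℝ), 0 < C → ∃ C' ≥ C, ∀ (g K g₂ K₂ : Field n) (R ρ : ℝ),
  Met g → Met g₂ → Sy K → Sy K₂ → Af g q C R → Af g₂ q C R → Ak K q C R → Ak K₂ q C R → 0 < R →
  R ≤ ρ → Met (gm ρ g g₂) ∧ Sy (gm ρ K K₂) ∧ Af (gm ρ g g₂) q C' R ∧ Ak (gm ρ K K₂) q C' R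

/-- the error of the scalar curvature -/
def ee (ρ : ℝ) (g g₂ : Field n) (x : E n) : ℝ :=
  lr (gm ρ g g₂) x - cut ρ x * lr g x - (1 - cut ρ x) * lr g₂ x

/-- the error of the momentum density -/
def es (ρ : ℝ) (K K₂ : Field n) (j : Fin n) (x : E n) : ℝ :=
  lj (gm ρ K K₂) j x - cut ρ x * lj K j x - (1 - cut ρ x) * lj K₂ j x

/-- a source on the annulus of radius `ρ` -/
structure Src (σ : E n → ℝ) (A q ρ : ℝ) : Prop where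
  sm : Smooth σ
  zero : ∀ x, ‖x‖ < ρ ∨ 2 * ρ ≤ ‖x‖ → σ x = 0
  d0 : ∀ x, |σ x| ≤ A * ρ ^ (-(q + 2))
  d1 : ∀ x i, |pd i σ x| ≤ A * ρ ^ (-(q + 3))

/-- **ERE**: the error of the scalar curvature -/
def ERE : Prop := ∀ (n : ℕ) (q C : ℝ), 0 < q → 0 < C → ∃ A > (0 : ℝ), ∀ (g g₂ : Field n) (R : ℝ),
  Met g → Met g₂ → Af g q C R → Af g₂ q C R → 1 ≤ R → (∀ ρ ≥ R, Src (ee ρ g g₂) A q ρ) ∧
    ∀ m m₂, Ce g m → Ce g₂ m₂ →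
      Tendsto (fun ρ => ∫ x, ee ρ g g₂ x) atTop (𝓝 (2 * (n - 1) * omega n * (m₂ - m)))

/-- **ERS**: the error of the momentum density -/
def ERS : Prop := ∀ (n : ℕ) (q C : ℝ), 0 < q → 0 < C → ∃ A > (0 : ℝ), ∀ (K K₂ : Field n) (R : ℝ),
  Sy K → Sy K₂ → Ak K q C R → Ak K₂ q C R → 1 ≤ R → (∀ ρ ≥ R, ∀ j, Src (es ρ K K₂ j) A q ρ) ∧
    ∀ P, Cp K P → Cp K₂ P → ∀ j, Tendsto (fun ρ => ∫ x, es ρ K K₂ j x) atTop (𝓝 0)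

/-- the bump on the annulus -/
def bp (ρ : ℝ) (x : E n) : ℝ := deriv Real.smoothTransition (‖x‖ ^ 2 / ρ ^ 2 - 1) * ρ ^ (-n : ℝ)

/-- **BP**: the bump -/
def BP : Prop := ∀ n : ℕ, 3 ≤ n → ∃ κ > (0 : ℝ), ∃ A > (0 : ℝ), ∀ ρ ≥ (1 : ℝ),
  (∀ q ≤ (n : ℝ) - 2, Src (bp ρ : E n → ℝ) A q ρ) ∧ (∀ x : E n, 0 ≤ bp ρ x) ∧
    ∫ x : E n, bp ρ x = κ

/-- **SBI**: the equation of Poisson between two barriers -/
def SBI : Prop := ∀ (n : ℕ) (h u₁ u₂ : E n → ℝ), 3 ≤ n → Smooth h → (∃ A, BL A h) → Smooth u₁ →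
  Smooth u₂ → (∃ A, BL A u₁) → (∃ A, BL A u₂) → (∀ x, u₁ x ≤ u₂ x) →
  (∀ x, h x ≤ lap (eu n) u₁ x) → (∀ x, lap (eu n) u₂ x ≤ h x) →
  ∃ u, Smooth u ∧ (∀ x, u₁ x ≤ u x ∧ u x ≤ u₂ x) ∧ ∀ x, lap (eu n) u x = h x

/-- decay of order `q` at the scale `ρ` with two derivatives -/
def O2 (B q ρ : ℝ) (w : E n → ℝ) : Prop := ∀ x i j, |w x| ≤ B * (ρ + ‖x‖) ^ (-q) ∧
  |pd i w x| ≤ B * (ρ + ‖x‖) ^ (-(q + 1)) ∧ |pd j (pd i w) x| ≤ B * (ρ + ‖x‖) ^ (-(q + 2))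

/-- **NP**: the potential of a source with zero mean -/
def NP : Prop := ∀ n : ℕ, 3 ≤ n → ∃ C > (0 : ℝ), ∀ (σ : E n → ℝ) (A q ρ : ℝ), 1 ≤ ρ → 0 ≤ A →
  Src σ A q ρ → ∫ x, σ x = 0 → ∃ w, Smooth w ∧ (∀ x, lap (eu n) w x = σ x) ∧
    O2 (C * A * ρ ^ (n - 1 - q)) (n - 1) ρ w

/-- **NP2**: the potential that is cut off -/
def NP2 : Prop := ∀ (n : ℕ) (q q' : ℝ), 3 ≤ n → 0 < q → q ≤ n - 1 → 0 < q' → q' < 1 →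
  ∃ C > (0 : ℝ), ∀ (A ρ τ : ℝ), 1 ≤ ρ → 0 ≤ A → 0 < τ → ∃ T₀ : ℝ, ∀ T ≥ T₀, ∀ σ : E n → ℝ, Src σ A q ρ →
    ∫ x, σ x = 0 → ∃ w, Smooth w ∧ (∀ x, T ≤ ‖x‖ → w x = 0) ∧
      (∀ x, |lap (eu n) w x - σ x| ≤ τ * mg q' x) ∧ O2 (C * A) q ρ w

/-- the tensor of a vector field -/
def ky (Y : Fin n → E n → ℝ) : Field n := fun x i j =>
  pd i (Y j) x + pd j (Y i) x - (∑ k, pd k (Y k) x) / (n - 1) * eu n x i j

/-- **KY**: the tensor of a vector field -/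
def KY : Prop := ∀ n : ℕ, 3 ≤ n → ∃ C > (0 : ℝ), ∀ (Y : Fin n → E n → ℝ), (∀ j, Smooth (Y j)) →
  Sy (ky Y) ∧ (∀ j x, lj (ky Y) j x = lap (eu n) (Y j) x) ∧
    ∀ B q ρ : ℝ, 0 < ρ → (∀ j, O2 B q ρ (Y j)) → ∀ x i j k,
      |ky Y x i j| ≤ C * B * (ρ + ‖x‖) ^ (-(q + 1)) ∧
        |pd k (fun y => ky Y y i j) x| ≤ C * B * (ρ + ‖x‖) ^ (-(q + 2))

/-- **DEF**: the defect of the dominant energy condition -/
def DEF : Prop := ∀ (n : ℕ) (q C : ℝ), 0 < q → 0 < C → ∃ L > (0 : ℝ), ∃ R₂ ≥ (1 : ℝ),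
  ∀ (g K g₂ K₂ Z : Field n) (R ρ : ℝ) (x : E n), Met g → Met g₂ → Met (gm ρ g g₂) → Sy K → Sy K₂ →
    Sy Z → Af g q C R → Af g₂ q C R → Af (gm ρ g g₂) q C R → Ak K q C R → Ak K₂ q C R →
    Ak (gm ρ K K₂ + Z) q C R → R ≤ ‖x‖ → R₂ ≤ ‖x‖ → covNorm g (mom g K) x ≤ mu g K x →
    covNorm g₂ (mom g₂ K₂) x ≤ mu g₂ K₂ x →
    covNorm (gm ρ g g₂) (mom (gm ρ g g₂) (gm ρ K K₂ + Z)) x ≤
        mu (gm ρ g g₂) (gm ρ K K₂ + Z) x - ee ρ g g₂ x / 2 +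
          2 * ∑ j, |es ρ K K₂ j x + lj Z j x| + L * ‖x‖ ^ (-(2 * q + 2)) ∧
      √(normSq (gm ρ g g₂) (gm ρ K K₂ + Z) x) ≤ L * ‖x‖ ^ (-(q + 1))

/-- **LAPD**: the Laplacian of a metric near the Euclidean one -/
def LAPD : Prop := ∀ (n : ℕ) (q C : ℝ), 0 < q → 0 < C → ∃ L > (0 : ℝ), ∃ R₂ ≥ (1 : ℝ),
  ∀ (g : Field n) (w : E n → ℝ) (R B₁ B₂ : ℝ) (x : E n), Met g → Af g q C R → R ≤ ‖x‖ → R₂ ≤ ‖x‖ →
    Smooth w → 0 ≤ B₁ → 0 ≤ B₂ → (∀ i, |pd i w x| ≤ B₁) → (∀ i j, |pd j (pd i w) x| ≤ B₂) →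
    |lap g w x - lap (eu n) w x| ≤ L * (‖x‖ ^ (-q) * B₂ + ‖x‖ ^ (-(q + 1)) * B₁) ∧ gn g w x ≤ L * B₁

/-- **PERT**: small perturbations on a ball -/
def PERT : Prop := ∀ (n : ℕ) (g K : Field n) (F : E n → ℝ) (r : ℝ), Met g → Sy K → Smooth F →
  ∃ M ≥ (1 : ℝ), ∀ (Z : Field n) (w : E n → ℝ) (e : ℝ) (x : E n), Sy Z → Smooth w → 0 ≤ e → e ≤ 1 →
    ‖x‖ ≤ r → (∀ i j k, |Z x i j| ≤ e ∧ |pd k (fun y => Z y i j) x| ≤ e) →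
    (∀ i j, |pd i w x| ≤ e ∧ |pd j (pd i w) x| ≤ e) →
    covNorm g (mom g (K + Z)) x ≤ covNorm g (mom g K) x + M * e ∧
      mu g K x - M * e ≤ mu g (K + Z) x ∧ √(normSq g (K + Z) x) ≤ M ∧ |lap g w x| ≤ M * e ∧
      gn g w x ≤ M * e ∧ thetaPlus g (K + Z) F x ≤ thetaPlus g K F x + M * e ∧
      ip g w F x ≤ M * e ∧ gn g F x ≤ M

/-- **RB2**: the radial barrier with compact support -/
def RB2 : Prop := ∀ (n : ℕ) (q C : ℝ), 3 ≤ n → 0 < q → 0 < C → ∃ c > (0 : ℝ), ∃ L > (0 : ℝ),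
  ∃ R₀ > (0 : ℝ), ∀ (g : Field n) (R₁ S ρ T : ℝ), Met g → Af g q C R₁ → 2 * R₁ ≤ S → R₀ ≤ S →
    S ≤ ρ → 2 * ρ ≤ T → ∃ b, Smooth b ∧ (∀ x, ‖x‖ ≤ S / 2 → b x = b 0) ∧ (∀ x, |b x| ≤ L) ∧
      (∀ x, S ≤ ‖x‖ → |b x| ≤ L * ‖x‖ ^ (2 - n : ℝ)) ∧ (∀ x, 2 * T ≤ ‖x‖ → b x = 0) ∧
      ∀ (x : E n) (k : ℝ), 0 ≤ k → (S / 2 ≤ ‖x‖ → k ≤ C * ‖x‖ ^ (-(q + 1))) →
        lap g b x + k * gn g b x ≤ L * bp ρ x ∧ (S ≤ ‖x‖ → ‖x‖ ≤ T →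
          lap g b x + k * gn g b x ≤ L * bp ρ x - c * S ^ q * ‖x‖ ^ (-(n + q)))

/-- **WK2**: the strict supersolution with compact support -/
def WK2 : Prop := ∀ (n : ℕ) (g K : Field n) F q C R m (q' C' : ℝ), Bk g K F q C R m → 0 < q' →
  q' < q → 0 < C' → ∃ L > (0 : ℝ), ∃ c > (0 : ℝ), ∃ ρ₀ : ℝ, ∀ ρ ≥ ρ₀, ∀ T ≥ 2 * ρ, ∀ G : Field n,
    Met G → Af G q C' R → (∀ x, ‖x‖ < ρ → G =ᶠ[𝓝 x] g) → ∃ w, Smooth w ∧ (∀ x, |w x| ≤ L) ∧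
      (∀ x, ρ ≤ ‖x‖ → |w x| ≤ L * ‖x‖ ^ (2 - n : ℝ)) ∧ (∀ x, 2 * T ≤ ‖x‖ → w x = 0) ∧
      (∀ (x : E n) (k : ℝ), 0 ≤ F x → 0 ≤ k → k ≤ C' * (1 + ‖x‖) ^ (-(q + 1)) →
        lap G w x + k * gn G w x ≤ L * bp ρ x ∧
          (‖x‖ ≤ T → lap G w x + k * gn G w x ≤ L * bp ρ x - c * mg q' x)) ∧
      ∀ x, F x = 0 → ip g w F x ≤ -c

/-- **GLU**: the gluing -/
def GLU : Prop := ∀ (n : ℕ) (g K g₂ K₂ : Field n) F q C R m m₂ (P : Fin n → ℝ),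
  Bk g K F q C R m → Md g K q C R m P → Md g₂ K₂ q C R m₂ P → q ≤ n - 2 → m < m₂ →
  ∀ e > (0 : ℝ), ∀ r₀ : ℝ, ∃ (G H : Field n) (r T : ℝ), r₀ ≤ r ∧ r ≤ T ∧ Met G ∧ Sy H ∧
    (∀ x, 0 ≤ F x → covNorm G (mom G H) x ≤ mu G H x) ∧ (∀ x, F x = 0 → thetaPlus G H F x ≤ 0) ∧
    (∀ x, T ≤ ‖x‖ → G x = g₂ x ∧ H x = K₂ x) ∧
    (∀ x, ‖x‖ ≤ r → ∃ c : ℝ, |c - 1| ≤ e ∧ ∀ i j, G x i j = c * g x i j) ∧
    ∀ x, r ≤ ‖x‖ → ∀ i j, |G x i j - eu n x i j| ≤ e ∧ |g x i j - eu n x i j| ≤ e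

/-! ### the model -/

/-- the metric of the graph of `f` in the static spacetime `-φ² dt² + γ` -/
def sg (γ : Field n) (φ f : E n → ℝ) : Field n :=
  fun y i j => γ y i j - φ y ^ 2 * pd i f y * pd j f y

/-- its second fundamental form -/
def sk (γ : Field n) (φ f : E n → ℝ) : Field n := fun y i j =>
  (hess γ f y i j + (pd i φ y * pd j f y + pd j φ y * pd i f y) / φ y -
    φ y * ip γ φ f y * pd i f y * pd j f y) / √((φ y ^ 2)⁻¹ - ip γ f f y)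

/-- the static vacuum equations at a point -/
def Vac (γ : Field n) (φ : E n → ℝ) (y : E n) : Prop :=
  (∀ i j, φ y * ric γ i j y = hess γ φ y i j) ∧ lap γ φ y = 0

/-- **SV1**: graphs in static vacuum spacetimes solve the vacuum constraint equations -/
def SV1 : Prop := ∀ (n : ℕ) (γ : Field n) (φ f : E n → ℝ), Met γ → Smooth φ → Smooth f →
  (∀ y, 0 < φ y) → (∀ y, φ y ^ 2 * ip γ f f y < 1) → Met (sg γ φ f) ∧ Sy (sk γ φ f) ∧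
    ∀ y, Vac γ φ y → mu (sg γ φ f) (sk γ φ f) y = 0 ∧ ∀ j, mom (sg γ φ f) (sk γ φ f) j y = 0

/-- the potential of the Schwarzschild metric, made smooth -/
structure Su (a y₁ : ℝ) (u : E n → ℝ) : Prop where
  dim : 3 ≤ n
  a0 : 0 ≤ a
  y1 : 1 ≤ y₁
  sm : Smooth u
  bd : ∀ y, 0 ≤ u y ∧ u y ≤ 1 / 2
  out : ∀ y, y₁ ≤ ‖y‖ → u y = a * ‖y‖ ^ (2 - n : ℝ)

/-- the spatial metric -/
def sγ (u : E n → ℝ) : Field n := cf (fun y => 1 + u y) (eu n)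

/-- the lapse -/
def sφ (u : E n → ℝ) (y : E n) : ℝ := (1 - u y) / (1 + u y)

/-- **SUE**: the potential exists -/
def SUE : Prop := ∀ (n : ℕ) (a : ℝ), 3 ≤ n → 0 ≤ a → ∃ (y₁ : ℝ) (u : E n → ℝ), Su a y₁ u

/-- **SV2**: the Schwarzschild metric is static vacuum -/
def SV2 : Prop := ∀ (n : ℕ) (a y₁ : ℝ) (u : E n → ℝ), Su a y₁ u → Met (sγ u) ∧ Smooth (sφ u) ∧
  (∀ y, 0 < sφ u y ∧ sφ u y ≤ 1) ∧ (∀ f y, ip (sγ u) f f y ≤ ∑ i, pd i f y ^ 2) ∧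
    ∀ y, y₁ < ‖y‖ → Vac (sγ u) (sφ u) y

/-- the linear function -/
def lv (v : Fin n → ℝ) (y : E n) : ℝ := ∑ i, v i * y i

/-- the linear map of the boost -/
structure Bo (v : Fin n → ℝ) (γ : ℝ) (L : E n ≃L[ℝ] E n) : Prop where
  γ1 : 1 ≤ γ
  γ2 : γ ^ 2 * (1 - ∑ i, v i ^ 2) = 1
  eq : ∀ x i, L x i = x i + γ ^ 2 / (1 + γ) * lv v x * v i
  lo : ∀ x, ‖x‖ ≤ ‖L x‖
  hi : ∀ x, ‖L x‖ ≤ γ * ‖x‖

/-- **BOE**: the linear map exists -/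
def BOE : Prop := ∀ (n : ℕ) (v : Fin n → ℝ) (γ : ℝ), 1 ≤ γ → γ ^ 2 * (1 - ∑ i, v i ^ 2) = 1 →
  ∃ L, Bo v γ L

/-- the metric of the model -/
def gM (L : E n ≃L[ℝ] E n) (u f : E n → ℝ) : Field n := pull L (sg (sγ u) (sφ u) f)

/-- the tensor of the model -/
def kM (L : E n ≃L[ℝ] E n) (u f : E n → ℝ) : Field n := pull L (sk (sγ u) (sφ u) f)

/-- **PULL**: the constraint quantities in linear coordinates -/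
def PULL : Prop := ∀ (n : ℕ) (L : E n ≃L[ℝ] E n) (g K : Field n), Met g → Sy K →
  Met (pull L g) ∧ Sy (pull L K) ∧ ∀ y, mu (pull L g) (pull L K) y = mu g K (L y) ∧
    covNorm (pull L g) (mom (pull L g) (pull L K)) y = covNorm g (mom g K) (L y)

/-- the expansion of the model: `w = u ∘ L`, `Γ` and `Λ` are smooth near `[0, 1 / 2]` -/
structure Ex (v : Fin n → ℝ) (γ : ℝ) (w : E n → ℝ) (g K : Field n) (Γ : Fin n → Fin n → ℝ → ℝ)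
    (Λ : Fin n → Fin n → Fin n → ℝ → ℝ) : Prop where
  sΓ : ∀ i j, ∀ s ∈ Icc (0 : ℝ) (1 / 2), ContDiffAt ℝ ∞ (Γ i j) s
  sΛ : ∀ i j k, ∀ s ∈ Icc (0 : ℝ) (1 / 2), ContDiffAt ℝ ∞ (Λ i j k) s
  eg : ∀ x i j, g x i j = Γ i j (w x)
  ek : ∀ x i j, K x i j = ∑ k, Λ i j k (w x) * pd k w x
  Γ0 : ∀ i j, Γ i j 0 = if i = j then 1 else 0
  Γ1 : ∀ i j, deriv (Γ i j) 0 =
    2 * bb n * (if i = j then 1 else 0) + (2 * bb n + 4) * γ ^ 2 * v i * v j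
  Λ0 : ∀ i j k, Λ i j k 0 = -((bb n + 2) * γ ^ 2) * ((if i = k then 1 else 0) * v j +
      (if j = k then 1 else 0) * v i) +
    v k * (bb n * (if i = j then 1 else 0) + (bb n + 2) * γ ^ 2 * v i * v j)

/-- **EXM**: the expansion of the model -/
def EXM : Prop := ∀ (n : ℕ) (a y₁ γ : ℝ) (u : E n → ℝ) (v : Fin n → ℝ) L, Su a y₁ u → Bo v γ L →
  ∃ Γ Λ, Ex v γ (fun x => u (L x)) (gM L u (lv v)) (kM L u (lv v)) Γ Λ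

/-- **DCW**: the decay of the potential in the coordinates of the boost -/
def DCW : Prop := ∀ (n : ℕ) (a y₁ γ : ℝ) (u : E n → ℝ) (v : Fin n → ℝ) L, Su a y₁ u → Bo v γ L →
  Smooth (fun x => u (L x)) ∧ (∃ B, O2 B (n - 2) 1 fun x => u (L x)) ∧
    (∀ x, y₁ < ‖x‖ → lap (eu n) (fun x => u (L x)) x =
      ∑ i, ∑ j, v i * v j * pd i (pd j fun x => u (L x)) x) ∧
    Integrable (fun x => lap (eu n) (fun x => u (L x)) x -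
      ∑ i, ∑ j, v i * v j * pd i (pd j fun x => u (L x)) x) ∧
    γ * ∫ x, (lap (eu n) (fun x => u (L x)) x -
      ∑ i, ∑ j, v i * v j * pd i (pd j fun x => u (L x)) x) = -((n - 2) * omega n * a)

/-- **MOD**: the decay of the model -/
def MOD : Prop := ∀ (n : ℕ) (a y₁ γ q : ℝ) (u : E n → ℝ) (v : Fin n → ℝ) L, Su a y₁ u → Bo v γ L →
  0 < q → q ≤ n - 2 → ∃ C > (0 : ℝ), Af (gM L u (lv v)) q C 1 ∧ Ak (kM L u (lv v)) q C 1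

/-- **CHM**: the charges of the model -/
def CHM : Prop := ∀ (n : ℕ) (a y₁ γ : ℝ) (u : E n → ℝ) (v : Fin n → ℝ) L, Su a y₁ u → Bo v γ L →
  Ce (gM L u (lv v)) (2 * a * γ) ∧ Cp (kM L u (lv v)) fun j => 2 * a * γ * v j

/-- **BND**: the bending function -/
def BND : Prop := ∀ (n : ℕ) (v : Fin n → ℝ) (T e : ℝ), 0 < e → ∃ (f : E n → ℝ) (T' : ℝ), Smooth f ∧
  (∀ y, ‖y‖ ≤ T → f y = lv v y) ∧ (∀ y, T' ≤ ‖y‖ → f y = 0) ∧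
    ∀ y, ∃ s ∈ Icc (0 : ℝ) 1, ∀ i, |pd i f y - s * v i| ≤ e

/-- **CLS**: the metric of the bent slice -/
def CLS : Prop := ∀ (n : ℕ) (a y₁ γ : ℝ) (u : E n → ℝ) (v : Fin n → ℝ) L, Su a y₁ u → Bo v γ L →
  ∀ e > (0 : ℝ), ∃ e' > (0 : ℝ), ∃ T₀ : ℝ, ∀ (f : E n → ℝ) (s : ℝ) (y : E n), s ∈ Icc (0 : ℝ) 1 →
    (∀ i, |pd i f y - s * v i| ≤ e') → ∑ i, pd i f y ^ 2 < 1 ∧ ∀ x, L x = y → T₀ ≤ ‖x‖ →
      ∃ w : Fin n → ℝ, ∑ i, w i ^ 2 ≤ γ ^ 2 ∧ ∀ i j, |gM L u f x i j - (eu n x i j + w i * w j)| ≤ e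

/-- **FARS**: data that are Schwarzschild near infinity -/
def FARS : Prop := ∀ (n : ℕ) (D : Exterior n) (a T : ℝ), 3 ≤ n → 0 ≤ a →
  (∀ y, T ≤ ‖y‖ → (∀ i j, D.g y i j = (1 + a * ‖y‖ ^ (2 - n : ℝ)) ^ (2 * bb n) * eu n y i j) ∧
    D.K y = 0) → D.IsAF ∧ D.IsEnergy (2 * a)

/-- the area element of `g'` dominates `κ` times the area element of `g` -/
def Dom (κ : ℝ) (g g' : Field n) (x : E n) : Prop := ∀ X : Fin n → ℝ,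
  κ ^ 2 * (mat g x).det * ∑ i, ∑ j, g' x i j * X i * X j ≤
    (mat g' x).det * ∑ i, ∑ j, g x i j * X i * X j

/-- **CMP2**: the comparison of the area elements -/
def CMP2 : Prop := ∀ (n : ℕ) (η B : ℝ), η ∈ Ioo (0 : ℝ) 1 → ∃ e > (0 : ℝ),
  ∀ (g g' : Field n) (x : E n), Met g → Met g' →
    (∀ c : ℝ, |c - 1| ≤ e → (∀ i j, g' x i j = c * g x i j) → Dom (1 - η) g g' x) ∧
    ∀ w : Fin n → ℝ, ∑ i, w i ^ 2 ≤ B → (∀ i j, |g x i j - eu n x i j| ≤ e) →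
      (∀ i j, |g' x i j - (eu n x i j + w i * w j)| ≤ e) → Dom (1 - η) g g' x

/-- **ACMP**: the comparison of the areas -/
def ACMP : Prop := ∀ (n : ℕ) (D D' : Exterior n) (g : Field n) (κ : ℝ), Met g → Met D'.g → 0 ≤ κ →
  (∀ x, 0 ≤ D'.F x ↔ 0 ≤ D.F x) → (∀ x, 0 ≤ D.F x → g =ᶠ[𝓝 x] D.g) →
  (∀ x, 0 ≤ D.F x → Dom κ g D'.g x) → ENNReal.ofReal κ * D.Amin ≤ D'.Amin

/-- **POSA**: the minimal area is positive -/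
def POSA : Prop := ∀ (n : ℕ) (D : Exterior n) (g : Field n) F q C R m, Bk g D.K F q C R m →
  (∀ x, 0 ≤ F x ↔ 0 ≤ D.F x) → (∀ x, 0 ≤ F x → g =ᶠ[𝓝 x] D.g) → 0 < D.Amin

/-- **BST**: the boost -/
def BST : Prop := ∀ (n : ℕ) (D : Exterior n) (m : ℝ) (P : Fin n → ℝ), 3 ≤ n → D.IsAF → D.DEC →
  D.Trapped → D.IsEnergy m → D.IsMomentum P → ∀ m₂, m < m₂ → √(∑ i, P i ^ 2) < m₂ →
  ∀ η ∈ Ioo (0 : ℝ) 1, ∃ D' : Exterior n, D'.IsAF ∧ D'.DEC ∧ D'.Trapped ∧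
    D'.IsEnergy √(m₂ ^ 2 - ∑ i, P i ^ 2) ∧ ENNReal.ofReal (1 - η) * D.Amin ≤ D'.Amin

/-- **EN**: the inequality with the energy -/
def EN : Prop := ∀ (n : ℕ) (D : Exterior n) (m : ℝ), 3 ≤ n → D.IsAF → D.DEC → D.Trapped →
  D.IsEnergy m → D.Amin ≠ ⊤ ∧ (D.Amin.toReal / omega n) ^ (((n : ℝ) - 2) / (n - 1)) / 2 ≤ m

/-- **FULL**: the inequality with the mass -/
def FULL : Prop := ∀ (n : ℕ) (D : Exterior n) (m : ℝ) (P : Fin n → ℝ), 3 ≤ n → D.IsAF → D.DEC →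
  D.Trapped → D.IsEnergy m → D.IsMomentum P → D.Amin ≠ ⊤ ∧ √(∑ i, P i ^ 2) < m ∧
    (D.Amin.toReal / omega n) ^ (((n : ℝ) - 2) / (n - 1)) / 2 ≤ √(m ^ 2 - ∑ i, P i ^ 2)

end Vale.Agent.P366Y.B
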