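import Vale.Agent.P366Y.B.Defs

/-!
# P366Y, block B: the parts of the gluing (definitions, statements)
-/

open MeasureTheory Metric Filter Topology Set
open scoped ContDiff ENNReal
open Vale.Agent.P366.Stmt Vale.Agent.P366Z Vale.Agent.P366Z.St0
open Vale.Agent.P366Y.A (Sy B0 Bk ck mg)

noncomputable section

namespace Vale.Agent.P366Y.B

variable {n : ℕ}

/-- the linear correction of the errors -/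
structure Sv (g K g₂ K₂ : Field n) (q q' B s ρ τ T : ℝ) (w : E n → ℝ) (Z : Field n) : Prop where
  sm : Smooth w
  sy : Sy Z
  o2 : O2 B q ρ w
  oz : ∀ x i j k, |Z x i j| ≤ B * (ρ + ‖x‖) ^ (-(q + 1)) ∧
    |pd k (fun y => Z y i j) x| ≤ B * (ρ + ‖x‖) ^ (-(q + 2))
  out : ∀ x, T ≤ ‖x‖ → w x = 0 ∧ Z x = 0
  ins : ∀ x, ‖x‖ < ρ → |lap (eu n) w x| ≤ τ * mg q' x
  key : ∀ x, -ee ρ g g₂ x / 2 + 2 * ∑ j, |es ρ K K₂ j x + lj Z j x| +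
    2 * gam n * lap (eu n) w x ≤ -s * bp ρ x + τ * mg q' x

/-- **SOLV**: the linear correction exists -/
def SOLV : Prop := ∀ (n : ℕ) (g K g₂ K₂ : Field n) (q q' C R m m₂ : ℝ) (P : Fin n → ℝ), 3 ≤ n →
  0 < q → q ≤ n - 2 → 0 < q' → q' < 1 → 0 < C → 1 ≤ R → Md g K q C R m P →
  Md g₂ K₂ q C R m₂ P → m < m₂ → ∃ B > (0 : ℝ), ∃ s > (0 : ℝ), ∃ ρ₀ : ℝ, ∀ ρ ≥ ρ₀, ∀ τ > (0 : ℝ),
    ∃ T₀ : ℝ, ∀ T ≥ T₀, ∃ w Z, Sv g K g₂ K₂ q q' B s ρ τ T w Z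

/-- the quantity that has to be nonpositive -/
def Qd (G H : Field n) (U : E n → ℝ) (x : E n) : ℝ :=
  U x * (covNorm G (mom G H) x - mu G H x) +
    2 * gam n * (lap G U x + √(normSq G H x) * gn G U x)

/-- the conformal factor -/
def uu (δ : ℝ) (w₀ w : E n → ℝ) (y : E n) : ℝ := 1 + w₀ y + δ * w y

/-- **MID**: the middle region -/
def MID : Prop := ∀ (n : ℕ) (q q' C B s L c δ : ℝ), 3 ≤ n → 0 < q' → q' < q → n + q' < 2 + 2 * q →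
  0 < C → 0 < B → 0 < L → 0 < c → 0 < δ → 4 * gam n * δ * L ≤ s → ∃ R₁ ≥ (1 : ℝ), ∃ τ > (0 : ℝ),
  ∀ (g K g₂ K₂ Z : Field n) (w₀ w : E n → ℝ) (R ρ T : ℝ) (x : E n), Met g → Met g₂ →
    Met (gm ρ g g₂) → Sy K → Sy K₂ → Af g q C R → Af g₂ q C R → Af (gm ρ g g₂) q C R →
    Ak K q C R → Ak K₂ q C R → Ak (gm ρ K K₂ + Z) q C R → Sv g K g₂ K₂ q q' B s ρ τ T w₀ Z →
    Smooth w → 0 < ρ → R ≤ ‖x‖ → R₁ ≤ ‖x‖ → covNorm g (mom g K) x ≤ mu g K x →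
    covNorm g₂ (mom g₂ K₂) x ≤ mu g₂ K₂ x → 0 ≤ bp ρ x → |w x| ≤ L →
    (ρ ≤ ‖x‖ → |w x| ≤ L * ‖x‖ ^ (2 - n : ℝ)) → 1 / 2 ≤ uu δ w₀ w x → uu δ w₀ w x ≤ 2 →
    lap (gm ρ g g₂) w x + √(normSq (gm ρ g g₂) (gm ρ K K₂ + Z) x) * gn (gm ρ g g₂) w x ≤
      L * bp ρ x - c * mg q' x →
    Qd (gm ρ g g₂) (gm ρ K K₂ + Z) (uu δ w₀ w) x ≤ 0

/-- **INP**: the inner region -/
def INP : Prop := ∀ (n : ℕ) (g K : Field n) (F : E n → ℝ) (r c δ : ℝ), 3 ≤ n → Met g → Sy K →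
  Smooth F → 0 < c → 0 < δ → ∃ e ∈ Ioc (0 : ℝ) 1, ∀ (G H Z : Field n) (w₀ w : E n → ℝ) (x : E n),
    Met G → Sy Z → Smooth w₀ → Smooth w → ‖x‖ ≤ r → G =ᶠ[𝓝 x] g → H =ᶠ[𝓝 x] K + Z →
    (∀ i j k, |Z x i j| ≤ e ∧ |pd k (fun y => Z y i j) x| ≤ e) →
    (∀ i j, |pd i w₀ x| ≤ e ∧ |pd j (pd i w₀) x| ≤ e) → 1 / 2 ≤ uu δ w₀ w x → uu δ w₀ w x ≤ 2 →
    (covNorm g (mom g K) x ≤ mu g K x → lap G w x + √(normSq G H x) * gn G w x ≤ -c →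
      Qd G H (uu δ w₀ w) x ≤ 0) ∧
    (thetaPlus g K F x ≤ 0 → gn g F x ≠ 0 → ip g w F x ≤ -c →
      thetaPlus G H F x + 2 * gam n * ip G (uu δ w₀ w) F x / (uu δ w₀ w x * gn G F x) ≤ 0)

end Vale.Agent.P366Y.B
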