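import Vale.Agent.P366Y.B.GluDefs

/-!
# P366Y, block B: the middle region (row MID)
-/

open MeasureTheory Metric Filter Topology Set
open scoped ContDiff ENNReal
open Vale.Agent.P366.Stmt Vale.Agent.P366Z Vale.Agent.P366Z.St0
open Vale.Agent.P366Y.A (Sy mg)

noncomputable section

namespace Vale.Agent.P366Y.B

namespace MidX

variable {n : ℕ}

theorem far {p a ε : ℝ} (M : ℝ) (hp : 0 ≤ p) (ha : p < a) (hε : 0 < ε) :
    ∀ᶠ r : ℝ in atTop, M * r ^ (-a) ≤ ε * (1 + r) ^ (-p) := by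
  have h := (tendsto_rpow_neg_atTop (sub_pos.2 ha)).const_mul (M * 2 ^ p)
  filter_upwards [h.eventually (gt_mem_nhds (show M * 2 ^ p * 0 < ε by simpa)),
    eventually_ge_atTop 1] with r h1 h2
  have e : M * r ^ (-a) = M * 2 ^ p * r ^ (-(a - p)) * (2 * r) ^ (-p) := by
    rw [Real.mul_rpow zero_le_two (by linarith), Real.rpow_neg zero_le_two,
      show -a = -(a - p) + -p by ring, Real.rpow_add (by linarith)]
    field_simp
  rw [e]
  exact mul_le_mul h1.le (Real.rpow_le_rpow_of_nonpos (by linarith) (by linarith) (by linarith))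
    (by positivity) hε.le

theorem alg {γ U D l s b τ m Ld P P' A N W δ L c X : ℝ} (hγ : 0 < γ) (u1 : 1 / 2 ≤ U) (u2 : U ≤ 2)
    (hb : 0 ≤ b) (hm : 0 ≤ τ * m) (hP : 0 ≤ Ld * P) (h0 : 0 ≤ 4 * γ * δ * L)
    (hs : 4 * γ * δ * L ≤ s) (hD : D + 2 * γ * l ≤ -s * b + τ * m + Ld * P)
    (hX : X ≤ l + A * P + δ * (L * b - c * m))
    (hU : |(U - 1) * l| ≤ N * P + δ * (L * (τ * m) + W * P'))
    (f1 : (2 * Ld + 2 * γ * A + 2 * γ * N) * P ≤ γ * δ * c / 2 * m)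
    (f2 : 2 * γ * δ * W * P' ≤ γ * δ * c / 2 * m) (hτ : τ * (2 + 2 * γ * δ * L) = γ * δ * c) :
    U * D + 2 * γ * X ≤ 0 := by
  have k1 := mul_le_mul_of_nonneg_left hD (show 0 ≤ U by linarith)
  have k2 := mul_le_mul_of_nonneg_left hX (show 0 ≤ 2 * γ by linarith)
  have k3 := mul_le_mul_of_nonneg_left ((neg_le_abs _).trans hU) (show 0 ≤ 2 * γ by linarith)
  have k4 := mul_le_mul_of_nonneg_right u1 (mul_nonneg (h0.trans hs) hb)
  have k5 := mul_le_mul_of_nonneg_right u2 hm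
  have k6 := mul_le_mul_of_nonneg_right u2 hP
  have k7 := mul_le_mul_of_nonneg_right hs hb
  have k8 : τ * (2 + 2 * γ * δ * L) * m = γ * δ * c * m := by rw [hτ]
  linarith

theorem lap_uu {G : Field n} (hG : Met G) {w₀ w : E n → ℝ} (h0 : Smooth w₀) (hw : Smooth w)
    (δ : ℝ) (x : E n) : lap G (uu δ w₀ w) x = lap G w₀ x + δ * lap G w x := by
  have e : uu δ w₀ w = fun y => (1 * w₀ y + δ * w y) + 1 := funext fun y => by rw [uu]; ring
  rw [e, lap_add_const, hG.lap_lin (h0.c2 x) (hw.c2 x), one_mul]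

theorem gn_uu {G : Field n} (hG : Met G) {w₀ w : E n → ℝ} (h0 : Smooth w₀) (hw : Smooth w)
    {δ : ℝ} (hδ : 0 ≤ δ) (x : E n) : gn G (uu δ w₀ w) x ≤ gn G w₀ x + δ * gn G w x := by
  refine (hG.gn_add_le (u₁ := w₀) (u₂ := fun y => δ * w y) fun i => ?_).trans_eq ?_
  · rw [← pd_const_add (f := w₀) 1]
    exact pd_add ((h0.diff x).const_add 1) ((hw.diff x).const_mul δ) i
  · rw [gn_of_pd (u := fun y => δ * w y) (u' := w) (s := δ) fun i => pd_const_mul _ _,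
      abs_of_nonneg hδ]

end MidX

open MidX

theorem mid_of (hD : DEF) (hL : LAPD) : MID := by
  intro n q q' C B s L c δ hn q0 qq hq hC hB hL0 hc hδ hs
  have hγ : 0 < gam n := by linarith [one_lt_gam hn]
  have q1 : 0 < q := by linarith
  obtain ⟨Ld, d0, Rd, d1, hd⟩ := hD n q C q1 hC
  obtain ⟨La, a0, Ra, -, ha⟩ := hL n q C q1 hC
  have ε0 : 0 < gam n * δ * c / 2 := by positivity
  obtain ⟨R₀, h₀⟩ := eventually_atTop.1 ((far (p := n + q') (a := 2 * q + 2) (2 * Ld + 2 * gam n *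
    (2 * La * B + Ld * La * B) + 2 * gam n * (n * B ^ 2)) (by positivity) (by linarith) ε0).and
    (far (p := n + q') (a := n + q) (2 * gam n * δ * (L * n * B)) (by positivity) (by linarith) ε0))
  refine ⟨max Rd (max Ra R₀), le_max_of_le_left d1, gam n * δ * c / (2 + 2 * gam n * δ * L),
    by positivity, fun g K g₂ K₂ Z w₀ w R ρ T x hg hg₂ hG hK hK₂ af af₂ afG ak ak₂ akH sv hw ρ0 hR
      hR₁ dec dec₂ b0 w1 w2 u1 u2 hw' => ?_⟩
  generalize hτ : gam n * δ * c / (2 + 2 * gam n * δ * L) = τ at sv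
  have τ0 : 0 < τ := hτ ▸ by positivity
  obtain ⟨r1, r2, r3⟩ : Rd ≤ ‖x‖ ∧ Ra ≤ ‖x‖ ∧ R₀ ≤ ‖x‖ := by simpa using hR₁
  have x0 : 0 < ‖x‖ := by linarith
  have m0 : 0 < mg q' x := Real.rpow_pos_of_pos (by positivity) _
  have dc : ∀ p : ℝ, 0 ≤ p → B * (ρ + ‖x‖) ^ (-p) ≤ B * ‖x‖ ^ (-p) := fun p hp =>
    mul_le_mul_of_nonneg_left (Real.rpow_le_rpow_of_nonpos x0 (by linarith) (by linarith)) hB.le
  have pw : ∀ a b c : ℝ, a + b = c → ‖x‖ ^ a * ‖x‖ ^ b = ‖x‖ ^ c := fun a b c h => by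
    rw [← Real.rpow_add x0, h]
  obtain ⟨e1, e2⟩ :=
    hd g K g₂ K₂ Z R ρ x hg hg₂ hG hK hK₂ sv.sy af af₂ afG ak ak₂ akH hR r1 dec dec₂
  have b2 : ∀ i j, |pd j (pd i w₀) x| ≤ B * ‖x‖ ^ (-(q + 2)) := fun i j =>
    (sv.o2 x i j).2.2.trans (dc _ (by linarith))
  obtain ⟨e3, e4⟩ := ha _ w₀ R (B * ‖x‖ ^ (-(q + 1))) (B * ‖x‖ ^ (-(q + 2))) x hG afG hR r2 sv.sm
    (by positivity) (by positivity) (fun i => (sv.o2 x i i).2.1.trans (dc _ (by linarith))) b2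
  have l1 : |lap (eu n) w₀ x| ≤ n * (B * ‖x‖ ^ (-(q + 2))) := by
    rw [lap_eu]
    exact (Finset.abs_sum_le_sum_abs _ _).trans
      ((Finset.sum_le_sum fun i _ => b2 i i).trans_eq (by simp))
  have p1 := pw (-q) (-(q + 2)) (-(2 * q + 2)) (by ring)
  have p2 := pw (-(q + 1)) (-(q + 1)) (-(2 * q + 2)) (by ring)
  have p3 := pw (2 - n) (-(q + 2)) (-(n + q)) (by ring)
  refine alg (l := lap (eu n) w₀ x) hγ u1 u2 b0 (mul_pos τ0 m0).le (by positivity) (by positivity)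
    hs (by linarith [sv.key x]) ?_ ?_ (h₀ _ r3).1 (h₀ _ r3).2 (by rw [← hτ]; field_simp)
  · have k1 := mul_le_mul_of_nonneg_left (gn_uu hG sv.sm hw hδ.le x)
      (Real.sqrt_nonneg (normSq (gm ρ g g₂) (gm ρ K K₂ + Z) x))
    have k2 := mul_le_mul e2 e4 (gn_nonneg _ _ _) (by positivity)
    have k3 := mul_le_mul_of_nonneg_left hw' hδ.le
    have k4 : La * (‖x‖ ^ (-q) * (B * ‖x‖ ^ (-(q + 2))) + ‖x‖ ^ (-(q + 1)) *
        (B * ‖x‖ ^ (-(q + 1)))) = 2 * La * B * ‖x‖ ^ (-(2 * q + 2)) := by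
      linear_combination La * B * p1 + La * B * p2
    have k5 : Ld * ‖x‖ ^ (-(q + 1)) * (La * (B * ‖x‖ ^ (-(q + 1)))) =
        Ld * La * B * ‖x‖ ^ (-(2 * q + 2)) := by linear_combination Ld * La * B * p2
    rw [lap_uu hG sv.sm hw]
    linarith [(abs_le.1 e3).2]
  · have i0 : Fin n := ⟨0, by omega⟩
    have k1 := mul_le_mul ((sv.o2 x i0 i0).1.trans (dc _ q1.le)) l1 (abs_nonneg _) (by positivity)
    have k2 : |w x| * |lap (eu n) w₀ x| ≤ L * (τ * mg q' x) + L * n * B * ‖x‖ ^ (-(n + q)) := by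
      rcases lt_or_ge ‖x‖ ρ with h | h
      · exact (mul_le_mul w1 (sv.ins x h) (abs_nonneg _) hL0.le).trans
          (le_add_of_nonneg_right (by positivity))
      · refine (mul_le_mul (w2 h) l1 (abs_nonneg _) (by positivity)).trans
          (le_add_of_nonneg_of_le (by positivity) (le_of_eq ?_))
        linear_combination L * n * B * p3
    have k3 : B * ‖x‖ ^ (-q) * (n * (B * ‖x‖ ^ (-(q + 2)))) = n * B ^ 2 * ‖x‖ ^ (-(2 * q + 2)) := by
      linear_combination n * B ^ 2 * p1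
    have k4 : |uu δ w₀ w x - 1| ≤ |w₀ x| + δ * |w x| := by
      rw [show uu δ w₀ w x - 1 = w₀ x + δ * w x by rw [uu]; ring]
      exact (abs_add_le _ _).trans_eq (by rw [abs_mul, abs_of_pos hδ])
    have k5 := mul_le_mul_of_nonneg_right k4 (abs_nonneg (lap (eu n) w₀ x))
    have k6 := mul_le_mul_of_nonneg_left k2 hδ.le
    rw [abs_mul]
    linarith

end Vale.Agent.P366Y.B
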