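import Vale.Agent.P366Y.B.Defs
import Vale.Agent.P366Z.St0.Sub
import Vale.Agent.P366Z.Grad
import Vale.Agent.P366Z.Lina
import Vale.Agent.P366Z.Linb
import Vale.Agent.P366Z.Res

/-!
# P366Y, block B: the equation of Poisson between two barriers
-/

open Metric Filter Topology Set
open Vale.Agent.P366.Stmt Vale.Agent.P366Z Vale.Agent.P366Z.St0

set_option linter.all false

noncomputable section

namespace Vale.Agent.P366Y.B

namespace SbiH

theorem gen (hR : RES) (hW : WMB) (hG : GRAD) (hE : REG) {n : ℕ} {g : Field n} {ρ A A₁ A₂ : ℝ}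
    {U H u₁ u₂ : E n → ℝ} (hn : 3 ≤ n) (hg : Met g) (hf : Flat g ρ) (hU : Wt g U) (hH : Smooth H)
    (bH : BL A H) (s1 : Smooth u₁) (s2 : Smooth u₂) (b1 : BL A₁ u₁) (b2 : BL A₂ u₂)
    (le : ∀ x, u₁ x ≤ u₂ x) (e1 : ∀ x, U x ^ 2 * H x ≤ wl g U u₁ x)
    (e2 : ∀ x, wl g U u₂ x ≤ U x ^ 2 * H x) :
    ∃ u, Smooth u ∧ (∀ x, u₁ x ≤ u x ∧ u x ≤ u₂ x) ∧ ∀ x, wl g U u x = U x ^ 2 * H x := by
  obtain ⟨c, c0, C, hC⟩ := hU.bd
  have U0 : ∀ x, 0 < U x := fun x => c0.trans_le (hC x).1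
  have U1 : ∀ x, U x ^ 2 ≤ C ^ 2 := fun x => pow_le_pow_left₀ (U0 x).le (hC x).2.1 2
  obtain ⟨l₀, h0⟩ := hR n g ρ U (by omega) hg hf hU
  obtain ⟨l, l1, l3⟩ : ∃ l, l₀ ≤ l ∧ 1 ≤ l := ⟨max l₀ 1, by simp, by simp⟩
  have l0 := one_pos.trans_le l3
  obtain ⟨K₁, K₂, h1⟩ := h0 l l1
  obtain ⟨D, hD⟩ := hG n g ρ U hn hg hf hU
  have W1 : ∀ x, 0 ≤ l * U x ^ 2 := fun x => mul_nonneg l0.le (sq_nonneg _)
  obtain ⟨B, B1, B2⟩ : ∃ B, A₁ ≤ B ∧ A₂ ≤ B := ⟨_, le_max_left _ _, le_max_right _ _⟩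
  obtain ⟨M, M1, M2⟩ : ∃ M, B ≤ M ∧ D * (B / 1 + 1 * (2 * (l * C ^ 2 * B) + C ^ 2 * A)) ≤ M :=
    ⟨_, le_max_left _ _, le_max_right _ _⟩
  have bt : ∀ {t : ℝ} x, u₁ x ≤ t ∧ t ≤ u₂ x → |t| ≤ B := fun x k => abs_le.2
    ⟨by linarith [(abs_le.1 (b1.1 x)).1, k.1], by linarith [(abs_le.1 (b2.1 x)).2, k.2]⟩
  have c2 : ∀ {u : E n → ℝ}, Smooth u → ContDiff ℝ 2 u := fun h => contDiff_iff_contDiffAt.2 h.c2
  let S := {h : E n → ℝ // BL M h ∧ ∀ x, u₁ x ≤ h x ∧ h x ≤ u₂ x}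
  have ab : ∀ (h : S) x, |h.1 x| ≤ B := fun h x => bt x (h.2.2 x)
  have step : ∀ h : S, ∃ w : S, ContDiff ℝ 2 w.1 ∧ (∀ R, ∃ K, H2 K w.1 (ball 0 R)) ∧
      ∀ x, l * U x ^ 2 * w.1 x - wl g U w.1 x = l * U x ^ 2 * h.1 x - U x ^ 2 * H x := by
    rintro ⟨h, b, k⟩
    have bb : BL (l * M + A) fun x => l * h x - H x := ⟨fun x => (norm_sub_le _ _).trans
      (add_le_add (by
        rw [norm_mul, Real.norm_of_nonneg l0.le]
        exact mul_le_mul_of_nonneg_left (b.1 x) l0.le) (bH.1 x)), fun x y => by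
      rw [show l * h x - H x - (l * h y - H y) = l * (h x - h y) - (H x - H y) by ring, add_mul,
        mul_assoc]
      refine (norm_sub_le _ _).trans (add_le_add ?_ (bH.2 x y))
      rw [norm_mul, Real.norm_of_nonneg l0.le]
      exact mul_le_mul_of_nonneg_left (b.2 x y) l0.le⟩
    obtain ⟨w, w1, w2, w3, w4⟩ := h1 _ _ bb
    have w5 : ∀ x, l * U x ^ 2 * w x - wl g U w x = l * U x ^ 2 * h x - U x ^ 2 * H x :=
      fun x => by rw [w4 x]; ring
    have a : ∀ x, u₁ x ≤ w x ∧ w x ≤ u₂ x := fun x =>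
      ⟨SchX.cmp hW hg hf hU l0 (c2 s1) w1 b1.1 w2.1 (fun x => by
        rw [w5]
        linarith [e1 x, mul_le_mul_of_nonneg_left (k x).1 (W1 x)]) x,
      SchX.cmp hW hg hf hU l0 w1 (c2 s2) w2.1 b2.1 (fun x => by
        rw [w5]
        linarith [e2 x, mul_le_mul_of_nonneg_left (k x).2 (W1 x)]) x⟩
    refine ⟨⟨w, ResH.bl_of (w1.differentiable (by norm_num)) fun x => ⟨(bt x (a x)).trans M1,
      (hD 1 B _ x w one_pos le_rfl fun y _ => ⟨w1.contDiffAt, bt y (a y), ?_⟩).trans M2⟩, a⟩, w1,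
      fun R => ⟨_, w3 R⟩, w5⟩
    have p0 : ∀ t : ℝ, |t| ≤ B → |l * U y ^ 2 * t| ≤ l * C ^ 2 * B := fun t ht => by
      rw [abs_mul, abs_of_nonneg (W1 y)]
      exact mul_le_mul (mul_le_mul_of_nonneg_left (U1 y) l0.le) ht (abs_nonneg _) (by positivity)
    have p1 := p0 _ (bt y (a y))
    have p2 := p0 _ (bt y (k y))
    have p3 : |U y ^ 2 * H y| ≤ C ^ 2 * A := by
      rw [abs_mul, abs_of_nonneg (sq_nonneg _)]
      exact mul_le_mul (U1 y) (bH.1 y) (abs_nonneg _) (sq_nonneg _)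
    rw [abs_le] at p1 p2 p3 ⊢
    constructor <;> linarith [w5 y, p1.1, p1.2, p2.1, p2.2, p3.1, p3.2]
  choose T T1 T2 T4 using step
  have mono : ∀ h h' : S, (∀ x, h.1 x ≤ h'.1 x) → ∀ x, (T h).1 x ≤ (T h').1 x := fun h h' k =>
    SchX.cmp hW hg hf hU l0 (T1 h) (T1 h') (ab _) (ab _) fun x => by
      rw [T4, T4]
      exact sub_le_sub_right (mul_le_mul_of_nonneg_left (k x) (W1 x)) _
  let o : S := ⟨u₂, ⟨fun x => (b2.1 x).trans (B2.trans M1), fun x y => (b2.2 x y).trans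
    (mul_le_mul_of_nonneg_right (B2.trans M1) (norm_nonneg _))⟩, fun x => ⟨le x, le_rfl⟩⟩
  let u : ℕ → S := fun k => T^[k] o
  have us : ∀ k, u (k + 1) = T (u k) := fun k => Function.iterate_succ_apply' T k o
  have an : ∀ x, Antitone fun k => (u k).1 x := fun x => antitone_nat_of_succ_le fun k => by
    induction k generalizing x with
    | zero => exact ((u 1).2.2 x).2
    | succ k ih =>
      rw [us (k + 1), us k]
      exact mono (T (u k)) (u k) (fun y => by rw [← us]; exact ih y) x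
  have bd : ∀ x, BddBelow (range fun k => (u k).1 x) := fun x =>
    ⟨u₁ x, by rintro _ ⟨k, rfl⟩; exact ((u k).2.2 x).1⟩
  have lim := fun x => tendsto_atTop_ciInf (an x) (bd x)
  let h : S := ⟨fun x => ⨅ k, (u k).1 x, ⟨fun x => le_of_tendsto' (lim x).norm fun k => (u k).2.1.1 x,
    fun x y => le_of_tendsto' ((lim x).sub (lim y)).norm fun k => (u k).2.1.2 x y⟩,
    fun x => ⟨ge_of_tendsto' (lim x) fun k => ((u k).2.2 x).1,
      le_of_tendsto' (lim x) fun k => ((u k).2.2 x).2⟩⟩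
  have lo : ∀ k x, h.1 x ≤ (u k).1 x := fun k x => ciInf_le (bd x) k
  have ct : ∀ w : S, Continuous w.1 := fun w => (lip_of_le w.2.1.2).cont
  have df : ∀ (w w' : S) x, w.1 x - w'.1 x ≤ 2 * B := fun w w' x => by
    linarith [(abs_le.1 (ab w x)).2, (abs_le.1 (ab w' x)).1]
  have fx : (T h).1 = h.1 := funext fun x => le_antisymm
    (le_ciInf fun k => (mono h (u k) (lo k) x).trans (by rw [← us]; exact an x k.le_succ))
    (le_of_forall_pos_le_add fun e he => by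
      obtain ⟨R, hR⟩ := SubX.loc (by omega) hg hf hU l0 (half_pos he) (2 * B) x
      obtain ⟨k, k2⟩ := (Metric.tendstoUniformlyOn_iff.1 (Antitone.tendstoUniformlyOn_of_forall_tendsto
        (isCompact_closedBall 0 R) (fun k => (ct (u k)).continuousOn) (fun x _ => an x)
        (ct h).continuousOn fun x _ => lim x) (e / 2) (by positivity)).exists
      have := hR (fun y => (T (u k)).1 y - (T h).1 y) (fun y => (u k).1 y - h.1 y)
        ((T1 _).sub (T1 _)) fun y => ⟨df (T (u k)) (T h) y, df (u k) h y, fun hy => by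
            have := k2 y (mem_closedBall_zero_iff.2 hy)
            rw [Real.dist_eq, abs_lt] at this
            linarith [this.1], by
            rw [hg.wl_sub (hU.sm.diff y) (T1 _).contDiffAt (T1 _).contDiffAt]
            linarith [T4 (u k) y, T4 h y]⟩
      rw [← us] at this
      linarith [lo (k + 1) x])
  have eq : ∀ x, wl g U (T h).1 x = U x ^ 2 * H x := fun x => by
    have := T4 h x
    rw [fx] at this ⊢
    linarith
  exact ⟨(T h).1, hE n g U _ (fun q => U q.1 ^ 2 * H q.1) hg hU.sm U0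
    (((ContDiff.comp hU.sm contDiff_fst).pow 2).mul (ContDiff.comp hH contDiff_fst)) (T1 h) (T2 h) eq,
    (T h).2.2, eq⟩

end SbiH

/-- **SBI** -/
theorem sbi : SBI := by
  intro n h u₁ u₂ hn hh ⟨A, bh⟩ s1 s2 ⟨A₁, b1⟩ ⟨A₂, b2⟩ le e1 e2
  obtain ⟨u, k1, k2, k3⟩ := SbiH.gen (res_of (linv_of lina (linb_of wmb))) wmb grad reg hn met_eu
    (flat_eu 1) (LinbH.wt_one _) hh bh s1 s2 b1 b2 le
    (fun x => by rw [wl_one, one_pow, one_mul]; exact e1 x)
    (fun x => by rw [wl_one, one_pow, one_mul]; exact e2 x)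
  exact ⟨u, k1, k2, fun x => by simpa only [wl_one, one_pow, one_mul] using k3 x⟩

end Vale.Agent.P366Y.B
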