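import Vale.Agent.P366.H474.D.Mu
import Vale.Agent.P366.H896.X1c

/-!
# P366Y, block B: the Schwarzschild metric in Kerr-Schild form is Ricci flat
-/

open MeasureTheory Metric Filter Topology Set
open scoped ContDiff

noncomputable section

namespace Vale.Agent.P366Y.B.Vac

open Vale.Agent.P366.Stmt Vale.Agent.P366.T2 Vale.Agent.P366.H896
open Vale.Agent.P366.Kerr (sp pt ksG nul indG indK)

variable {n : ℕ} {p : E (n + 1)}

/-- the signs -/
def sg (a : Fin (n + 1)) : ℝ := if a = 0 then -1 else 1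

/-- the projection to space -/
def hs (a : Fin (n + 1)) : ℝ := if a = 0 then 0 else 1

/-- the differential of the time -/
def d0 (a : Fin (n + 1)) : ℝ := if a = 0 then 1 else 0

/-- the radius -/
def R (p : E (n + 1)) : ℝ := len (sp p)

/-- the differential of the radius -/
def N (a : Fin (n + 1)) (p : E (n + 1)) : ℝ := hs a * p a / R p

/-- the tangential projection -/
def Q (a b : Fin (n + 1)) (p : E (n + 1)) : ℝ := (if a = b then hs a else 0) - N a p * N b p

/-- the complement of the axis -/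
def U (n : ℕ) : Set (E (n + 1)) := {p | sp p ≠ 0}

lemma hp_cmp {m : ℕ} {k : Fin m} {f : E m → ℝ} {d : ℝ} {x : E m} {φ : ℝ → ℝ} {φ' : ℝ}
    (hφ : HasDerivAt φ φ' (f x)) (h : HP k f d x) : HP k (fun y => φ (f y)) (φ' * d) x := by
  have h1 : HasDerivAt φ φ' (f (x + (0 : ℝ) • EuclideanSpace.single k (1 : ℝ))) := by
    simpa using hφ
  exact h1.comp (0 : ℝ) h

lemma R_sq (p : E (n + 1)) : R p ^ 2 = ∑ a, hs a * p a ^ 2 := by
  rw [R, len, EuclideanSpace.real_norm_sq_eq, Fin.sum_univ_succ]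
  simp [hs, sp]

lemma R_eq : (R : E (n + 1) → ℝ) = fun p => √(∑ a, hs a * p a ^ 2) := by
  funext p
  rw [← R_sq, Real.sqrt_sq (show 0 ≤ R p from norm_nonneg _)]

lemma R_pos (hp : p ∈ U n) : 0 < R p := norm_pos_iff.2 hp

lemma sm_q : ContDiff ℝ ∞ fun p : E (n + 1) => ∑ a, hs a * p a ^ 2 :=
  ContDiff.sum fun a _ => contDiff_const.mul
    ((EuclideanSpace.proj a : E (n + 1) →L[ℝ] ℝ).contDiff.pow 2)

lemma sm_R (hp : p ∈ U n) : ContDiffAt ℝ ∞ R p := by
  rw [R_eq]
  refine sm_q.contDiffAt.sqrt ?_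
  rw [← R_sq]
  exact (pow_pos (R_pos hp) 2).ne'

lemma op_U : IsOpen (U n) := by
  have h : U n = {p | 0 < ∑ a, hs a * p a ^ 2} := by
    ext p
    rw [mem_ofPred_eq, ← R_sq]
    exact ⟨fun h => pow_pos (R_pos h) 2, fun h h0 => by simp [R, len, h0] at h⟩
  rw [h]
  exact isOpen_lt continuous_const sm_q.continuous

lemma hp_R (hp : p ∈ U n) (a : Fin (n + 1)) : HP a R (N a p) p := by
  have h0 := R_pos hp
  have h1 : HP a (fun y : E (n + 1) => ∑ b, hs b * y b ^ 2) (2 * hs a * p a) p := by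
    have h2 := HP.sum (k := a) (x := p) Finset.univ (f := fun b y => hs b * y b ^ 2)
      (d := fun b => hs b * ((2 * p b) * if b = a then 1 else 0)) fun b _ =>
        (hp_cmp (φ := fun t => t ^ 2) (by simpa using hasDerivAt_pow 2 (p b))
          (HP.coord a b p)).const_mul _
    have e : ∑ b, hs b * ((2 * p b) * if b = a then (1 : ℝ) else 0) = 2 * hs a * p a := by
      simp only [mul_ite, mul_one, mul_zero, Finset.sum_ite_eq', Finset.mem_univ, if_true]
      ring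
    rwa [e] at h2
  have h3 := hp_cmp (Real.hasDerivAt_sqrt (x := ∑ b, hs b * p b ^ 2)
    (by rw [← R_sq]; positivity)) h1
  have e : 1 / (2 * √(∑ b, hs b * p b ^ 2)) * (2 * hs a * p a) = N a p := by
    rw [← R_sq, Real.sqrt_sq h0.le, N]
    field_simp
  rw [e, ← R_eq] at h3
  exact h3

lemma hp_N (hp : p ∈ U n) (a b : Fin (n + 1)) : HP a (N b) (Q a b p / R p) p := by
  have h0 := (R_pos hp).ne'
  have h1 := ((HP.coord a b p).const_mul (hs b)).mul (hp_cmp (hasDerivAt_inv h0) (hp_R hp a))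
  have e : hs b * (if b = a then 1 else 0) * (R p)⁻¹ + hs b * p b * (-(R p ^ 2)⁻¹ * N a p) =
      Q a b p / R p := by
    unfold Q N
    by_cases h : a = b
    · subst h
      simp only [if_true]
      field_simp
      ring
    · simp only [if_neg h, if_neg (Ne.symm h)]
      field_simp
      ring
  rw [e] at h1
  exact h1.congr (Eventually.of_forall fun y => by simp only [N, div_eq_mul_inv])

lemma N0 : N 0 p = 0 := by simp [N, hs]

lemma sNN (hp : p ∈ U n) : ∑ a, sg a * (N a p * N a p) = 1 := by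
  have h0 := (R_pos hp).ne'
  have e : ∀ a, sg a * (N a p * N a p) = hs a * p a ^ 2 / R p ^ 2 := fun a => by
    unfold sg N hs
    split_ifs
    · simp
    · field_simp
  simp only [e]
  rw [← Finset.sum_div, ← R_sq, div_self (pow_ne_zero 2 h0)]

lemma sd0 (X : Fin (n + 1) → ℝ) : ∑ a, sg a * (d0 a * X a) = -X 0 := by
  rw [Finset.sum_eq_single 0] <;> simp +contextual [sg, d0]

lemma sQ (b : Fin (n + 1)) (X : Fin (n + 1) → ℝ) :
    ∑ a, sg a * (X a * Q a b p) = hs b * X b - (∑ a, sg a * (X a * N a p)) * N b p := by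
  have e : ∀ a, sg a * (X a * Q a b p) = (if a = b then hs b * X b else 0) -
      sg a * (X a * N a p) * N b p := fun a => by
    unfold Q
    by_cases h : a = b
    · subst h
      simp only [if_true, sg, hs]
      split_ifs <;> ring
    · simp only [if_neg h]
      ring
  simp only [e, Finset.sum_sub_distrib, Finset.sum_ite_eq', Finset.mem_univ, if_true,
    Finset.sum_mul]

lemma hsN (b : Fin (n + 1)) : hs b * N b p = N b p := by
  unfold N hs
  split_ifs <;> simp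

lemma sNQ (hp : p ∈ U n) (b : Fin (n + 1)) : ∑ a, sg a * (N a p * Q a b p) = 0 := by
  rw [sQ, sNN hp, hsN]
  ring

lemma Q0 (b : Fin (n + 1)) : Q 0 b p = 0 := by simp [Q, N0, hs]

lemma Q_symm (a b : Fin (n + 1)) : Q a b p = Q b a p := by
  unfold Q
  by_cases h : a = b
  · subst h; rfl
  · rw [if_neg h, if_neg (Ne.symm h), mul_comm]

lemma sQQ (hp : p ∈ U n) (a b : Fin (n + 1)) : ∑ c, sg c * (Q c a p * Q c b p) = Q a b p := by
  have h1 : ∑ c, sg c * (Q c a p * N c p) = 0 := by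
    rw [← sNQ hp a]
    exact Finset.sum_congr rfl fun c _ => by ring
  rw [sQ, h1, zero_mul, sub_zero, Q_symm a b]
  by_cases h : b = 0
  · subst h; simp [Q0]
  · simp [hs, h]

lemma trQ (hp : p ∈ U n) : ∑ a, sg a * Q a a p = n - 1 := by
  have e : ∀ a, sg a * Q a a p = hs a - sg a * (N a p * N a p) := fun a => by
    unfold Q sg hs
    simp only [if_true]
    split_ifs <;> ring
  simp only [e, Finset.sum_sub_distrib, sNN hp]
  rw [Fin.sum_univ_succ]
  simp [hs]

/-- the null function -/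
abbrev w (n : ℕ) : E (n + 1) → ℝ := nul fun y => len y

lemma hp_w (hp : p ∈ U n) (a : Fin (n + 1)) : HP a (w n) (d0 a + N a p) p := by
  have h := (HP.coord a 0 p).add (hp_R hp a)
  have e : (if (0 : Fin (n + 1)) = a then (1 : ℝ) else 0) = d0 a := by
    simp only [d0, eq_comm]
  rw [e] at h
  exact h

lemma pd_w (hp : p ∈ U n) (a : Fin (n + 1)) : pd a (w n) p = d0 a + N a p := (hp_w hp a).pd

lemma pd2_w (hp : p ∈ U n) (a b : Fin (n + 1)) : pd a (pd b (w n)) p = Q a b p / R p := by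
  have h := (HP.const a (d0 b) p).add (hp_N hp a b)
  rw [zero_add] at h
  exact (hp_congrU op_U hp (fun y hy => pd_w hy b) h).pd

lemma sm_w (hp : p ∈ U n) : ContDiffAt ℝ ∞ (w n) p :=
  (EuclideanSpace.proj (0 : Fin (n + 1)) : E (n + 1) →L[ℝ] ℝ).contDiff.contDiffAt.add (sm_R hp)

/-- a radial profile with two derivatives -/
structure Rad (φ φ₁ φ₂ : ℝ → ℝ) : Prop where
  sm : ∀ r > (0 : ℝ), ContDiffAt ℝ ∞ φ r
  d1 : ∀ r > (0 : ℝ), HasDerivAt φ (φ₁ r) r
  d2 : ∀ r > (0 : ℝ), HasDerivAt φ₁ (φ₂ r) r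

variable {φ φ₁ φ₂ : ℝ → ℝ}

/-- the metric -/
abbrev G (n : ℕ) (φ : ℝ → ℝ) : Vale.Agent.P366.Stmt.Field (n + 1) :=
  ksG (fun y => len y) fun p => φ (len (sp p))

lemma Rad.pd1 (h : Rad φ φ₁ φ₂) (hp : p ∈ U n) (a : Fin (n + 1)) :
    pd a (fun p => φ (R p)) p = φ₁ (R p) * N a p :=
  (hp_cmp (h.d1 _ (R_pos hp)) (hp_R hp a)).pd

lemma Rad.pd2 (h : Rad φ φ₁ φ₂) (hp : p ∈ U n) (a b : Fin (n + 1)) :
    pd a (pd b fun p => φ (R p)) p =
      φ₂ (R p) * (N a p * N b p) + φ₁ (R p) / R p * Q a b p := by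
  have h1 := (hp_cmp (h.d2 _ (R_pos hp)) (hp_R hp a)).mul (hp_N hp a b)
  rw [(hp_congrU op_U hp (fun y hy => h.pd1 hy b) h1).pd]
  ring

lemma cr {m : ℕ} {f : E m → ℝ} {S : Set (E m)} (h : ∀ p ∈ S, ContDiffAt ℝ ∞ f p) (r : ℕ) :
    CR r S f :=
  fun p hp => (h p hp).of_le (by exact_mod_cast le_top)

lemma Rad.smV (h : Rad φ φ₁ φ₂) (hp : p ∈ U n) : ContDiffAt ℝ ∞ (fun p => φ (R p)) p :=
  (h.sm _ (R_pos hp)).comp p (sm_R hp)

lemma Rad.ks (h : Rad φ φ₁ φ₂) : KSg sg (G n φ) (w n) (fun p => φ (R p)) (U n) where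
  op := op_U
  he a := by unfold sg; split_ifs <;> simp
  sw := cr (fun _ => sm_w) 6
  sV := cr (fun _ => h.smV) 6
  hg x _ a b := by
    simp only [ksG, sg, R]
    ring
  null x hx := by
    have e : ∀ a, sg a * (pd a (w n) x * pd a (w n) x) = sg a * (d0 a * (d0 a + 2 * N a x)) +
        sg a * (N a x * N a x) := fun a => by rw [pd_w hx]; ring
    simp only [e, Finset.sum_add_distrib, sd0, sNN hx, N0]
    simp [d0]

/-- the Ricci tensor -/
theorem Rad.ric_eq (h : Rad φ φ₁ φ₂) (hp : p ∈ U n) (a b : Fin (n + 1)) :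
    Vale.Agent.P366.Kerr.ric (G n φ) a b p = (φ₁ (R p) + (n - 2) * φ (R p) / R p) / R p * Q a b p +
      (φ₂ (R p) + (n - 1) * φ₁ (R p) / R p) * ((N a p * (d0 b + N b p) + N b p * (d0 a + N a p)) +
        (φ (R p) - 1) * ((d0 a + N a p) * (d0 b + N b p))) / 2 := by
  have h0 := (R_pos hp).ne'
  have swN : ∑ a, sg a * ((d0 a + N a p) * N a p) = 1 := by
    simp only [add_mul, mul_add, Finset.sum_add_distrib, sd0, sNN hp, N0]
    simp
  have swQ : ∀ b, ∑ a, sg a * ((d0 a + N a p) * Q a b p) = 0 := fun b => by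
    simp only [add_mul, mul_add, Finset.sum_add_distrib, sd0, sNQ hp, Q0]
    simp
  have hVk : Vk sg (w n) (fun p => φ (R p)) p = φ₁ (R p) := by
    have e : ∀ a, sg a * (pd a (w n) p * pd a (fun p => φ (R p)) p) =
        φ₁ (R p) * (sg a * ((d0 a + N a p) * N a p)) := fun a => by
      rw [pd_w hp, h.pd1 hp]; ring
    simp only [Vk, e, ← Finset.mul_sum, swN, mul_one]
  have hth : th sg (w n) p = (n - 1) / R p := by
    have e : ∀ a, sg a * pd a (pd a (w n)) p = sg a * Q a a p / R p := fun a => by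
      rw [pd2_w hp]; ring
    simp only [th, e, ← Finset.sum_div, trQ hp]
  have hws : ∀ a b, ws sg (w n) a b p = Q a b p / R p ^ 2 := fun a b => by
    have e : ∀ c, sg c * (pd c (pd a (w n)) p * pd c (pd b (w n)) p) =
        sg c * (Q c a p * Q c b p) / R p ^ 2 := fun c => by
      rw [pd2_w hp, pd2_w hp]; field_simp
    simp only [ws, e, ← Finset.sum_div, sQQ hp]
  have hX : ∀ a, Xa sg (w n) (fun p => φ (R p)) a p = φ₂ (R p) * N a p := fun a => by
    have e : ∀ c, sg c * (pd c (w n) p * pd c (pd a fun p => φ (R p)) p) =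
        φ₂ (R p) * N a p * (sg c * ((d0 c + N c p) * N c p)) +
          φ₁ (R p) / R p * (sg c * ((d0 c + N c p) * Q c a p)) := fun c => by
      rw [pd_w hp, h.pd2 hp]; ring
    simp only [Xa, e, Finset.sum_add_distrib, ← Finset.mul_sum, swN, swQ, mul_one, mul_zero,
      add_zero]
  have hq : ∀ a, qa sg (w n) (fun p => φ (R p)) a p = 0 := fun a => by
    have e : ∀ c, sg c * (pd c (fun p => φ (R p)) p * pd c (pd a (w n)) p) =
        φ₁ (R p) / R p * (sg c * (N c p * Q c a p)) := fun c => by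
      rw [pd2_w hp, h.pd1 hp]; ring
    simp only [qa, e, ← Finset.mul_sum, sNQ hp, mul_zero]
  have hkk : Vkk sg (w n) (fun p => φ (R p)) p = φ₂ (R p) := by
    have e : ∀ a, sg a * (pd a (w n) p * Xa sg (w n) (fun p => φ (R p)) a p) =
        φ₂ (R p) * (sg a * ((d0 a + N a p) * N a p)) := fun a => by
      rw [pd_w hp, hX]; ring
    simp only [Vkk, e, ← Finset.mul_sum, swN, mul_one]
  have hbx : bx sg (fun p => φ (R p)) p = φ₂ (R p) + (n - 1) * φ₁ (R p) / R p := by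
    have e : ∀ a, sg a * pd a (pd a fun p => φ (R p)) p =
        φ₂ (R p) * (sg a * (N a p * N a p)) + φ₁ (R p) / R p * (sg a * Q a a p) := fun a => by
      rw [h.pd2 hp]; ring
    simp only [bx, e, Finset.sum_add_distrib, ← Finset.mul_sum, sNN hp, trQ hp]
    ring
  have h1 := h.ks.ric_eq hp a b
  simp only [Aa, hVk, hth, hws, hX, hq, hkk, hbx, pd_w hp, pd2_w hp, h.pd1 hp] at h1
  refine h1.trans ?_
  field_simp
  ring

lemma Rad.up_eq (h : Rad φ φ₁ φ₂) (hp : p ∈ U n) (a b : Fin (n + 1)) :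
    up (G n φ) a b p = (if a = b then sg a else 0) -
      φ (R p) * ((sg a * (d0 a + N a p)) * (sg b * (d0 b + N b p))) := by
  rw [h.ks.toKS0.up_eq hp (h.ks.null p hp), pd_w hp, pd_w hp]

lemma Rad.met (h : Rad φ φ₁ φ₂) : Vale.Agent.P366.GC.Met (G n φ) (U n) where
  op := op_U
  sm a b := fun p hp => (((CR.const _).add ((h.ks.sV.le (s := 4) (by norm_num)).mul
      (((h.ks.toKS0.sw1' a).le (s := 4) (by norm_num)).mul
        ((h.ks.toKS0.sw1' b).le (s := 4) (by norm_num))))) p hp).congr_of_eventuallyEq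
    (by filter_upwards [op_U.mem_nhds hp] with y hy using h.ks.hg y hy a b)
  symm x hx a b := by
    rw [h.ks.hg x hx, h.ks.hg x hx, mul_comm (pd a _ x)]
    by_cases e : a = b
    · subst e; rfl
    · rw [if_neg e, if_neg (Ne.symm e)]
  det x hx h0 := by
    have h1 : ∀ a, sg a * up (G n φ) a a x = 0 := fun a => by
      rw [up, Matrix.nonsing_inv_apply_not_isUnit _ (by simp [h0])]
      simp
    have h2 : ∀ a, sg a * up (G n φ) a a x =
        1 - φ (R x) * (sg a * (pd a (w n) x * pd a (w n) x)) := fun a => by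
      rw [h.up_eq hx, pd_w hx, if_pos rfl]
      linear_combination (1 - φ (R x) * sg a * (d0 a + N a x) ^ 2) * h.ks.he a
    have h3 : ∑ a, sg a * up (G n φ) a a x = 0 := Finset.sum_eq_zero fun a _ => h1 a
    simp only [h2, Finset.sum_sub_distrib, ← Finset.mul_sum, h.ks.null x hx] at h3
    simp only [Finset.sum_const, Finset.card_univ, Fintype.card_fin, nsmul_eq_mul] at h3
    have : (0 : ℝ) < ((n + 1 : ℕ) : ℝ) := by positivity
    linarith

/-! ### slices -/

variable {f : E n → ℝ} {y : E n} {W : Set (E n)}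

lemma sp_pt (t : ℝ) (y : E n) : sp (pt t y) = y := by
  ext i
  simp [sp, pt]

lemma pt_mem (t : ℝ) (hy : y ≠ 0) : pt t y ∈ U n := by
  rw [U, mem_ofPred_eq, sp_pt]
  exact hy

lemma R_pt (t : ℝ) (y : E n) : R (pt t y) = ‖y‖ := by rw [R, sp_pt, len]

lemma N_pt (t : ℝ) (y : E n) (i : Fin n) : N i.succ (pt t y) = y i / ‖y‖ := by
  rw [N, R_pt]
  simp [hs, pt]

/-- the induced metric -/
theorem Rad.indG_eq (h : Rad φ φ₁ φ₂) (hy : y ≠ 0) (i j : Fin n) :
    indG (G n φ) f y i j = (if i = j then 1 else 0) - pd i f y * pd j f y +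
      φ ‖y‖ * ((pd i f y + y i / ‖y‖) * (pd j f y + y j / ‖y‖)) := by
  have hp := pt_mem (f y) hy
  have e1 : ∀ k, ∑ a, pd a (w n) (pt (f y) y) * Vale.Agent.P366.Kerr.tng f k y a =
      pd k f y + y k / ‖y‖ := fun k => by
    simp only [pd_w hp, Fin.sum_univ_succ, N0, N_pt, Vale.Agent.P366.Kerr.tng, Fin.cons_zero,
      Fin.cons_succ]
    simp [d0, Pi.single_apply]
  have e2 : ∀ a b, G n φ (pt (f y) y) a b * Vale.Agent.P366.Kerr.tng f i y a *
      Vale.Agent.P366.Kerr.tng f j y b = (if a = b then sg a * Vale.Agent.P366.Kerr.tng f i y a *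
        Vale.Agent.P366.Kerr.tng f j y a else 0) + φ ‖y‖ *
        ((pd a (w n) (pt (f y) y) * Vale.Agent.P366.Kerr.tng f i y a) *
          (pd b (w n) (pt (f y) y) * Vale.Agent.P366.Kerr.tng f j y b)) := fun a b => by
    rw [h.ks.hg _ hp, R_pt]
    split_ifs with e
    · subst e; ring
    · ring
  simp only [indG, e2, Finset.sum_add_distrib, Finset.sum_ite_eq, Finset.mem_univ, if_true,
    ← Finset.mul_sum, ← Finset.sum_mul, e1]
  rw [Fin.sum_univ_succ]
  simp only [Vale.Agent.P366.Kerr.tng, Fin.cons_zero, Fin.cons_succ, sg, Fin.succ_ne_zero,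
    if_true, if_false, Pi.single_apply]
  simp only [mul_ite, mul_one, mul_zero, Finset.sum_ite_eq',
    Finset.mem_univ, if_true]
  by_cases e : i = j
  · subst e; simp; ring
  · simp [e, Ne.symm e]

/-- the square of the conormal -/
theorem Rad.con_eq (h : Rad φ φ₁ φ₂) (hy : y ≠ 0) :
    ∑ a, ∑ b, up (G n φ) a b (pt (f y) y) * Vale.Agent.P366.Kerr.con f y a *
      Vale.Agent.P366.Kerr.con f y b = -1 + ∑ i, pd i f y ^ 2 -
        φ ‖y‖ * (1 + ∑ i, y i / ‖y‖ * pd i f y) ^ 2 := by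
  have hp := pt_mem (f y) hy
  have e1 : ∑ a, sg a * (d0 a + N a (pt (f y) y)) * Vale.Agent.P366.Kerr.con f y a =
      -(1 + ∑ i, y i / ‖y‖ * pd i f y) := by
    simp only [Fin.sum_univ_succ, N0, N_pt, Vale.Agent.P366.Kerr.con, Fin.cons_zero,
      Fin.cons_succ]
    simp [d0, sg]
    ring
  have e2 : ∀ a b, up (G n φ) a b (pt (f y) y) * Vale.Agent.P366.Kerr.con f y a *
      Vale.Agent.P366.Kerr.con f y b = (if a = b then sg a * Vale.Agent.P366.Kerr.con f y a ^ 2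
        else 0) - φ ‖y‖ * ((sg a * (d0 a + N a (pt (f y) y)) * Vale.Agent.P366.Kerr.con f y a) *
          (sg b * (d0 b + N b (pt (f y) y)) * Vale.Agent.P366.Kerr.con f y b)) := fun a b => by
    rw [h.up_eq hp, R_pt]
    split_ifs with e
    · subst e; ring
    · ring
  simp only [e2, Finset.sum_sub_distrib, Finset.sum_ite_eq, Finset.mem_univ, if_true,
    ← Finset.mul_sum, ← Finset.sum_mul, e1]
  rw [Fin.sum_univ_succ]
  simp only [Vale.Agent.P366.Kerr.con, Fin.cons_zero, Fin.cons_succ, sg, Fin.succ_ne_zero,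
    if_true, if_false, one_mul, neg_sq]
  ring

lemma sum_lt (hf : ∑ i, pd i f y ^ 2 < 1) {ξ : Fin n → ℝ} (hξ : ξ ≠ 0) :
    (∑ i, pd i f y * ξ i) ^ 2 < ∑ i, ξ i ^ 2 := by
  have h1 : 0 < ∑ i, ξ i ^ 2 := by
    obtain ⟨i, hi⟩ := Function.ne_iff.1 hξ
    exact Finset.sum_pos' (fun _ _ => sq_nonneg _) ⟨i, Finset.mem_univ _, sq_pos_of_ne_zero hi⟩
  have h2 := Finset.sum_mul_sq_le_sq_mul_sq Finset.univ (fun i => pd i f y) ξ
  nlinarith

/-- the induced quadratic form -/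
theorem Rad.form (h : Rad φ φ₁ φ₂) (hy : y ≠ 0) (ξ : Fin n → ℝ) :
    ∑ i, ∑ j, indG (G n φ) f y i j * ξ i * ξ j = ∑ i, ξ i ^ 2 - (∑ i, pd i f y * ξ i) ^ 2 +
      φ ‖y‖ * (∑ i, (pd i f y + y i / ‖y‖) * ξ i) ^ 2 := by
  have e : ∀ i j, indG (G n φ) f y i j * ξ i * ξ j = (if i = j then ξ i ^ 2 else 0) -
      (pd i f y * ξ i) * (pd j f y * ξ j) +
        φ ‖y‖ * (((pd i f y + y i / ‖y‖) * ξ i) * ((pd j f y + y j / ‖y‖) * ξ j)) := fun i j => by
    rw [h.indG_eq hy]
    split_ifs with e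
    · subst e; ring
    · ring
  simp only [e, Finset.sum_add_distrib, Finset.sum_sub_distrib, Finset.sum_ite_eq,
    Finset.mem_univ, if_true, ← Finset.mul_sum, ← Finset.sum_mul]
  ring

theorem Rad.posDef (h : Rad φ φ₁ φ₂) (hy : y ≠ 0) (h0 : 0 ≤ φ ‖y‖) (hf : ∑ i, pd i f y ^ 2 < 1) :
    (mat (indG (G n φ) f) y).PosDef := by
  refine Matrix.PosDef.of_dotProduct_mulVec_pos ?_ fun ξ hξ => ?_
  · ext i j
    change indG (G n φ) f y j i = indG (G n φ) f y i j
    rw [h.indG_eq hy, h.indG_eq hy]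
    by_cases e : i = j
    · subst e; rfl
    · rw [if_neg e, if_neg (Ne.symm e)]; ring
  · have e : star ξ ⬝ᵥ (mat (indG (G n φ) f) y).mulVec ξ =
        ∑ i, ∑ j, indG (G n φ) f y i j * ξ i * ξ j := by
      simp only [dotProduct, Matrix.mulVec, mat, star_trivial, Finset.mul_sum]
      exact Finset.sum_congr rfl fun i _ => Finset.sum_congr rfl fun j _ => by ring
    rw [e, h.form hy]
    have := sum_lt hf hξ
    have := mul_nonneg h0 (sq_nonneg (∑ i, (pd i f y + y i / ‖y‖) * ξ i))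
    linarith

theorem Rad.sl (h : Rad φ φ₁ φ₂) (hW : IsOpen W) (hf : ∀ y ∈ W, ContDiffAt ℝ ∞ f y)
    (hy : ∀ y ∈ W, y ≠ 0 ∧ 0 ≤ φ ‖y‖ ∧ ∑ i, pd i f y ^ 2 < 1) :
    Vale.Agent.P366.GC.Sl (G n φ) f (U n) W where
  met := h.met
  opW := hW
  sf := cr hf 6
  map y h1 := pt_mem _ (hy y h1).1
  neg y h1 := by
    obtain ⟨h2, h3, h4⟩ := hy y h1
    rw [h.con_eq h2]
    have := mul_nonneg h3 (sq_nonneg (1 + ∑ i, y i / ‖y‖ * pd i f y))
    linarith
  det y h1 := (h.posDef (hy y h1).1 (hy y h1).2.1 (hy y h1).2.2).det_pos.ne'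

/-! ### vacuum -/

/-- the profile of Schwarzschild -/
def sw (n : ℕ) (c r : ℝ) : ℝ := c * r ^ (2 - n : ℝ)

lemma rad_sw (n : ℕ) (c : ℝ) : Rad (sw n c) (fun r => c * ((2 - n) * r ^ (1 - n : ℝ)))
    fun r => c * ((2 - n) * ((1 - n) * r ^ (-n : ℝ))) where
  sm r hr := contDiffAt_const.mul (Real.contDiffAt_rpow_const_of_ne hr.ne')
  d1 r hr := by
    have h := (Real.hasDerivAt_rpow_const (p := (2 - n : ℝ)) (Or.inl hr.ne')).const_mul c
    rwa [show (2 - n - 1 : ℝ) = 1 - n by ring] at h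
  d2 r hr := by
    have h := ((Real.hasDerivAt_rpow_const (p := (1 - n : ℝ)) (Or.inl hr.ne')).const_mul
      (2 - n : ℝ)).const_mul c
    rwa [show (1 - n - 1 : ℝ) = -n by ring] at h

theorem ric_zero (c : ℝ) (hp : p ∈ U n) (a b : Fin (n + 1)) :
    Vale.Agent.P366.Kerr.ric (G n (sw n c)) a b p = 0 := by
  have h0 := R_pos hp
  have e1 : R p ^ (2 - n : ℝ) = R p ^ (-n : ℝ) * R p ^ 2 := by
    rw [← Real.rpow_two, ← Real.rpow_add h0]
    congr 1
    ring
  have e2 : R p ^ (1 - n : ℝ) = R p ^ (-n : ℝ) * R p := by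
    rw [← Real.rpow_add_one h0.ne']
    congr 1
    ring
  have h1 : c * ((2 - n) * R p ^ (1 - n : ℝ)) + (n - 2) * sw n c (R p) / R p = 0 := by
    rw [sw, e1, e2]
    field_simp
    ring
  have h2 : c * ((2 - n) * ((1 - n) * R p ^ (-n : ℝ))) +
      (n - 1) * (c * ((2 - n) * R p ^ (1 - n : ℝ))) / R p = 0 := by
    rw [e2]
    field_simp
    ring
  rw [(rad_sw n c).ric_eq hp, h1, h2]
  simp

theorem ein_zero (c : ℝ) (hp : p ∈ U n) (a b : Fin (n + 1)) :
    Vale.Agent.P366.Kerr.ein (G n (sw n c)) a b p = 0 := by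
  rw [Vale.Agent.P366.Kerr.ein, Vale.Agent.P366.GC.scal_ric']
  simp [ric_zero c hp]

/-- the slices of the Schwarzschild spacetime satisfy the vacuum constraint equations -/
theorem vac {c : ℝ} (hc : 0 ≤ c) (hW : IsOpen W) (hf : ∀ y ∈ W, ContDiffAt ℝ ∞ f y)
    (hy : ∀ y ∈ W, y ≠ 0 ∧ ∑ i, pd i f y ^ 2 < 1) (h : y ∈ W) :
    mu (indG (G n (sw n c)) f) (indK (G n (sw n c)) f) y = 0 ∧
      ∀ j, mom (indG (G n (sw n c)) f) (indK (G n (sw n c)) f) j y = 0 := by
  have hS := (rad_sw n c).sl hW hf fun y h => ⟨(hy y h).1,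
    mul_nonneg hc (Real.rpow_nonneg (norm_nonneg _) _), (hy y h).2⟩
  refine ⟨?_, fun j => ?_⟩
  · rw [Vale.Agent.P366.GC.mu_eq hS h]
    simp [ein_zero c (hS.map y h)]
  · rw [Vale.Agent.P366.GC.mom_ein hS h]
    simp [ein_zero c (hS.map y h)]

end Vale.Agent.P366Y.B.Vac
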